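import Vale.Agent.P367.MathlibUsed
import Vale.Agent.P367.Gap.Defs
import Vale.Agent.P367.Gap.Values

set_option linter.all false

section

section

open Finset Polynomial

namespace Vale.Agent.P367.Gap

lemma poly_extrap (N : ℕ) (Q : Polynomial ℂ) (hQ : Q.natDegree ≤ N) (M : ℝ)
    (hM : ∀ j ≤ N, ‖Q.eval (j : ℂ)‖ ≤ M) : ‖Q.eval ((2 * N : ℕ) : ℂ)‖ ≤ 8 ^ N * M := by
  have hM0 : 0 ≤ M := le_trans (norm_nonneg _) (hM 0 (Nat.zero_le _))
  have h1 := shift_eq_sum_fwdDiff_iter (1 : ℂ) (fun x => Q.eval x) (2 * N) 0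
  have h2 : (0 : ℂ) + (2 * N) • (1 : ℂ) = ((2 * N : ℕ) : ℂ) := by simp
  rw [h2] at h1
  have h3 : ∀ k ∈ range (2 * N + 1),
      ‖(2 * N).choose k • (fwdDiff (1 : ℂ))^[k] (fun x => Q.eval x) 0‖
        ≤ ((2 * N).choose k : ℝ) * (2 ^ N * M) := by
    intro k _
    rw [nsmul_eq_mul, norm_mul, Complex.norm_natCast]
    apply mul_le_mul_of_nonneg_left _ (Nat.cast_nonneg _)
    rcases lt_or_ge N k with hk | hk
    · have : (fwdDiff (1 : ℂ))^[k] (fun x => Q.eval x) = 0 :=
        Polynomial.fwdDiff_iter_eq_zero_of_degree_lt (lt_of_le_of_lt hQ hk)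
      rw [this]
      simp only [Pi.zero_apply, norm_zero]
      positivity
    · rw [fwdDiff_iter_eq_sum_shift]
      calc ‖∑ j ∈ range (k + 1), ((-1 : ℤ) ^ (k - j) * k.choose j) • Q.eval (0 + j • (1 : ℂ))‖
          ≤ ∑ j ∈ range (k + 1), ‖((-1 : ℤ) ^ (k - j) * k.choose j) • Q.eval (0 + j • (1 : ℂ))‖ :=
            norm_sum_le _ _
        _ ≤ ∑ j ∈ range (k + 1), (k.choose j : ℝ) * M := by
            apply Finset.sum_le_sum
            intro j hj
            have hj' : j ≤ N := le_trans (Nat.lt_succ_iff.mp (mem_range.mp hj)) hk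
            rw [zsmul_eq_mul, norm_mul]
            have e1 : ‖(((-1 : ℤ) ^ (k - j) * (k.choose j : ℤ) : ℤ) : ℂ)‖ = (k.choose j : ℝ) := by
              push_cast
              rw [norm_mul, norm_pow, norm_neg, norm_one, one_pow, one_mul, Complex.norm_natCast]
            rw [e1]
            apply mul_le_mul_of_nonneg_left _ (Nat.cast_nonneg _)
            have := hM j hj'
            simpa only [nsmul_eq_mul, mul_one, zero_add, ge_iff_le] using this
        _ = 2 ^ k * M := by
            rw [← Finset.sum_mul]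
            congr 1
            exact_mod_cast Nat.sum_range_choose k
        _ ≤ 2 ^ N * M := by
            apply mul_le_mul_of_nonneg_right _ hM0
            exact pow_le_pow_right₀ (by norm_num) hk
  rw [h1]
  calc ‖∑ k ∈ range (2 * N + 1), (2 * N).choose k • (fwdDiff (1 : ℂ))^[k] (fun x => Q.eval x) 0‖
      ≤ ∑ k ∈ range (2 * N + 1),
        ‖(2 * N).choose k • (fwdDiff (1 : ℂ))^[k] (fun x => Q.eval x) 0‖ := norm_sum_le _ _
    _ ≤ ∑ k ∈ range (2 * N + 1), ((2 * N).choose k : ℝ) * (2 ^ N * M) := Finset.sum_le_sum h3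
    _ = 2 ^ (2 * N) * (2 ^ N * M) := by
        rw [← Finset.sum_mul]
        congr 1
        exact_mod_cast Nat.sum_range_choose (2 * N)
    _ = 8 ^ N * M := by
        rw [pow_mul, ← mul_assoc, ← mul_pow]
        norm_num

lemma entire_extrap (T S : ℝ) (hT : 0 ≤ T) (hS : 0 < S) (N : ℕ) (hN : 0 < N)
    (hN' : 50 * T * S ≤ N) (F : ℂ → ℂ) (hF : Differentiable ℂ F)
    (hb : ∀ z, ‖F z‖ ≤ Real.exp (T * ‖z‖)) (h0 : F 0 = 1) :
    1 / 2 ≤ 8 ^ N * ∑ k ∈ range (N + 1), ‖F ((2 * S - k * (S / N) : ℝ) : ℂ)‖ := by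
  have hNr : (0 : ℝ) < N := by exact_mod_cast hN
  set R : ℝ := 32 * S with hR
  have hR0 : 0 < R := by positivity
  set E : ℝ := Real.exp (T * R) with hE
  have hE0 : 0 < E := Real.exp_pos _
  set c : ℕ → ℂ := fun m => ((m.factorial : ℂ))⁻¹ * iteratedDeriv m F 0 with hc
  have hcb : ∀ m, ‖c m‖ ≤ E / R ^ m := by
    intro m
    have h := Complex.norm_iteratedDeriv_le_of_forall_mem_sphere_norm_le (c := 0) (R := R)
      (C := E) m hR0 hF.diffContOnCl (by
        intro z hz
        have hz' : ‖z‖ = R := by simpa using hz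
        have := hb z
        rwa [hz'] at this)
    have hm : (0 : ℝ) < m.factorial := by exact_mod_cast m.factorial_pos
    simp only [hc, norm_mul, norm_inv, Complex.norm_natCast]
    rw [inv_mul_le_iff₀ hm]
    calc ‖iteratedDeriv m F 0‖ ≤ m.factorial * E / R ^ m := h
      _ = m.factorial * (E / R ^ m) := by ring
  have hsum : ∀ z : ℂ, HasSum (fun m => c m * z ^ m) (F z) := by
    intro z
    have h := Complex.hasSum_taylorSeries_of_entire hF 0 z
    have e : (fun m => c m * z ^ m)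
        = fun n : ℕ => ((n.factorial : ℂ))⁻¹ • (z - 0) ^ n • iteratedDeriv n F 0 := by
      funext m
      simp only [hc, sub_zero, smul_eq_mul]
      ring
    rw [e]
    exact h
  set P : Polynomial ℂ := ∑ m ∈ range (N + 1), Polynomial.monomial m (c m) with hP
  have hPdeg : P.natDegree ≤ N := by
    apply Polynomial.natDegree_sum_le_of_forall_le
    intro m hm
    exact le_trans (Polynomial.natDegree_monomial_le _) (Nat.lt_succ_iff.mp (mem_range.mp hm))
  have hPeval : ∀ z, P.eval z = ∑ m ∈ range (N + 1), c m * z ^ m := by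
    intro z
    simp [hP, Polynomial.eval_finsetSum, Polynomial.eval_monomial]
  set tl : ℝ := E * (1 / 16) ^ (N + 1) * 2 with htl
  have htl0 : 0 ≤ tl := by positivity
  have htail : ∀ z : ℂ, ‖z‖ ≤ 2 * S → ‖P.eval z‖ ≤ ‖F z‖ + tl := by
    intro z hz
    have hs := hsum z
    have h1 : HasSum (fun m => c (m + (N + 1)) * z ^ (m + (N + 1)))
        (F z - ∑ m ∈ range (N + 1), c m * z ^ m) := by
      exact (hasSum_nat_add_iff' (N + 1)).mpr hs
    have hterm : ∀ m, ‖c (m + (N + 1)) * z ^ (m + (N + 1))‖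
        ≤ E * (1 / 16) ^ (N + 1) * (1 / 16) ^ m := by
      intro m
      rw [norm_mul, norm_pow]
      calc ‖c (m + (N + 1))‖ * ‖z‖ ^ (m + (N + 1))
          ≤ E / R ^ (m + (N + 1)) * (2 * S) ^ (m + (N + 1)) := by
            apply mul_le_mul (hcb _) (pow_le_pow_left₀ (norm_nonneg _) hz _) (by (clear * -; positivity))
              (by positivity)
        _ = E * ((2 * S) / R) ^ (m + (N + 1)) := by
            rw [div_pow]; ring
        _ = E * (1 / 16) ^ (m + (N + 1)) := by
            congr 2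
            rw [hR]
            field_simp
            norm_num
        _ = E * (1 / 16) ^ (N + 1) * (1 / 16) ^ m := by
            rw [pow_add]; ring
    have hgeo : HasSum (fun m : ℕ => E * (1 / 16 : ℝ) ^ (N + 1) * (1 / 16) ^ m)
        (E * (1 / 16) ^ (N + 1) * (1 - 1 / 16)⁻¹) :=
      (hasSum_geometric_of_lt_one (by norm_num) (by norm_num)).mul_left _
    have h2 : ‖F z - ∑ m ∈ range (N + 1), c m * z ^ m‖
        ≤ E * (1 / 16) ^ (N + 1) * (1 - 1 / 16)⁻¹ := by
      rw [← h1.tsum_eq]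
      exact tsum_of_norm_bounded hgeo hterm
    have h3 : E * (1 / 16 : ℝ) ^ (N + 1) * (1 - 1 / 16)⁻¹ ≤ tl := by
      rw [htl]
      apply mul_le_mul_of_nonneg_left _ (by positivity)
      norm_num
    rw [← hPeval] at h2
    calc ‖P.eval z‖ = ‖F z - (F z - P.eval z)‖ := by ring_nf
      _ ≤ ‖F z‖ + ‖F z - P.eval z‖ := norm_sub_le _ _
      _ ≤ ‖F z‖ + tl := by linarith only [htl0, h2]
  -- the polynomial in the node variable
  set Q : Polynomial ℂ :=
    P.comp (Polynomial.C ((2 * S : ℝ) : ℂ) - Polynomial.C ((S / N : ℝ) : ℂ) * Polynomial.X) with hQ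
  have hQeval : ∀ y : ℂ, Q.eval y = P.eval (((2 * S : ℝ) : ℂ) - ((S / N : ℝ) : ℂ) * y) := by
    intro y
    simp only [hQ, Complex.ofReal_mul, Complex.ofReal_ofNat, map_mul, Complex.ofReal_div, Complex.ofReal_natCast, eval_comp, eval_sub, eval_mul, eval_C, eval_X]
  have hQdeg : Q.natDegree ≤ N := by
    have h1 : (Polynomial.C ((2 * S : ℝ) : ℂ)
        - Polynomial.C ((S / N : ℝ) : ℂ) * Polynomial.X).natDegree ≤ 1 := by
      apply le_trans (Polynomial.natDegree_sub_le _ _)
      apply max_le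
      · rw [Polynomial.natDegree_C]; exact Nat.zero_le _
      · refine le_trans (Polynomial.natDegree_C_mul_le _ _) ?_
        exact Polynomial.natDegree_X_le
    calc Q.natDegree ≤ P.natDegree * _ := Polynomial.natDegree_comp_le
      _ ≤ N * 1 := Nat.mul_le_mul hPdeg h1
      _ = N := by ring
  set M : ℝ := (∑ k ∈ range (N + 1), ‖F ((2 * S - k * (S / N) : ℝ) : ℂ)‖) + tl with hM
  have hnode : ∀ j ≤ N, ‖Q.eval (j : ℂ)‖ ≤ M := by
    intro j hj
    have hjr : (j : ℝ) ≤ N := by exact_mod_cast hj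
    have e1 : ((2 * S : ℝ) : ℂ) - ((S / N : ℝ) : ℂ) * (j : ℂ)
        = ((2 * S - j * (S / N) : ℝ) : ℂ) := by push_cast; ring
    rw [hQeval, e1]
    have hfrac : (j : ℝ) * (S / N) ≤ S := by
      rw [mul_div_assoc', div_le_iff₀ hNr, mul_comm]
      exact mul_le_mul_of_nonneg_left hjr hS.le
    have hnn : 0 ≤ (j : ℝ) * (S / N) := by (clear * - hS hN; positivity)
    have hz : ‖((2 * S - j * (S / N) : ℝ) : ℂ)‖ ≤ 2 * S := by
      rw [Complex.norm_real, Real.norm_eq_abs, abs_of_nonneg (by linarith only [hS, hfrac])]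
      linarith only [hnn]
    refine le_trans (htail _ hz) ?_
    rw [hM]
    have : ‖F ((2 * S - j * (S / N) : ℝ) : ℂ)‖
        ≤ ∑ k ∈ range (N + 1), ‖F ((2 * S - k * (S / N) : ℝ) : ℂ)‖ := by
      apply Finset.single_le_sum (f := fun k : ℕ => ‖F ((2 * S - k * (S / N) : ℝ) : ℂ)‖)
        (fun i _ => norm_nonneg _) (mem_range.mpr (Nat.lt_succ_of_le hj))
    linarith only [this]
  have hmain := poly_extrap N Q hQdeg M hnode
  have hQ0 : Q.eval ((2 * N : ℕ) : ℂ) = 1 := by
    rw [hQeval]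
    have e1 : ((2 * S : ℝ) : ℂ) - ((S / N : ℝ) : ℂ) * ((2 * N : ℕ) : ℂ) = 0 := by
      push_cast
      have : (N : ℂ) ≠ 0 := by exact_mod_cast hN.ne'
      field_simp
      ring
    rw [e1, hPeval]
    have h2 := hsum 0
    have h3 : F 0 = c 0 := by
      have h4 : HasSum (fun m => c m * (0 : ℂ) ^ m) (c 0 * (0 : ℂ) ^ 0) := by
        apply hasSum_single 0
        intro m hm
        simp [hm]
      have h5 := h2.unique h4
      simpa using h5
    rw [Finset.sum_eq_single 0]
    · simp [← h3, h0]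
    · intro m _ hm
      simp [hm]
    · intro h
      simp only [mem_range, lt_add_iff_pos_left, Order.lt_add_one_iff, zero_le, not_true_eq_false] at h
  rw [hQ0, norm_one, hM, mul_add] at hmain
  have htailsmall : (8 : ℝ) ^ N * tl ≤ 1 / 8 := by
    rw [htl, hE]
    have hexp : Real.exp (T * R) ≤ 2 ^ N := by
      have h1 : T * R ≤ N * Real.log 2 := by
        have hlog : (0.64 : ℝ) ≤ Real.log 2 := by
          have := Real.log_two_gt_d9
          linarith only [this]
        have h2 : T * R = 50 * T * S * 0.64 := by rw [hR]; ring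
        rw [h2]
        have hTS : 0 ≤ 50 * T * S := by (clear * - hT hS; positivity)
        nlinarith only [hN', hlog]
      calc Real.exp (T * R) ≤ Real.exp (N * Real.log 2) := Real.exp_le_exp.mpr h1
        _ = 2 ^ N := by
          rw [mul_comm, Real.exp_mul, Real.exp_log (by norm_num)]
          norm_num
    have e : (8 : ℝ) ^ N * (2 ^ N * (1 / 16) ^ (N + 1) * 2) = 1 / 8 := by
      have h16 : (8 : ℝ) ^ N * 2 ^ N = 16 ^ N := by
        rw [← mul_pow]; norm_num
      calc (8 : ℝ) ^ N * (2 ^ N * (1 / 16) ^ (N + 1) * 2)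
          = (8 ^ N * 2 ^ N) * ((1 / 16) ^ N) * (2 / 16) := by rw [pow_succ]; ring
        _ = (16 * (1 / 16)) ^ N * (2 / 16) := by rw [h16, ← mul_pow]
        _ = 1 / 8 := by norm_num
    calc (8 : ℝ) ^ N * (Real.exp (T * R) * (1 / 16) ^ (N + 1) * 2)
        ≤ 8 ^ N * (2 ^ N * (1 / 16) ^ (N + 1) * 2) := by
          apply mul_le_mul_of_nonneg_left _ (by positivity)
          apply mul_le_mul_of_nonneg_right _ (by norm_num)
          apply mul_le_mul_of_nonneg_right hexp (by positivity)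
      _ = 1 / 8 := e
  linarith only [hmain, htailsmall]

end Vale.Agent.P367.Gap
end
end

section

section

open MeasureTheory ProbabilityTheory

namespace Vale.Agent.P367.Gap

lemma gauss_tilt (a : ℝ) : gaussianReal (-a) 1
    = (gaussianReal 0 1).withDensity (fun x => ENNReal.ofReal (Real.exp (-(a * x) - a ^ 2 / 2))) := by
  rw [gaussianReal_of_var_ne_zero _ one_ne_zero, gaussianReal_of_var_ne_zero _ one_ne_zero,
    ← withDensity_mul _ (measurable_gaussianPDF 0 1) (by fun_prop)]
  congr 1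
  funext x
  simp only [Pi.mul_apply, gaussianPDF_def]
  rw [← ENNReal.ofReal_mul (gaussianPDFReal_nonneg _ _ _)]
  congr 1
  simp only [gaussianPDFReal_def]
  have e : Real.exp (-(x - -a) ^ 2 / (2 * ((1 : NNReal) : ℝ)))
      = Real.exp (-(x - 0) ^ 2 / (2 * ((1 : NNReal) : ℝ))) * Real.exp (-(a * x) - a ^ 2 / 2) := by
    rw [← Real.exp_add]
    congr 1
    push_cast
    ring
  rw [e]
  ring

lemma integrable_exp_affine (a b : ℝ) :
    Integrable (fun x => Real.exp (a * x + b)) (gaussianReal 0 1) := by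
  have h : Integrable (fun x => Real.exp (a * x)) (gaussianReal 0 1) :=
    integrable_exp_mul_gaussianReal a
  have := h.mul_const (Real.exp b)
  refine this.congr (Filter.Eventually.of_forall fun x => ?_)
  simp only [← Real.exp_add]

lemma integral_exp_affine (a : ℝ) :
    ∫ x, Real.exp (a * x) ∂(gaussianReal 0 1) = Real.exp (a ^ 2 / 2) := by
  have h := mgf_gaussianReal (p := gaussianReal 0 1) (X := id) (μ := 0) (v := 1) (by simp) a
  simp only [mgf, id] at h
  rw [h]
  congr 1
  push_cast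
  ring

variable {ι : Type*} [Fintype ι]

lemma exp_linear_eq_prod (a : ι → ℝ) (J : ι → ℝ) :
    Real.exp (∑ i, a i * J i) = ∏ i, Real.exp (a i * J i) := Real.exp_sum _ _

lemma integrable_exp_linear (a : ι → ℝ) :
    Integrable (fun J : ι → ℝ => Real.exp (∑ i, a i * J i))
      (Measure.pi fun _ : ι => gaussianReal 0 1) := by
  have h : Integrable (fun J : ι → ℝ => ∏ i, Real.exp (a i * J i))
      (Measure.pi fun _ : ι => gaussianReal 0 1) := by
    apply Integrable.fintype_prod (f := fun i x => Real.exp (a i * x))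
    intro i
    exact integrable_exp_mul_gaussianReal (a i)
  simpa only [exp_linear_eq_prod] using h

lemma integral_exp_linear (a : ι → ℝ) :
    ∫ J, Real.exp (∑ i, a i * J i) ∂(Measure.pi fun _ : ι => gaussianReal 0 1)
      = Real.exp ((∑ i, a i ^ 2) / 2) := by
  simp only [exp_linear_eq_prod]
  have h := integral_fintype_prod_eq_prod (𝕜 := ℝ) (fun (i : ι) (x : ℝ) => Real.exp (a i * x))
    (μ := fun _ => gaussianReal 0 1)
  rw [h]
  simp only [integral_exp_affine]
  rw [← Real.exp_sum, Finset.sum_div]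

lemma pi_tilt (a : ι → ℝ) :
    (Measure.pi fun _ : ι => gaussianReal 0 1).map (fun J => J - a)
      = (Measure.pi fun _ : ι => gaussianReal 0 1).withDensity
        (fun J => ENNReal.ofReal (Real.exp (-(∑ i, a i * J i) - (∑ i, a i ^ 2) / 2))) := by
  have h1 : (Measure.pi fun _ : ι => gaussianReal 0 1).map (fun J => J - a)
      = Measure.pi fun i => gaussianReal (-(a i)) 1 := by
    have e : (fun J : ι → ℝ => J - a) = fun J i => (fun x => x - a i) (J i) := by
      funext J i; rfl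
    have hm : ∀ i, (gaussianReal 0 1).map (fun x => x - a i) = gaussianReal (-(a i)) 1 := by
      intro i
      rw [gaussianReal_map_sub_const]
      simp
    have : ∀ i, SigmaFinite ((gaussianReal 0 1).map (fun x => x - a i)) := by
      intro i
      rw [hm i]
      infer_instance
    rw [e, Measure.pi_map_pi (μ := fun _ : ι => gaussianReal 0 1) (f := fun i x => x - a i)
      (fun i => by fun_prop)]
    congr 1
    funext i
    exact hm i
  rw [h1]
  apply Measure.pi_eq
  intro s hs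
  have hbox : MeasurableSet (Set.univ.pi s) := MeasurableSet.univ_pi hs
  rw [withDensity_apply _ hbox]
  have hexp : ∀ J : ι → ℝ, Real.exp (-(∑ i, a i * J i) - (∑ i, a i ^ 2) / 2)
      = ∏ i, Real.exp (-(a i * J i) - a i ^ 2 / 2) := by
    intro J
    rw [← Real.exp_sum]
    congr 1
    rw [Finset.sum_sub_distrib, Finset.sum_neg_distrib, Finset.sum_div]
  have hint : Integrable (fun J : ι → ℝ => Real.exp (-(∑ i, a i * J i) - (∑ i, a i ^ 2) / 2))
      (Measure.pi fun _ : ι => gaussianReal 0 1) := by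
    simp only [hexp]
    apply Integrable.fintype_prod (f := fun i x => Real.exp (-(a i * x) - a i ^ 2 / 2))
    intro i
    have := integrable_exp_affine (-(a i)) (-(a i ^ 2 / 2))
    refine this.congr (Filter.Eventually.of_forall fun x => ?_)
    ring_nf
  rw [← ofReal_integral_eq_lintegral_ofReal hint.integrableOn
    (Filter.Eventually.of_forall fun x => (Real.exp_pos _).le)]
  rw [← integral_indicator hbox]
  have hind : (Set.univ.pi s).indicator
        (fun J : ι → ℝ => Real.exp (-(∑ i, a i * J i) - (∑ i, a i ^ 2) / 2))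
      = fun J => ∏ i, (s i).indicator (fun x => Real.exp (-(a i * x) - a i ^ 2 / 2)) (J i) := by
    funext J
    by_cases hJ : J ∈ Set.univ.pi s
    · rw [Set.indicator_of_mem hJ, hexp]
      apply Finset.prod_congr rfl
      intro i _
      rw [Set.indicator_of_mem (hJ i (Set.mem_univ i))]
    · rw [Set.indicator_of_notMem hJ]
      simp only [Set.mem_univ_pi, not_forall] at hJ
      obtain ⟨i, hi⟩ := hJ
      symm
      apply Finset.prod_eq_zero (Finset.mem_univ i)
      rw [Set.indicator_of_notMem hi]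
  rw [hind, integral_fintype_prod_eq_prod (𝕜 := ℝ)
    (fun (i : ι) (x : ℝ) => (s i).indicator (fun x => Real.exp (-(a i * x) - a i ^ 2 / 2)) x)
    (μ := fun _ => gaussianReal 0 1)]
  rw [ENNReal.ofReal_prod_of_nonneg]
  · apply Finset.prod_congr rfl
    intro i _
    rw [gauss_tilt, withDensity_apply _ (hs i), integral_indicator (hs i)]
    rw [ofReal_integral_eq_lintegral_ofReal]
    · have := integrable_exp_affine (-(a i)) (-(a i ^ 2 / 2))
      have h2 : Integrable (fun x => Real.exp (-(a i * x) - a i ^ 2 / 2)) (gaussianReal 0 1) := by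
        refine this.congr (Filter.Eventually.of_forall fun x => ?_)
        ring_nf
      exact h2.integrableOn
    · exact Filter.Eventually.of_forall fun x => (Real.exp_pos _).le
  · intro i _
    apply integral_nonneg
    intro x
    apply Set.indicator_nonneg
    intro x _
    exact (Real.exp_pos _).le

/-- Cameron-Martin: translation of a finite product of standard Gaussians. -/
lemma integral_shift (a : ι → ℝ) (f : (ι → ℝ) → ℝ) :
    ∫ J, f (J - a) ∂(Measure.pi fun _ : ι => gaussianReal 0 1)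
      = ∫ J, Real.exp (-(∑ i, a i * J i) - (∑ i, a i ^ 2) / 2) * f J
          ∂(Measure.pi fun _ : ι => gaussianReal 0 1) := by
  have hemb : MeasurableEmbedding (fun J : ι → ℝ => J - a) :=
    (MeasurableEquiv.subRight a).measurableEmbedding
  rw [← hemb.integral_map (μ := Measure.pi fun _ : ι => gaussianReal 0 1) f, pi_tilt,
    integral_withDensity_eq_integral_toReal_smul (by fun_prop)
      (Filter.Eventually.of_forall fun x => ENNReal.ofReal_lt_top)]
  apply integral_congr_ae
  refine Filter.Eventually.of_forall fun J => ?_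
  simp only [smul_eq_mul]
  rw [ENNReal.toReal_ofReal (Real.exp_pos _).le]

end Vale.Agent.P367.Gap
end
end

section

section

open MeasureTheory ProbabilityTheory Finset

namespace Vale.Agent.P367.Gap

variable {ι S : Type*} [Fintype ι] [Fintype S]

/-- The standard Gaussian law on `ℝ^ι`. -/
noncomputable abbrev gLaw (ι : Type*) [Fintype ι] : Measure (ι → ℝ) :=
  Measure.pi fun _ => gaussianReal 0 1

lemma sum_norm_sq_le_of_pairing (f : S → ℂ) (c : ℝ)
    (h : ∀ y : S → ℂ, ∑ σ, ‖y σ‖ ^ 2 ≤ 1 → ‖∑ σ, y σ * f σ‖ ≤ c) :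
    ∑ σ, ‖f σ‖ ^ 2 ≤ c ^ 2 := by
  set m : ℝ := ∑ σ, ‖f σ‖ ^ 2 with hm
  have hm0 : 0 ≤ m := Finset.sum_nonneg fun σ _ => by positivity
  rcases hm0.eq_or_lt with h0 | h0
  · rw [← h0]; positivity
  have hsq : 0 < Real.sqrt m := Real.sqrt_pos.mpr h0
  have h1 := h (fun σ => ((Real.sqrt m)⁻¹ : ℝ) * (starRingEnd ℂ) (f σ)) (by
    have : ∀ σ, ‖(((Real.sqrt m)⁻¹ : ℝ) : ℂ) * (starRingEnd ℂ) (f σ)‖ ^ 2
        = m⁻¹ * ‖f σ‖ ^ 2 := by
      intro σ
      rw [norm_mul, mul_pow, Complex.norm_real, Real.norm_eq_abs, sq_abs, inv_pow,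
        Real.sq_sqrt hm0, RCLike.norm_conj]
    simp only [this]
    rw [← Finset.mul_sum, ← hm, inv_mul_cancel₀ h0.ne'])
  have h2 : ∑ σ, (((Real.sqrt m)⁻¹ : ℝ) : ℂ) * (starRingEnd ℂ) (f σ) * f σ
      = ((Real.sqrt m : ℝ) : ℂ) := by
    have : ∀ σ, (((Real.sqrt m)⁻¹ : ℝ) : ℂ) * (starRingEnd ℂ) (f σ) * f σ
        = (((Real.sqrt m)⁻¹ * ‖f σ‖ ^ 2 : ℝ) : ℂ) := by
      intro σ
      rw [mul_assoc, mul_comm ((starRingEnd ℂ) (f σ)), Complex.mul_conj, Complex.normSq_eq_norm_sq]
      push_cast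
      ring
    simp only [this]
    rw [← Complex.ofReal_sum, ← Finset.mul_sum, ← hm]
    congr 1
    rw [inv_mul_eq_div, Real.div_sqrt]
  rw [h2, Complex.norm_real, Real.norm_eq_abs, abs_of_pos hsq] at h1
  calc m = Real.sqrt m ^ 2 := (Real.sq_sqrt hm0).symm
    _ ≤ c ^ 2 := pow_le_pow_left₀ hsq.le h1 2

lemma cs_pairing (y f : S → ℂ) (hy : ∑ σ, ‖y σ‖ ^ 2 ≤ 1) :
    ‖∑ σ, y σ * f σ‖ ≤ Real.sqrt (∑ σ, ‖f σ‖ ^ 2) := by
  calc ‖∑ σ, y σ * f σ‖ ≤ ∑ σ, ‖y σ‖ * ‖f σ‖ := by
        refine le_trans (norm_sum_le _ _) (le_of_eq ?_)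
        simp only [norm_mul]
    _ ≤ Real.sqrt (∑ σ, ‖y σ‖ ^ 2) * Real.sqrt (∑ σ, ‖f σ‖ ^ 2) :=
        Real.sum_mul_le_sqrt_mul_sqrt _ _ _
    _ ≤ 1 * Real.sqrt (∑ σ, ‖f σ‖ ^ 2) := by
        apply mul_le_mul_of_nonneg_right _ (Real.sqrt_nonneg _)
        rw [← Real.sqrt_one]
        exact Real.sqrt_le_sqrt hy
    _ = _ := one_mul _

/-- Scalar inequality used for the exponential moment. -/
lemma exp_split (s t A : ℝ) (hs : 0 < s) (hA : 0 < A) :
    Real.exp (-(s * t)) ≤ 1 + A * max (-t) 0 + s / (4 * A) * (1 + Real.exp (-(3 * s * t))) := by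
  set x : ℝ := max (-t) 0 with hx
  have hx0 : 0 ≤ x := le_max_right _ _
  have h1 : Real.exp (-(s * t)) ≤ Real.exp (s * x) := by
    apply Real.exp_le_exp.mpr
    have : -t ≤ x := le_max_left _ _
    nlinarith only [hs, this]
  have h2 : Real.exp (s * x) ≤ 1 + s * x * Real.exp (s * x) := by
    have h := Real.add_one_le_exp (-(s * x))
    have h3 : Real.exp (-(s * x)) * Real.exp (s * x) = 1 := by
      rw [← Real.exp_add]; simp
    have h4 := Real.exp_pos (s * x)
    nlinarith only [h3, h, h4]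
  have h3 : s * x * Real.exp (s * x)
      ≤ A * x + s / (4 * A) * Real.exp (3 * (s * x)) := by
    set q : ℝ := s * Real.exp (s * x) with hq
    have hq0 : 0 < q := by positivity
    have e1 : q ≤ A + q ^ 2 / (4 * A) := by
      have : 0 ≤ (A - q / 2) ^ 2 / A := by (clear * - hA; positivity)
      have e2 : (A - q / 2) ^ 2 / A = A + q ^ 2 / (4 * A) - q := by
        field_simp
        ring
      linarith only [this, e2]
    have e3 : s * x ≤ Real.exp (s * x) := by
      have := Real.add_one_le_exp (s * x)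
      linarith only [this]
    have e4 : Real.exp (3 * (s * x)) = Real.exp (s * x) ^ 3 := by
      rw [← Real.exp_nat_mul]; norm_num
    have e5 : x * (q ^ 2 / (4 * A)) ≤ s / (4 * A) * Real.exp (3 * (s * x)) := by
      rw [e4]
      have e6 : x * (q ^ 2 / (4 * A)) = s / (4 * A) * ((s * x) * Real.exp (s * x) ^ 2) := by
        rw [hq]; ring
      rw [e6]
      apply mul_le_mul_of_nonneg_left _ (by positivity)
      calc (s * x) * Real.exp (s * x) ^ 2 ≤ Real.exp (s * x) * Real.exp (s * x) ^ 2 := by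
            apply mul_le_mul_of_nonneg_right e3 (by positivity)
        _ = Real.exp (s * x) ^ 3 := by ring
    calc s * x * Real.exp (s * x) = x * q := by rw [hq]; ring
      _ ≤ x * (A + q ^ 2 / (4 * A)) := mul_le_mul_of_nonneg_left e1 hx0
      _ = A * x + x * (q ^ 2 / (4 * A)) := by ring
      _ ≤ _ := by linarith only [e5]
  have h4 : Real.exp (3 * (s * x)) ≤ 1 + Real.exp (-(3 * s * t)) := by
    rcases le_total (-t) 0 with h | h
    · have : x = 0 := max_eq_right h
      rw [this]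
      simp only [mul_zero, Real.exp_zero]
      linarith only [Real.exp_pos (-(3 * s * t))]
    · have : x = -t := max_eq_left h
      rw [this]
      have e : 3 * (s * -t) = -(3 * s * t) := by ring
      rw [e]
      linarith only []
  have h5 : s / (4 * A) * Real.exp (3 * (s * x))
      ≤ s / (4 * A) * (1 + Real.exp (-(3 * s * t))) :=
    mul_le_mul_of_nonneg_left h4 (by positivity)
  linarith

/-- The linear functional `t_σ(J) = ∑_e u_σ(e) J_e`. -/
noncomputable def tt (u : S → ι → ℝ) (σ : S) (J : ι → ℝ) : ℝ := ∑ e, u σ e * J e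

lemma measurable_tt (u : S → ι → ℝ) (σ : S) : Measurable (tt u σ) := by
  unfold tt
  fun_prop

lemma norm_sq_le_one {ψ : S → ℂ} (hnorm : ∑ σ, ‖ψ σ‖ ^ 2 = 1) (σ : S) : ‖ψ σ‖ ^ 2 ≤ 1 := by
  rw [← hnorm]
  exact Finset.single_le_sum (f := fun σ => ‖ψ σ‖ ^ 2) (fun i _ => by positivity) (mem_univ σ)

section main

variable (ψ : (ι → ℝ) → S → ℂ) (u : S → ι → ℝ)

lemma integrable_exp_tt (r : ℝ) (σ : S) :
    Integrable (fun J => Real.exp (-(r * tt u σ J))) (gLaw ι) := by
  have h := integrable_exp_linear (ι := ι) (fun e => -(r * u σ e))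
  refine h.congr (Filter.Eventually.of_forall fun J => ?_)
  simp only [tt, Finset.mul_sum, ← Finset.sum_neg_distrib]
  congr 1
  apply Finset.sum_congr rfl
  intro e _
  ring

lemma integrable_weight (hmeas : ∀ σ, Measurable fun J => ψ J σ)
    (hnorm : ∀ J, ∑ σ, ‖ψ J σ‖ ^ 2 = 1) (r : ℝ) (σ : S) :
    Integrable (fun J => ‖ψ J σ‖ ^ 2 * Real.exp (-(r * tt u σ J))) (gLaw ι) := by
  refine (integrable_exp_tt u r σ).mono' ?_ (Filter.Eventually.of_forall fun J => ?_)
  · apply Measurable.aestronglyMeasurable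
    have h1 := measurable_tt u σ
    have h2 := hmeas σ
    fun_prop
  · rw [norm_mul, Real.norm_eq_abs, Real.norm_eq_abs, abs_of_nonneg (by positivity),
      abs_of_pos (Real.exp_pos _)]
    calc ‖ψ J σ‖ ^ 2 * Real.exp (-(r * tt u σ J))
        ≤ 1 * Real.exp (-(r * tt u σ J)) :=
          mul_le_mul_of_nonneg_right (norm_sq_le_one (hnorm J) σ) (Real.exp_pos _).le
      _ = _ := one_mul _

lemma integrable_mis (hmeas : ∀ σ, Measurable fun J => ψ J σ)
    (hnorm : ∀ J, ∑ σ, ‖ψ J σ‖ ^ 2 = 1) (σ : S) :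
    Integrable (fun J => ‖ψ J σ‖ ^ 2 * max (-(tt u σ J)) 0) (gLaw ι) := by
  refine (integrable_exp_tt u 1 σ).mono' ?_ (Filter.Eventually.of_forall fun J => ?_)
  · apply Measurable.aestronglyMeasurable
    have h1 := measurable_tt u σ
    have h2 := hmeas σ
    fun_prop
  · have h0 : 0 ≤ max (-(tt u σ J)) 0 := le_max_right _ _
    rw [norm_mul, Real.norm_eq_abs, Real.norm_eq_abs, abs_of_nonneg (by positivity),
      abs_of_nonneg h0]
    have h1 : max (-(tt u σ J)) 0 ≤ Real.exp (-(1 * tt u σ J)) := by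
      apply max_le
      · have := Real.add_one_le_exp (-(1 * tt u σ J))
        linarith
      · exact (Real.exp_pos _).le
    calc ‖ψ J σ‖ ^ 2 * max (-(tt u σ J)) 0 ≤ 1 * max (-(tt u σ J)) 0 :=
          mul_le_mul_of_nonneg_right (norm_sq_le_one (hnorm J) σ) h0
      _ ≤ _ := by rw [one_mul]; exact h1

/-- Weighted exponential moment. -/
noncomputable def Emom (r : ℝ) : ℝ :=
  ∫ J, ∑ σ, ‖ψ J σ‖ ^ 2 * Real.exp (-(r * tt u σ J)) ∂(gLaw ι)

/-- Squared norm of the shifted amplitudes. -/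
noncomputable def Nsh (r : ℝ) : ℝ :=
  ∫ J, ∑ σ, ‖ψ (J - r • u σ) σ‖ ^ 2 ∂(gLaw ι)

/-- Mean misalignment. -/
noncomputable def Dmis : ℝ :=
  ∫ J, ∑ σ, ‖ψ J σ‖ ^ 2 * max (-(tt u σ J)) 0 ∂(gLaw ι)

variable {ψ u}

lemma Nsh_eq {κ : ℝ} (hu : ∀ σ, ∑ e, (u σ e) ^ 2 = κ) (hmeas : ∀ σ, Measurable fun J => ψ J σ)
    (hnorm : ∀ J, ∑ σ, ‖ψ J σ‖ ^ 2 = 1) (r : ℝ) :
    Nsh ψ u r = Real.exp (-(κ * r ^ 2 / 2)) * Emom ψ u r := by
  unfold Nsh Emom
  rw [integral_finsetSum, integral_finsetSum, Finset.mul_sum]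
  · apply Finset.sum_congr rfl
    intro σ _
    have h := integral_shift (r • u σ) (fun J => ‖ψ J σ‖ ^ 2)
    rw [h, ← integral_const_mul]
    apply integral_congr_ae
    refine Filter.Eventually.of_forall fun J => ?_
    have e1 : ∑ i, (r • u σ) i * J i = r * tt u σ J := by
      simp only [tt, Finset.mul_sum, Pi.smul_apply, smul_eq_mul]
      apply Finset.sum_congr rfl
      intro e _
      ring
    have e2 : ∑ i, (r • u σ) i ^ 2 = κ * r ^ 2 := by
      rw [← hu σ, Finset.sum_mul]
      apply Finset.sum_congr rfl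
      intro e _
      simp only [Pi.smul_apply, smul_eq_mul]
      ring
    simp only [e1, e2]
    rw [show -(r * tt u σ J) - κ * r ^ 2 / 2 = -(κ * r ^ 2 / 2) + -(r * tt u σ J) by ring,
      Real.exp_add]
    ring
  · intro σ _
    exact integrable_weight ψ u hmeas hnorm r σ
  · intro σ _
    refine (integrable_const (1 : ℝ)).mono' ?_ (Filter.Eventually.of_forall fun J => ?_)
    · apply Measurable.aestronglyMeasurable
      have h2 : Measurable fun J : ι → ℝ => ψ (J - r • u σ) σ := by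
        exact (hmeas σ).comp (measurable_id.sub_const _)
      exact h2.norm.pow_const 2
    · rw [Real.norm_eq_abs, abs_of_nonneg (by positivity)]
      exact norm_sq_le_one (hnorm _) σ

lemma Nsh_le {T : ℝ} (hmeas : ∀ σ, Measurable fun J => ψ J σ)
    (hsh : ∀ (J : ι → ℝ) (r : ℝ), ∑ σ, ‖ψ (J - r • u σ) σ‖ ^ 2 ≤ Real.exp (T * |r|) ^ 2)
    (r : ℝ) : Nsh ψ u r ≤ Real.exp (2 * T * |r|) := by
  unfold Nsh
  have e : Real.exp (2 * T * |r|) = Real.exp (T * |r|) ^ 2 := by
    rw [← Real.exp_nat_mul]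
    congr 1
    push_cast
    ring
  rw [e]
  have h1 : ∫ J, ∑ σ, ‖ψ (J - r • u σ) σ‖ ^ 2 ∂(gLaw ι)
      ≤ ∫ _, Real.exp (T * |r|) ^ 2 ∂(gLaw ι) := by
    apply integral_mono
    · refine (integrable_const (Real.exp (T * |r|) ^ 2)).mono' ?_
        (Filter.Eventually.of_forall fun J => ?_)
      · apply Measurable.aestronglyMeasurable
        apply Finset.measurable_fun_sum
        intro σ _
        have h2 : Measurable fun J : ι → ℝ => ψ (J - r • u σ) σ := by
          exact (hmeas σ).comp (measurable_id.sub_const _)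
        exact h2.norm.pow_const 2
      · rw [Real.norm_eq_abs, abs_of_nonneg (Finset.sum_nonneg fun σ _ => by positivity)]
        exact hsh J r
    · exact integrable_const _
    · intro J
      exact hsh J r
  simpa only [ge_iff_le, integral_const, probReal_univ, smul_eq_mul, one_mul] using h1

lemma Emom_le {κ T : ℝ} (hκ1 : κ ≤ 1) (hu : ∀ σ, ∑ e, (u σ e) ^ 2 = κ)
    (hmeas : ∀ σ, Measurable fun J => ψ J σ)
    (hnorm : ∀ J, ∑ σ, ‖ψ J σ‖ ^ 2 = 1)
    (hsh : ∀ (J : ι → ℝ) (r : ℝ), ∑ σ, ‖ψ (J - r • u σ) σ‖ ^ 2 ≤ Real.exp (T * |r|) ^ 2)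
    (r : ℝ) : Emom ψ u r ≤ Real.exp (r ^ 2 / 2 + 2 * T * |r|) := by
  have h1 := Nsh_eq hu hmeas hnorm r
  have h2 := Nsh_le hmeas hsh r
  have h3 : Emom ψ u r = Real.exp (κ * r ^ 2 / 2) * Nsh ψ u r := by
    rw [h1, ← mul_assoc, ← Real.exp_add]
    simp
  rw [h3, Real.exp_add]
  apply mul_le_mul _ h2 _ (Real.exp_pos _).le
  · apply Real.exp_le_exp.mpr
    have : 0 ≤ r ^ 2 := sq_nonneg r
    nlinarith only [hκ1]
  · unfold Nsh
    exact integral_nonneg fun J => Finset.sum_nonneg fun σ _ => by (clear * -; positivity)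

lemma Emom_small {κ T : ℝ} (hκ1 : κ ≤ 1) (hu : ∀ σ, ∑ e, (u σ e) ^ 2 = κ)
    (hmeas : ∀ σ, Measurable fun J => ψ J σ)
    (hnorm : ∀ J, ∑ σ, ‖ψ J σ‖ ^ 2 = 1)
    (hT : 0 ≤ T)
    (hsh : ∀ (J : ι → ℝ) (r : ℝ), ∑ σ, ‖ψ (J - r • u σ) σ‖ ^ 2 ≤ Real.exp (T * |r|) ^ 2)
    (s : ℝ) (hs : 0 < s)
    (hD : s * Real.exp (9 * s ^ 2 / 2 + 6 * T * s) * Dmis ψ u ≤ 1 / 2) :
    Emom ψ u s ≤ 2 := by
  set Y : ℝ := Real.exp (9 * s ^ 2 / 2 + 6 * T * s) with hY
  have hY1 : 1 ≤ Y := by
    rw [hY]
    apply Real.one_le_exp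
    (clear * - hs hT; positivity)
  set A : ℝ := s * Y with hA
  have hA0 : 0 < A := by positivity
  have h3 : Emom ψ u (3 * s) ≤ Y := by
    have h := Emom_le hκ1 hu hmeas hnorm hsh (3 * s)
    have e : (3 * s) ^ 2 / 2 + 2 * T * |3 * s| = 9 * s ^ 2 / 2 + 6 * T * s := by
      rw [abs_of_pos (by positivity)]
      ring
    rwa [e] at h
  have h4 : Emom ψ u s ≤ 1 + A * Dmis ψ u + s / (4 * A) * (1 + Emom ψ u (3 * s)) := by
    have i1 : Integrable (fun J => ∑ σ, ‖ψ J σ‖ ^ 2 * max (-(tt u σ J)) 0) (gLaw ι) :=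
      integrable_finsetSum _ fun σ _ => integrable_mis ψ u hmeas hnorm σ
    have i2 : Integrable (fun J => ∑ σ, ‖ψ J σ‖ ^ 2 * Real.exp (-(3 * s * tt u σ J)))
        (gLaw ι) := integrable_finsetSum _ fun σ _ => integrable_weight ψ u hmeas hnorm _ σ
    have e : 1 + A * Dmis ψ u + s / (4 * A) * (1 + Emom ψ u (3 * s))
        = ∫ J, (1 + A * (∑ σ, ‖ψ J σ‖ ^ 2 * max (-(tt u σ J)) 0)
          + s / (4 * A) * (1 + ∑ σ, ‖ψ J σ‖ ^ 2 * Real.exp (-(3 * s * tt u σ J)))) ∂(gLaw ι) := by
      unfold Dmis Emom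
      rw [integral_add, integral_add, integral_const_mul, integral_const_mul, integral_add]
      · simp only [integral_const, probReal_univ, smul_eq_mul, mul_one]
      · exact integrable_const _
      · exact i2
      · exact integrable_const _
      · exact i1.const_mul _
      · exact (integrable_const _).add (i1.const_mul _)
      · exact ((integrable_const _).add i2).const_mul _
    rw [e]
    unfold Emom
    apply integral_mono
    · exact integrable_finsetSum _ fun σ _ => integrable_weight ψ u hmeas hnorm _ σ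
    · exact ((integrable_const _).add (i1.const_mul _)).add
        (((integrable_const _).add i2).const_mul _)
    · intro J
      have h1 : ∀ σ, ‖ψ J σ‖ ^ 2 * Real.exp (-(s * tt u σ J))
          ≤ ‖ψ J σ‖ ^ 2 + A * (‖ψ J σ‖ ^ 2 * max (-(tt u σ J)) 0)
            + s / (4 * A) * (‖ψ J σ‖ ^ 2 + ‖ψ J σ‖ ^ 2 * Real.exp (-(3 * s * tt u σ J))) := by
        intro σ
        have := mul_le_mul_of_nonneg_left (exp_split s (tt u σ J) A hs hA0)
          (show 0 ≤ ‖ψ J σ‖ ^ 2 by (clear * -; positivity))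
        linarith only [this]
      calc ∑ σ, ‖ψ J σ‖ ^ 2 * Real.exp (-(s * tt u σ J))
          ≤ ∑ σ, (‖ψ J σ‖ ^ 2 + A * (‖ψ J σ‖ ^ 2 * max (-(tt u σ J)) 0)
            + s / (4 * A) * (‖ψ J σ‖ ^ 2 + ‖ψ J σ‖ ^ 2 * Real.exp (-(3 * s * tt u σ J)))) :=
            Finset.sum_le_sum fun σ _ => h1 σ
        _ = 1 + A * (∑ σ, ‖ψ J σ‖ ^ 2 * max (-(tt u σ J)) 0)
          + s / (4 * A) * (1 + ∑ σ, ‖ψ J σ‖ ^ 2 * Real.exp (-(3 * s * tt u σ J))) := by
            rw [Finset.sum_add_distrib, Finset.sum_add_distrib, ← Finset.mul_sum,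
              ← Finset.mul_sum, Finset.sum_add_distrib, hnorm J]
  have h5 : s / (4 * A) * (1 + Emom ψ u (3 * s)) ≤ 1 / 2 := by
    have e1 : s / (4 * A) = 1 / (4 * Y) := by
      rw [hA]; (clear * - hs hY1; field_simp)
    rw [e1]
    calc 1 / (4 * Y) * (1 + Emom ψ u (3 * s)) ≤ 1 / (4 * Y) * (Y + Y) := by
          apply mul_le_mul_of_nonneg_left _ (by positivity)
          linarith only [hY1, h3]
      _ = 1 / 2 := by field_simp; ring
  linarith only [hD, h4, h5]

/-- **Misalignment lemma.** -/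
theorem Dmis_lower {κ T : ℝ} (hκ : 1 / 2 ≤ κ) (hκ1 : κ ≤ 1)
    (hu : ∀ σ, ∑ e, (u σ e) ^ 2 = κ)
    (hmeas : ∀ σ, Measurable fun J => ψ J σ)
    (hnorm : ∀ J, ∑ σ, ‖ψ J σ‖ ^ 2 = 1) (hT : 0 ≤ T)
    (hG : ∀ J : ι → ℝ, ∃ G : ℂ → S → ℂ, (∀ σ, Differentiable ℂ fun z => G z σ) ∧
      (∀ (r : ℝ) (σ : S), G (r : ℂ) σ = ψ (J - r • u σ) σ) ∧
      (∀ (z : ℂ) (y : S → ℂ), ∑ σ, ‖y σ‖ ^ 2 ≤ 1 → ‖∑ σ, y σ * G z σ‖ ≤ Real.exp (T * ‖z‖))) :
    Real.exp (-(18 * (1200 * (1 + T)) ^ 2 + 12 * T * (1200 * (1 + T)))) / (4 * (1200 * (1 + T)))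
      ≤ Dmis ψ u := by
  by_contra hcon
  rw [not_le] at hcon
  set B : ℝ := 1200 * (1 + T) with hB
  have hB0 : 0 < B := by positivity
  have hB1 : 1200 ≤ B := by rw [hB]; linarith only [hT]
  have hD0 : 0 ≤ Dmis ψ u := by
    unfold Dmis
    exact integral_nonneg fun J => Finset.sum_nonneg fun σ _ =>
      mul_nonneg (by (clear * -; positivity)) (le_max_right _ _)
  have hsh : ∀ (J : ι → ℝ) (r : ℝ),
      ∑ σ, ‖ψ (J - r • u σ) σ‖ ^ 2 ≤ Real.exp (T * |r|) ^ 2 := by
    intro J r
    obtain ⟨G, _, hG2, hG3⟩ := hG J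
    have := sum_norm_sq_le_of_pairing (G (r : ℂ)) (Real.exp (T * |r|)) (by
      intro y hy
      have := hG3 (r : ℂ) y hy
      rwa [Complex.norm_real, Real.norm_eq_abs] at this)
    simpa only [hG2] using this
  -- exponential decay of the shifted norm
  have hdecay : ∀ s : ℝ, B ≤ s → s ≤ 2 * B → Nsh ψ u s ≤ 2 * Real.exp (-(B ^ 2 / 4)) := by
    intro s hs1 hs2
    have hs0 : 0 < s := lt_of_lt_of_le hB0 hs1
    have hE : Emom ψ u s ≤ 2 := by
      apply Emom_small hκ1 hu hmeas hnorm hT hsh s hs0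
      have h1 : s * Real.exp (9 * s ^ 2 / 2 + 6 * T * s)
          ≤ (2 * B) * Real.exp (18 * B ^ 2 + 12 * T * B) := by
        apply mul_le_mul hs2 _ (Real.exp_pos _).le (by positivity)
        apply Real.exp_le_exp.mpr
        have : s ^ 2 ≤ (2 * B) ^ 2 := pow_le_pow_left₀ hs0.le hs2 2
        nlinarith only [this, hT, hs2]
      calc s * Real.exp (9 * s ^ 2 / 2 + 6 * T * s) * Dmis ψ u
          ≤ (2 * B) * Real.exp (18 * B ^ 2 + 12 * T * B)
            * (Real.exp (-(18 * B ^ 2 + 12 * T * B)) / (4 * B)) := by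
            apply mul_le_mul h1 hcon.le hD0 (by positivity)
        _ = (Real.exp (18 * B ^ 2 + 12 * T * B) * Real.exp (-(18 * B ^ 2 + 12 * T * B))) / 2 := by
            field_simp
            ring
        _ = 1 / 2 := by rw [← Real.exp_add]; simp
    rw [Nsh_eq hu hmeas hnorm s]
    calc Real.exp (-(κ * s ^ 2 / 2)) * Emom ψ u s
        ≤ Real.exp (-(B ^ 2 / 4)) * 2 := by
          apply mul_le_mul _ hE _ (Real.exp_pos _).le
          · apply Real.exp_le_exp.mpr
            have : B ^ 2 ≤ s ^ 2 := pow_le_pow_left₀ hB0.le hs1 2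
            nlinarith only [this, hκ]
          · unfold Emom
            exact integral_nonneg fun J => Finset.sum_nonneg fun σ _ => by (clear * -; positivity)
      _ = _ := by ring
  -- number of nodes
  obtain ⟨N, hN1, hN2, hN0⟩ : ∃ N : ℕ, 50 * T * B ≤ N ∧ (N : ℝ) ≤ 50 * T * B + 2 ∧ 0 < N := by
    refine ⟨⌈50 * T * B⌉₊ + 1, ?_, ?_, Nat.succ_pos _⟩
    · push_cast
      have := Nat.le_ceil (50 * T * B)
      linarith only [this]
    · push_cast
      have := Nat.ceil_lt_add_one (show 0 ≤ 50 * T * B by (clear * - hT; positivity))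
      linarith only [this]
  have hNr : (0 : ℝ) < N := by exact_mod_cast hN0
  set x : ℕ → ℝ := fun k => 2 * B - k * (B / N) with hx
  have hxr : ∀ k ∈ range (N + 1), B ≤ x k ∧ x k ≤ 2 * B := by
    intro k hk
    have hkN : (k : ℝ) ≤ N := by exact_mod_cast Nat.lt_succ_iff.mp (mem_range.mp hk)
    have h1 : (k : ℝ) * (B / N) ≤ B := by
      rw [mul_div_assoc', div_le_iff₀ hNr, mul_comm]
      exact mul_le_mul_of_nonneg_left hkN hB0.le
    have h2 : 0 ≤ (k : ℝ) * (B / N) := by (clear * - hT hN0; positivity)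
    constructor
    · simp only [hx]; linarith only [h1]
    · simp only [hx]; linarith only [h2]
  have hpt : ∀ J : ι → ℝ, (1 / 2 : ℝ) ≤ 8 ^ N *
      ∑ k ∈ range (N + 1), Real.sqrt (∑ σ, ‖ψ (J - x k • u σ) σ‖ ^ 2) := by
    intro J
    obtain ⟨G, hG1, hG2, hG3⟩ := hG J
    have hy : ∑ σ, ‖(starRingEnd ℂ) (ψ J σ)‖ ^ 2 ≤ 1 := by
      simp only [RCLike.norm_conj]
      exact (hnorm J).le
    have h1 := entire_extrap T B hT hB0 N hN0 hN1
      (fun z => ∑ σ, (starRingEnd ℂ) (ψ J σ) * G z σ)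
      (by
        apply Differentiable.fun_sum
        intro σ _
        exact (hG1 σ).const_mul _)
      (by
        intro z
        exact hG3 z _ hy)
      (by
        have : ∀ σ, G 0 σ = ψ J σ := by
          intro σ
          have := hG2 0 σ
          simpa using this
        simp only [this]
        have e : ∀ σ, (starRingEnd ℂ) (ψ J σ) * ψ J σ = ((‖ψ J σ‖ ^ 2 : ℝ) : ℂ) := by
          intro σ
          rw [mul_comm, Complex.mul_conj, Complex.normSq_eq_norm_sq]
        simp only [e]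
        rw [← Complex.ofReal_sum, hnorm J]
        simp)
    refine le_trans h1 ?_
    apply mul_le_mul_of_nonneg_left _ (by positivity)
    apply Finset.sum_le_sum
    intro k _
    have h2 := cs_pairing (fun σ => (starRingEnd ℂ) (ψ J σ)) (G ((x k : ℝ) : ℂ)) hy
    simpa only [hG2] using h2
  set θ : ℝ := 2 * Real.exp (-(B ^ 2 / 8)) with hθ
  have hθ0 : 0 < θ := by positivity
  have hθ2 : θ ^ 2 = 4 * Real.exp (-(B ^ 2 / 4)) := by
    rw [hθ, mul_pow, ← Real.exp_nat_mul]
    norm_num
    ring_nf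
  have hpt2 : ∀ J : ι → ℝ, (1 / 2 : ℝ) ≤ 8 ^ N *
      ∑ k ∈ range (N + 1), ((∑ σ, ‖ψ (J - x k • u σ) σ‖ ^ 2) / (2 * θ) + θ / 2) := by
    intro J
    refine le_trans (hpt J) ?_
    apply mul_le_mul_of_nonneg_left _ (by positivity)
    apply Finset.sum_le_sum
    intro k _
    set m := ∑ σ, ‖ψ (J - x k • u σ) σ‖ ^ 2 with hm
    have hm0 : 0 ≤ m := Finset.sum_nonneg fun σ _ => by (clear * -; positivity)
    have e1 : Real.sqrt m ^ 2 = m := Real.sq_sqrt hm0
    have e2 : 0 ≤ (Real.sqrt m - θ) ^ 2 / (2 * θ) := by (clear * -; positivity)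
    have e3 : (Real.sqrt m - θ) ^ 2 / (2 * θ) = m / (2 * θ) + θ / 2 - Real.sqrt m := by
      have : (Real.sqrt m - θ) ^ 2 = m - 2 * θ * Real.sqrt m + θ ^ 2 := by
        rw [sub_sq, e1]; ring
      rw [this]
      field_simp
      ring
    linarith only [e2, e3]
  have hNi : ∀ k, Integrable (fun J => ∑ σ, ‖ψ (J - x k • u σ) σ‖ ^ 2) (gLaw ι) := by
    intro k
    refine (integrable_const (Real.exp (T * |x k|) ^ 2)).mono' ?_
      (Filter.Eventually.of_forall fun J => ?_)
    · apply Measurable.aestronglyMeasurable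
      apply Finset.measurable_fun_sum
      intro σ _
      have h2 : Measurable fun J : ι → ℝ => ψ (J - x k • u σ) σ := by
        exact (hmeas σ).comp (measurable_id.sub_const _)
      exact h2.norm.pow_const 2
    · rw [Real.norm_eq_abs, abs_of_nonneg (Finset.sum_nonneg fun σ _ => by (clear * -; positivity))]
      exact hsh J _
  have hint : (1 / 2 : ℝ) ≤ 8 ^ N * ∑ k ∈ range (N + 1), (Nsh ψ u (x k) / (2 * θ) + θ / 2) := by
    have h1 : ∫ _ : ι → ℝ, (1 / 2 : ℝ) ∂(gLaw ι) ≤ ∫ J, (8 ^ N *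
      ∑ k ∈ range (N + 1), ((∑ σ, ‖ψ (J - x k • u σ) σ‖ ^ 2) / (2 * θ) + θ / 2)) ∂(gLaw ι) := by
      apply integral_mono (integrable_const _)
      · apply Integrable.const_mul
        apply integrable_finsetSum
        intro k _
        exact ((hNi k).div_const _).add (integrable_const _)
      · intro J
        exact hpt2 J
    rw [integral_const_mul, integral_finsetSum] at h1
    · have h2 : ∀ k, ∫ J, ((∑ σ, ‖ψ (J - x k • u σ) σ‖ ^ 2) / (2 * θ) + θ / 2) ∂(gLaw ι)
          = Nsh ψ u (x k) / (2 * θ) + θ / 2 := by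
        intro k
        rw [integral_add ((hNi k).div_const _) (integrable_const _), integral_div]
        simp only [integral_const, probReal_univ, smul_eq_mul, one_mul, Nsh]
      simp only [h2] at h1
      simpa only [one_div, ge_iff_le, integral_const, probReal_univ, smul_eq_mul, one_mul] using h1
    · intro k _
      exact ((hNi k).div_const _).add (integrable_const _)
  have hfin : ∀ k ∈ range (N + 1), Nsh ψ u (x k) / (2 * θ) + θ / 2 ≤ θ := by
    intro k hk
    have h1 := hdecay (x k) (hxr k hk).1 (hxr k hk).2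
    have h2 : Nsh ψ u (x k) ≤ θ ^ 2 := by
      rw [hθ2]
      have := Real.exp_pos (-(B ^ 2 / 4))
      linarith only [h1, this]
    have h3 : Nsh ψ u (x k) / (2 * θ) ≤ θ / 2 := by
      rw [div_le_iff₀ (by positivity)]
      calc Nsh ψ u (x k) ≤ θ ^ 2 := h2
        _ = θ / 2 * (2 * θ) := by ring
    linarith only [h3]
  have h6 : (1 / 2 : ℝ) ≤ 8 ^ N * ((N + 1) * θ) := by
    refine le_trans hint ?_
    apply mul_le_mul_of_nonneg_left _ (by positivity)
    calc ∑ k ∈ range (N + 1), (Nsh ψ u (x k) / (2 * θ) + θ / 2)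
        ≤ ∑ k ∈ range (N + 1), θ := Finset.sum_le_sum hfin
      _ = (N + 1) * θ := by simp
  have h7 : (N : ℝ) + 1 ≤ 2 ^ N := by
    have := Nat.lt_two_pow_self (n := N)
    exact_mod_cast this
  have h8 : (1 / 2 : ℝ) ≤ 16 ^ N * θ := by
    refine le_trans h6 ?_
    calc (8 : ℝ) ^ N * ((N + 1) * θ) ≤ 8 ^ N * (2 ^ N * θ) := by
          apply mul_le_mul_of_nonneg_left _ (by positivity)
          exact mul_le_mul_of_nonneg_right h7 hθ0.le
      _ = 16 ^ N * θ := by rw [← mul_assoc, ← mul_pow]; norm_num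
  have h9 : (16 : ℝ) ^ N ≤ Real.exp (B ^ 2 / 8 - 2) := by
    have hl : Real.log 16 ≤ 2.8 := by
      have : Real.log 16 = 4 * Real.log 2 := by
        rw [show (16 : ℝ) = 2 ^ 4 by norm_num, Real.log_pow]
        norm_num
      rw [this]
      have := Real.log_two_lt_d9
      linarith only [this]
    have e1 : (16 : ℝ) ^ N = Real.exp (N * Real.log 16) := by
      rw [mul_comm, Real.exp_mul, Real.exp_log (by norm_num)]
      norm_num
    rw [e1]
    apply Real.exp_le_exp.mpr
    have e2 : (N : ℝ) * Real.log 16 ≤ (50 * T * B + 2) * 2.8 := by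
      apply mul_le_mul hN2 hl (Real.log_nonneg (by norm_num)) (by (clear * - hT; positivity))
    have e3 : B ^ 2 / 8 = 150 * T * B + 150 * B := by
      rw [hB]; ring
    have e4 : 0 ≤ T * B := by (clear * - hT; positivity)
    rw [e3]
    nlinarith only [hT, e2]
  have h10 : (16 : ℝ) ^ N * θ ≤ 2 * Real.exp (-2) := by
    calc (16 : ℝ) ^ N * θ ≤ Real.exp (B ^ 2 / 8 - 2) * θ :=
          mul_le_mul_of_nonneg_right h9 hθ0.le
      _ = 2 * (Real.exp (B ^ 2 / 8 - 2) * Real.exp (-(B ^ 2 / 8))) := by rw [hθ]; ring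
      _ = 2 * Real.exp (-2) := by
          rw [← Real.exp_add]
          congr 2
          ring
  have h11 : Real.exp (-2) ≤ 1 / 5 := by
    have h1 : Real.exp (-2) = (Real.exp 1)⁻¹ ^ 2 := by
      rw [← Real.exp_neg, ← Real.exp_nat_mul]
      norm_num
    rw [h1]
    have h2 := Real.exp_one_gt_d9
    have h3 : (Real.exp 1)⁻¹ ≤ (2.7)⁻¹ := by
      apply inv_anti₀ (by norm_num)
      linarith only [h2]
    calc (Real.exp 1)⁻¹ ^ 2 ≤ ((2.7 : ℝ)⁻¹) ^ 2 := by
          apply pow_le_pow_left₀ (by positivity) h3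
      _ ≤ 1 / 5 := by norm_num
  linarith only [h8, h10, h11]

end main

end Vale.Agent.P367.Gap
end
end

section

section

namespace Vale.Agent.P367.Lim

open Finset Filter Topology MeasureTheory ProbabilityTheory

end Vale.Agent.P367.Lim
end
end

section

section

namespace Vale.Agent.P367.Lim

open Finset Filter Topology MeasureTheory ProbabilityTheory
open scoped NNReal

end Vale.Agent.P367.Lim
end
end

section

section

namespace Vale.Agent.P367.Lim

open Finset Filter Topology MeasureTheory ProbabilityTheory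
open scoped NNReal

section

variable {ι : Type} [Fintype ι]

end

end Vale.Agent.P367.Lim
end
end

section

section

namespace Vale.Agent.P367.Lim

open Finset Filter Topology MeasureTheory ProbabilityTheory
open scoped NNReal

end Vale.Agent.P367.Lim
end
end

section

section

open Finset

namespace Vale.Agent.P367.Fin

/-- Turan-type recurrence: the value at time 0 of an exponential sum with `M` terms is controlled
by its values at times `1, ..., M`. -/
lemma recur {κ : Type*} [DecidableEq κ] (R : ℝ) (hR : 0 ≤ R) (s : Finset κ) :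
    ∀ (b w : κ → ℂ) (A : ℝ), 0 ≤ A → (∀ k ∈ s, w k ≠ 0) → (∀ k ∈ s, ‖(w k)⁻¹‖ ≤ R) →
    (∀ v ∈ Finset.Icc 1 s.card, ‖∑ k ∈ s, b k * w k ^ v‖ ≤ A) →
    ‖∑ k ∈ s, b k‖ ≤ ((1 + R) ^ s.card - 1) * A := by
  induction s using Finset.induction_on with
  | empty =>
    intro b w A hA _ _ _
    simp
  | insert a s ha ih =>
    intro b w A hA hw hwR hv
    have hwa : w a ≠ 0 := hw a (mem_insert_self a s)
    have hcard : (insert a s).card = s.card + 1 := card_insert_of_notMem ha
    set b' : κ → ℂ := fun k => b k * (1 - (w a)⁻¹ * w k) with hb'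
    have hrec : ∀ v : ℕ, ∑ k ∈ s, b' k * w k ^ v
        = ∑ k ∈ insert a s, b k * w k ^ v - (w a)⁻¹ * ∑ k ∈ insert a s, b k * w k ^ (v + 1) := by
      intro v
      rw [sum_insert ha, sum_insert ha, mul_add, mul_sum]
      have h1 : (w a)⁻¹ * (b a * w a ^ (v + 1)) = b a * w a ^ v := by
        rw [pow_succ]
        field_simp
      rw [h1]
      have h2 : ∑ k ∈ s, b' k * w k ^ v
          = ∑ k ∈ s, b k * w k ^ v - ∑ k ∈ s, (w a)⁻¹ * (b k * w k ^ (v + 1)) := by
        rw [← sum_sub_distrib]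
        apply sum_congr rfl
        intro k _
        simp only [hb']
        rw [pow_succ]
        ring
      rw [h2]
      ring
    have hRa : ‖(w a)⁻¹‖ ≤ R := hwR a (mem_insert_self a s)
    have h1 : ∀ v ∈ Finset.Icc 1 s.card, ‖∑ k ∈ s, b' k * w k ^ v‖ ≤ (1 + R) * A := by
      intro v hv'
      rw [Finset.mem_Icc] at hv'
      rw [hrec v]
      have e1 := hv v (by rw [Finset.mem_Icc, hcard]; omega)
      have e2 := hv (v + 1) (by rw [Finset.mem_Icc, hcard]; omega)
      calc ‖∑ k ∈ insert a s, b k * w k ^ v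
            - (w a)⁻¹ * ∑ k ∈ insert a s, b k * w k ^ (v + 1)‖
          ≤ ‖∑ k ∈ insert a s, b k * w k ^ v‖
            + ‖(w a)⁻¹ * ∑ k ∈ insert a s, b k * w k ^ (v + 1)‖ := norm_sub_le _ _
        _ ≤ A + R * A := by
            rw [norm_mul]
            exact add_le_add e1 (mul_le_mul hRa e2 (norm_nonneg _) hR)
        _ = (1 + R) * A := by ring
    have h2 := ih b' w ((1 + R) * A) (by (clear * - hR hA; positivity))
      (fun k hk => hw k (mem_insert_of_mem hk)) (fun k hk => hwR k (mem_insert_of_mem hk)) h1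
    have h3 := hrec 0
    simp only [pow_zero, mul_one, zero_add, pow_one] at h3
    have h4 : ∑ k ∈ insert a s, b k
        = ∑ k ∈ s, b' k + (w a)⁻¹ * ∑ k ∈ insert a s, b k * w k := by
      rw [h3]; ring
    have e2 := hv 1 (by rw [Finset.mem_Icc, hcard]; omega)
    simp only [pow_one] at e2
    rw [h4]
    calc ‖∑ k ∈ s, b' k + (w a)⁻¹ * ∑ k ∈ insert a s, b k * w k‖
        ≤ ‖∑ k ∈ s, b' k‖ + ‖(w a)⁻¹ * ∑ k ∈ insert a s, b k * w k‖ := norm_add_le _ _
      _ ≤ ((1 + R) ^ s.card - 1) * ((1 + R) * A) + R * A := by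
          rw [norm_mul]
          exact add_le_add h2 (mul_le_mul hRa e2 (norm_nonneg _) hR)
      _ = ((1 + R) ^ (insert a s).card - 1) * A := by
          rw [hcard, pow_succ]; ring

end Vale.Agent.P367.Fin
end
end

section

section

open MeasureTheory Filter Topology Finset Complex

namespace Vale.Agent.P367.Fin

/-- Gaussian integral with a real quadratic coefficient. -/
lemma gauss_int (B : ℝ) (hB : 0 < B) (c : ℂ) :
    ∫ x : ℝ, cexp (-(B : ℂ) * x ^ 2 + c * x) = ((Real.sqrt (Real.pi / B) : ℝ) : ℂ)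
      * cexp (c ^ 2 / (4 * B)) := by
  have h := integral_cexp_quadratic (b := -(B : ℂ)) (by simpa only [neg_re, ofReal_re, Left.neg_neg_iff] using hB) c 0
  simp only [add_zero] at h
  rw [h]
  congr 1
  · rw [neg_neg, ← Complex.ofReal_div, Real.sqrt_eq_rpow,
      Complex.ofReal_cpow (by positivity)]
    norm_num
  · congr 1
    have : (B : ℂ) ≠ 0 := by exact_mod_cast hB.ne'
    field_simp
    ring

lemma gauss_integrable (B : ℝ) (hB : 0 < B) (c : ℂ) :
    Integrable (fun x : ℝ => cexp (-(B : ℂ) * x ^ 2 + c * x)) := by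
  have h := integrable_cexp_quadratic (b := (B : ℂ)) (by simpa using hB) c 0
  simpa only [add_zero] using h

/-- A Gaussian bump of width `1/m`. -/
noncomputable def bump (m x0 x : ℝ) : ℝ := Real.exp (-(m ^ 2 * (x - x0) ^ 2 / 2))

lemma bump_le_one (m x0 x : ℝ) : bump m x0 x ≤ 1 := by
  unfold bump
  apply Real.exp_le_one_iff.mpr
  have : 0 ≤ m ^ 2 * (x - x0) ^ 2 / 2 := by positivity
  linarith

lemma bump_nonneg (m x0 x : ℝ) : 0 ≤ bump m x0 x := (Real.exp_pos _).le

lemma continuous_bump (m x0 : ℝ) : Continuous (bump m x0) := by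
  unfold bump
  fun_prop

lemma bump_fourier (m : ℝ) (hm : 0 < m) (x0 x : ℝ) :
    ∫ ξ : ℝ, cexp (-((1 / (2 * m ^ 2) : ℝ) : ℂ) * ξ ^ 2 + (I * x0) * ξ) * cexp (-(I * ξ * x))
      = ((Real.sqrt (Real.pi / (1 / (2 * m ^ 2))) : ℝ) : ℂ) * ((bump m x0 x : ℝ) : ℂ) := by
  have hB : 0 < 1 / (2 * m ^ 2) := by positivity
  have h := gauss_int (1 / (2 * m ^ 2)) hB (I * (x0 - x))
  have e1 : ∀ ξ : ℝ, cexp (-((1 / (2 * m ^ 2) : ℝ) : ℂ) * ξ ^ 2 + (I * x0) * ξ)
      * cexp (-(I * ξ * x)) = cexp (-((1 / (2 * m ^ 2) : ℝ) : ℂ) * ξ ^ 2 + (I * (x0 - x)) * ξ) := by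
    intro ξ
    rw [← Complex.exp_add]
    congr 1
    ring
  simp only [e1]
  rw [h]
  congr 1
  unfold bump
  rw [Complex.ofReal_exp]
  congr 1
  push_cast
  have hm' : (m : ℂ) ≠ 0 := by exact_mod_cast hm.ne'
  field_simp
  rw [Complex.I_sq]
  ring

/-- The limit profile. -/
noncomputable def prof {N : ℕ} (m : ℝ) (c μ : Fin N → ℂ) (x0 : ℝ) : ℂ :=
  ∑ k, c k * cexp ((I * x0 - μ k) ^ 2 / (2 * (1 + (((m ^ 2)⁻¹ : ℝ) : ℂ))))

lemma bump_tendsto {N : ℕ} (ρ : ℕ → Measure ℝ) [∀ n, IsProbabilityMeasure (ρ n)]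
    (c μ : Fin N → ℂ)
    (hφ : ∀ ξ : ℝ, Tendsto (fun n => ∫ x : ℝ, cexp (-(I * ξ * x)) ∂(ρ n)) atTop
      (𝓝 (cexp (-(ξ : ℂ) ^ 2 / 2) * ∑ k, c k * cexp (-(ξ * μ k)))))
    (m : ℝ) (hm : 0 < m) (x0 : ℝ) :
    Tendsto (fun n => ((Real.sqrt (1 + m ^ 2) * ∫ x, bump m x0 x ∂(ρ n) : ℝ) : ℂ)) atTop
      (𝓝 (prof m c μ x0)) := by
  set B : ℝ := 1 / (2 * m ^ 2) with hBdef
  have hB : 0 < B := by positivity
  set K : ℝ → ℂ := fun ξ => cexp (-(B : ℂ) * ξ ^ 2 + (I * x0) * ξ) with hK
  have hKi : Integrable K := gauss_integrable B hB (I * x0)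
  have hKn : ∀ ξ, ‖K ξ‖ = Real.exp (-B * ξ ^ 2) := by
    intro ξ
    simp only [hK]
    rw [Complex.norm_exp]
    congr 1
    simp only [add_re, mul_re, neg_re, ofReal_re, I_re, ofReal_im, I_im, neg_im, mul_im]
    have : ((ξ : ℂ) ^ 2).re = ξ ^ 2 := by
      rw [← Complex.ofReal_pow, Complex.ofReal_re]
    rw [this]
    ring
  have hcn : ∀ (ξ x : ℝ), ‖cexp (-(I * ξ * x))‖ = 1 := by
    intro ξ x
    rw [Complex.norm_exp]
    simp
  -- Fubini
  have hfub : ∀ n, ∫ ξ : ℝ, K ξ * ∫ x : ℝ, cexp (-(I * ξ * x)) ∂(ρ n)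
      = ((Real.sqrt (Real.pi / B) : ℝ) : ℂ) * ((∫ x, bump m x0 x ∂(ρ n) : ℝ) : ℂ) := by
    intro n
    have h1 : ∀ ξ : ℝ, K ξ * ∫ x : ℝ, cexp (-(I * ξ * x)) ∂(ρ n)
        = ∫ x : ℝ, K ξ * cexp (-(I * ξ * x)) ∂(ρ n) := fun ξ => (integral_const_mul _ _).symm
    simp only [h1]
    rw [integral_integral_swap]
    · have h2 : ∀ x : ℝ, ∫ ξ : ℝ, K ξ * cexp (-(I * ξ * x))
          = ((Real.sqrt (Real.pi / B) : ℝ) : ℂ) * ((bump m x0 x : ℝ) : ℂ) :=
        fun x => bump_fourier m hm x0 x
      simp only [h2]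
      rw [integral_const_mul, integral_complex_ofReal]
    · have h3 : Integrable (fun z : ℝ × ℝ => K z.1 * (1 : ℂ)) (volume.prod (ρ n)) :=
        hKi.mul_prod (integrable_const (1 : ℂ))
      refine h3.mono ?_ (Filter.Eventually.of_forall fun z => ?_)
      · apply Continuous.aestronglyMeasurable
        simp only [hK, Function.uncurry_def]
        fun_prop
      · simp only [Function.uncurry]
        rw [norm_mul, norm_mul, hcn, norm_one]
  have hlim : Tendsto (fun n => ∫ ξ : ℝ, K ξ * ∫ x : ℝ, cexp (-(I * ξ * x)) ∂(ρ n)) atTop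
      (𝓝 (∫ ξ : ℝ, K ξ * (cexp (-(ξ : ℂ) ^ 2 / 2) * ∑ k, c k * cexp (-(ξ * μ k))))) := by
    apply tendsto_integral_of_dominated_convergence (fun ξ => ‖K ξ‖)
    · intro n
      have h4 : AEStronglyMeasurable (fun ξ : ℝ => ∫ x : ℝ, cexp (-(I * ξ * x)) ∂(ρ n))
          volume := by
        have h5 : Continuous (Function.uncurry fun (ξ x : ℝ) => cexp (-(I * (ξ : ℂ) * x))) := by
          simp only [Function.uncurry_def]
          fun_prop
        exact (h5.stronglyMeasurable.integral_prod_right).aestronglyMeasurable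
      exact hKi.aestronglyMeasurable.mul h4
    · exact hKi.norm
    · intro n
      refine Filter.Eventually.of_forall fun ξ => ?_
      rw [norm_mul]
      have h6 : ‖∫ x : ℝ, cexp (-(I * ξ * x)) ∂(ρ n)‖ ≤ 1 := by
        refine le_trans (norm_integral_le_integral_norm _) ?_
        simp only [hcn]
        simp
      calc ‖K ξ‖ * ‖∫ x : ℝ, cexp (-(I * ξ * x)) ∂(ρ n)‖ ≤ ‖K ξ‖ * 1 :=
            mul_le_mul_of_nonneg_left h6 (norm_nonneg _)
        _ = ‖K ξ‖ := mul_one _
    · refine Filter.Eventually.of_forall fun ξ => ?_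
      exact (hφ ξ).const_mul _
  -- evaluate the limit integral
  have hval : ∫ ξ : ℝ, K ξ * (cexp (-(ξ : ℂ) ^ 2 / 2) * ∑ k, c k * cexp (-(ξ * μ k)))
      = ((Real.sqrt (Real.pi / (B + 1 / 2)) : ℝ) : ℂ) * prof m c μ x0 := by
    have hB2 : 0 < B + 1 / 2 := by positivity
    have e1 : ∀ ξ : ℝ, K ξ * (cexp (-(ξ : ℂ) ^ 2 / 2) * ∑ k, c k * cexp (-(ξ * μ k)))
        = ∑ k, c k * cexp (-((B + 1 / 2 : ℝ) : ℂ) * ξ ^ 2 + (I * x0 - μ k) * ξ) := by
      intro ξ
      rw [← mul_assoc, Finset.mul_sum]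
      apply Finset.sum_congr rfl
      intro k _
      simp only [hK]
      rw [← Complex.exp_add, mul_left_comm, ← Complex.exp_add]
      congr 2
      push_cast
      ring
    simp only [e1]
    rw [integral_finsetSum]
    · unfold prof
      rw [Finset.mul_sum]
      apply Finset.sum_congr rfl
      intro k _
      rw [integral_const_mul, gauss_int (B + 1 / 2) hB2]
      have e2 : (4 : ℂ) * ((B + 1 / 2 : ℝ) : ℂ) = 2 * (1 + (((m ^ 2)⁻¹ : ℝ) : ℂ)) := by
        have : 4 * (B + 1 / 2) = 2 * (1 + (m ^ 2)⁻¹) := by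
          rw [hBdef]; field_simp; ring
        exact_mod_cast this
      rw [e2]
      ring
    · intro k _
      exact (gauss_integrable (B + 1 / 2) hB2 _).const_mul _
  rw [hval] at hlim
  simp only [hfub] at hlim
  have hs1 : 0 < Real.sqrt (Real.pi / B) := Real.sqrt_pos.mpr (by positivity)
  have hs2 : 0 < Real.sqrt (Real.pi / (B + 1 / 2)) := Real.sqrt_pos.mpr (by positivity)
  have hratio : Real.sqrt (Real.pi / B) = Real.sqrt (Real.pi / (B + 1 / 2)) *
      Real.sqrt (1 + m ^ 2) := by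
    rw [← Real.sqrt_mul (by positivity)]
    congr 1
    rw [hBdef]
    field_simp
  have hlim2 := hlim.const_mul (((Real.sqrt (Real.pi / (B + 1 / 2)))⁻¹ : ℝ) : ℂ)
  have e3 : (((Real.sqrt (Real.pi / (B + 1 / 2)))⁻¹ : ℝ) : ℂ)
      * (((Real.sqrt (Real.pi / (B + 1 / 2)) : ℝ) : ℂ) * prof m c μ x0) = prof m c μ x0 := by
    rw [← mul_assoc, ← Complex.ofReal_mul, inv_mul_cancel₀ hs2.ne', Complex.ofReal_one, one_mul]
  rw [e3] at hlim2
  refine hlim2.congr fun n => ?_
  rw [hratio]
  generalize Real.sqrt (Real.pi / (B + 1 / 2)) = a at hs2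
  have ha : (a : ℂ) ≠ 0 := by exact_mod_cast hs2.ne'
  push_cast
  rw [mul_assoc, ← mul_assoc, inv_mul_cancel₀ ha, one_mul]

/-- Size of a single term of the profile. -/
lemma term_bound (c μ : ℂ) (hc : ‖c‖ * Real.exp (μ.re ^ 2 / 2) ≤ 1) (r x : ℝ) (hr : 0 ≤ r) :
    ‖c * cexp ((I * x - μ) ^ 2 / (2 * (1 + (r : ℂ))))‖
      ≤ Real.exp (-((x - μ.im) ^ 2 / (2 * (1 + r)))) := by
  rw [norm_mul, Complex.norm_exp]
  have e1 : ((I * x - μ) ^ 2 / (2 * (1 + (r : ℂ)))).re
      = μ.re ^ 2 / (2 * (1 + r)) - (x - μ.im) ^ 2 / (2 * (1 + r)) := by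
    have e2 : (2 * (1 + (r : ℂ))) = ((2 * (1 + r) : ℝ) : ℂ) := by push_cast; ring
    rw [e2, Complex.div_ofReal_re]
    have e3 : ((I * x - μ) ^ 2).re = μ.re ^ 2 - (x - μ.im) ^ 2 := by
      rw [sq, Complex.mul_re]
      simp only [sub_re, mul_re, I_re, ofReal_re, I_im, ofReal_im, sub_im, mul_im]
      ring
    rw [e3]
    ring
  rw [e1, sub_eq_add_neg, Real.exp_add, ← mul_assoc]
  have h2 : ‖c‖ * Real.exp (μ.re ^ 2 / (2 * (1 + r))) ≤ 1 := by
    refine le_trans ?_ hc
    apply mul_le_mul_of_nonneg_left _ (norm_nonneg _)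
    apply Real.exp_le_exp.mpr
    apply div_le_div_of_nonneg_left (by positivity) (by norm_num)
    linarith only [hr]
  calc ‖c‖ * Real.exp (μ.re ^ 2 / (2 * (1 + r))) * Real.exp (-((x - μ.im) ^ 2 / (2 * (1 + r))))
      ≤ 1 * Real.exp (-((x - μ.im) ^ 2 / (2 * (1 + r)))) :=
        mul_le_mul_of_nonneg_right h2 (Real.exp_pos _).le
    _ = _ := one_mul _

end Vale.Agent.P367.Fin
end
end

section

section

namespace Vale.Agent.P367.Gap

open Finset

lemma spin_sq (b : Bool) : spin b * spin b = 1 := by cases b <;> simp [spin]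

lemma abs_spin (b : Bool) : |spin b| = 1 := by cases b <;> simp [spin]

/-- The Hilbert space of `n` qubits. -/
abbrev Hil (n : ℕ) : Type := EuclideanSpace ℂ (Conf n)

variable {n : ℕ}

/-- diagonal multiplication -/
noncomputable def diagL (d : Conf n → ℂ) : Hil n →ₗ[ℂ] Hil n where
  toFun v := WithLp.toLp 2 fun σ => d σ * v σ
  map_add' u v := by ext σ; simp [mul_add]
  map_smul' c v := by ext σ; simp [mul_left_comm]

@[simp] lemma diagL_apply (d : Conf n → ℂ) (v : Hil n) (σ : Conf n) :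
    diagL d v σ = d σ * v σ := rfl

lemma norm_diagL_le {d : Conf n → ℂ} {M : ℝ} (hM : 0 ≤ M) (hd : ∀ σ, ‖d σ‖ ≤ M) (v : Hil n) :
    ‖diagL d v‖ ≤ M * ‖v‖ := by
  rw [EuclideanSpace.norm_eq, EuclideanSpace.norm_eq, ← Real.sqrt_sq hM,
    ← Real.sqrt_mul (sq_nonneg M)]
  refine Real.sqrt_le_sqrt ?_
  rw [mul_sum]
  refine sum_le_sum fun σ _ => ?_
  rw [diagL_apply, norm_mul, mul_pow]
  have := hd σ
  gcongr

lemma norm_diagL_eq {d : Conf n → ℂ} (hd : ∀ σ, ‖d σ‖ = 1) (v : Hil n) :
    ‖diagL d v‖ = ‖v‖ := by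
  rw [EuclideanSpace.norm_eq, EuclideanSpace.norm_eq]
  congr 1
  refine sum_congr rfl fun σ _ => ?_
  rw [diagL_apply, norm_mul, hd, one_mul]

/-- The phase separator `exp(-iγE)` with a (possibly complex) energy function `E`. -/
noncomputable def phaseL (γ : ℝ) (E : Conf n → ℂ) : Hil n →ₗ[ℂ] Hil n :=
  diagL fun σ => Complex.exp (-(Complex.I * γ * E σ))

/-- The state after `k` layers: `D k ∘ exp(-i γ_k E)`. -/
noncomputable def circ (D : ℕ → Hil n →ₗ[ℂ] Hil n) (γ : ℕ → ℝ) (E : Conf n → ℂ) (v : Hil n) :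
    ℕ → Hil n
  | 0 => v
  | k + 1 => D k (phaseL (γ k) E (circ D γ E v k))

/-- Atomic norm bound for configuration-dependent vectors. -/
def WB (K : ℝ) (Φ : Conf n → Hil n) : Prop :=
  ∃ (ι : Type) (_ : Fintype ι) (χ : ι → Conf n → ℂ) (c : ι → Hil n),
    (∀ a σ, ‖χ a σ‖ ≤ 1) ∧ (∀ σ, Φ σ = ∑ a, χ a σ • c a) ∧ ∑ a, ‖c a‖ ≤ K

lemma WB.const (v : Hil n) : WB ‖v‖ (fun _ => v) :=
  ⟨Unit, inferInstance, fun _ _ => 1, fun _ => v, by simp, by simp, by simp⟩

lemma WB.mono {K K' : ℝ} {Φ : Conf n → Hil n} (h : WB K Φ) (hK : K ≤ K') : WB K' Φ := by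
  obtain ⟨ι, hι, χ, c, h1, h2, h3⟩ := h
  exact ⟨ι, hι, χ, c, h1, h2, h3.trans hK⟩

lemma WB.congr {K : ℝ} {Φ Ψ : Conf n → Hil n} (h : WB K Φ) (hK : ∀ σ, Ψ σ = Φ σ) : WB K Ψ := by
  obtain ⟨ι, hι, χ, c, h1, h2, h3⟩ := h
  exact ⟨ι, hι, χ, c, h1, fun σ => (hK σ).trans (h2 σ), h3⟩

lemma WB.nonneg {K : ℝ} {Φ : Conf n → Hil n} (h : WB K Φ) : 0 ≤ K := by
  obtain ⟨ι, hι, χ, c, h1, h2, h3⟩ := h
  exact (sum_nonneg fun _ _ => norm_nonneg _).trans h3

lemma WB.add {K K' : ℝ} {Φ Ψ : Conf n → Hil n} (h : WB K Φ) (h' : WB K' Ψ) :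
    WB (K + K') (fun σ => Φ σ + Ψ σ) := by
  obtain ⟨ι, hι, χ, c, h1, h2, h3⟩ := h
  obtain ⟨ι', hι', χ', c', h1', h2', h3'⟩ := h'
  refine ⟨ι ⊕ ι', inferInstance, Sum.elim χ χ', Sum.elim c c', ?_, ?_, ?_⟩
  · rintro (a | a) σ
    · exact h1 a σ
    · exact h1' a σ
  · intro σ
    simp only [Fintype.sum_sum_type, Sum.elim_inl, Sum.elim_inr]
    rw [h2, h2']
  · simp only [Fintype.sum_sum_type, Sum.elim_inl, Sum.elim_inr]
    exact add_le_add h3 h3'

lemma WB.smul {K : ℝ} {Φ : Conf n → Hil n} (h : WB K Φ) (c₀ : ℂ) (χ₀ : Conf n → ℂ)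
    (hχ : ∀ σ, ‖χ₀ σ‖ ≤ 1) : WB (‖c₀‖ * K) (fun σ => (c₀ * χ₀ σ) • Φ σ) := by
  obtain ⟨ι, hι, χ, c, h1, h2, h3⟩ := h
  refine ⟨ι, hι, fun a σ => χ₀ σ * χ a σ, fun a => c₀ • c a, ?_, ?_, ?_⟩
  · intro a σ
    simp only [norm_mul]
    exact mul_le_one₀ (hχ σ) (norm_nonneg _) (h1 a σ)
  · intro σ
    simp only [h2, smul_sum, smul_smul]
    refine sum_congr rfl fun a _ => ?_
    congr 1
    ring
  · simp only [norm_smul, ← mul_sum]
    exact mul_le_mul_of_nonneg_left h3 (norm_nonneg _)

lemma WB.map {K : ℝ} {Φ : Conf n → Hil n} (h : WB K Φ) (T : Hil n →ₗ[ℂ] Hil n)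
    (hT : ∀ v, ‖T v‖ ≤ ‖v‖) : WB K (fun σ => T (Φ σ)) := by
  obtain ⟨ι, hι, χ, c, h1, h2, h3⟩ := h
  refine ⟨ι, hι, χ, fun a => T (c a), h1, ?_, ?_⟩
  · intro σ
    simp only [h2, map_sum, map_smul]
  · exact (sum_le_sum fun a _ => hT (c a)).trans h3

lemma WB.eval {K : ℝ} {Φ : Conf n → Hil n} (h : WB K Φ) :
    ‖(WithLp.toLp 2 fun σ => Φ σ σ : Hil n)‖ ≤ K := by
  obtain ⟨ι, hι, χ, c, h1, h2, h3⟩ := h
  refine le_trans ?_ h3
  have : (WithLp.toLp 2 fun σ => Φ σ σ : Hil n) = ∑ a, diagL (χ a) (c a) := by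
    ext σ
    rw [PiLp.toLp_apply, h2]
    simp only [WithLp.ofLp_sum, WithLp.ofLp_smul, Finset.sum_apply, Pi.smul_apply, smul_eq_mul, diagL_apply]
  rw [this]
  refine (norm_sum_le _ _).trans (sum_le_sum fun a _ => ?_)
  have := norm_diagL_le (zero_le_one) (h1 a) (c a)
  simpa only [ge_iff_le, one_mul] using this

lemma norm_cosh_add_norm_sinh_le (w : ℂ) :
    ‖Complex.cosh w‖ + ‖Complex.sinh w‖ ≤ Real.exp ‖w‖ := by
  rw [← Real.cosh_add_sinh]
  refine add_le_add ?_ ?_
  · rw [← (Complex.hasSum_cosh w).tsum_eq]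
    refine tsum_of_norm_bounded (Real.hasSum_cosh ‖w‖) fun k => ?_
    simp
  · rw [← (Complex.hasSum_sinh w).tsum_eq]
    refine tsum_of_norm_bounded (Real.hasSum_sinh ‖w‖) fun k => ?_
    simp

lemma exp_mul_sign (w : ℂ) (ε : ℝ) (hε : ε * ε = 1) :
    Complex.exp (w * ε) = Complex.cosh w + ε * Complex.sinh w := by
  have h : ε = 1 ∨ ε = -1 := mul_self_eq_one_iff.1 hε
  rcases h with rfl | rfl
  · simp [Complex.cosh_add_sinh]
  · simp only [Complex.ofReal_neg, Complex.ofReal_one, mul_neg, mul_one, neg_mul, one_mul,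
      ← sub_eq_add_neg, Complex.cosh_sub_sinh]

/-- one elementary gate `exp(w r(σ) s)` -/
lemma WB.gate {K : ℝ} {Φ : Conf n → Hil n} (h : WB K Φ) (w : ℂ) (r s : Conf n → ℝ)
    (hr : ∀ σ, r σ * r σ = 1) (hs : ∀ σ, s σ * s σ = 1) :
    WB (Real.exp ‖w‖ * K) (fun σ => diagL (fun z => Complex.exp (w * (r σ * s z : ℝ))) (Φ σ)) := by
  have hr1 : ∀ σ, ‖((r σ : ℝ) : ℂ)‖ ≤ 1 := fun σ => by
    rw [Complex.norm_real, Real.norm_eq_abs]
    rcases mul_self_eq_one_iff.1 (hr σ) with h | h <;> simp [h]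
  have hs1 : ∀ σ, ‖((s σ : ℝ) : ℂ)‖ ≤ 1 := fun σ => by
    rw [Complex.norm_real, Real.norm_eq_abs]
    rcases mul_self_eq_one_iff.1 (hs σ) with h | h <;> simp [h]
  have hS : ∀ v : Hil n, ‖diagL (fun z => ((s z : ℝ) : ℂ)) v‖ ≤ ‖v‖ := fun v => by
    simpa only [one_mul] using norm_diagL_le zero_le_one hs1 v
  have h1 := (h.smul (Complex.cosh w) (fun _ => 1) (by simp)).add
    ((h.map _ hS).smul (Complex.sinh w) (fun σ => ((r σ : ℝ) : ℂ)) hr1)
  have h2 : ‖Complex.cosh w‖ * K + ‖Complex.sinh w‖ * K ≤ Real.exp ‖w‖ * K := by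
    rw [← add_mul]
    exact mul_le_mul_of_nonneg_right (norm_cosh_add_norm_sinh_le w) h.nonneg
  refine (h1.mono h2).congr fun σ => ?_
  ext z
  have h3 := exp_mul_sign w (r σ * s z) (by
    rw [mul_mul_mul_comm, hr, hs, one_mul])
  simp only [diagL_apply, PiLp.add_apply, PiLp.smul_apply, smul_eq_mul, h3]
  push_cast
  ring

/-- many elementary gates -/
lemma WB.gates {K : ℝ} {Φ : Conf n → Hil n} (h : WB K Φ) (w : ℂ) {ι : Type*} (S : Finset ι)
    (r s : ι → Conf n → ℝ)
    (hr : ∀ j σ, r j σ * r j σ = 1) (hs : ∀ j σ, s j σ * s j σ = 1) :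
    WB (Real.exp (S.card * ‖w‖) * K)
      (fun σ => diagL (fun z => Complex.exp (w * (∑ j ∈ S, r j σ * s j z : ℝ))) (Φ σ)) := by
  classical
  induction S using Finset.induction_on with
  | empty =>
    refine (h.mono ?_).congr fun σ => ?_
    · simp
    · ext z; simp
  | insert j S hj ih =>
    refine ((ih.gate w (r j) (s j) (hr j) (hs j)).mono (le_of_eq ?_)).congr fun σ => ?_
    · rw [card_insert_of_notMem hj, ← mul_assoc, ← Real.exp_add]
      push_cast
      ring_nf
    · ext z
      simp only [diagL_apply]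
      rw [← mul_assoc, ← Complex.exp_add, sum_insert hj]
      push_cast
      ring_nf

/-- The overlap-type function `R_σ(z) = (1/n) ∑_{j ≠ i} σ_i σ_j z_i z_j`. -/
noncomputable def Rov (i : Fin n) (σ z : Conf n) : ℝ :=
  (n : ℝ)⁻¹ * ∑ j ∈ univ.erase i, (spin (σ i) * spin (σ j)) * (spin (z i) * spin (z j))

lemma spin2_sq (i j : Fin n) (σ : Conf n) :
    (spin (σ i) * spin (σ j)) * (spin (σ i) * spin (σ j)) = 1 := by
  rw [mul_mul_mul_comm, spin_sq, spin_sq, one_mul]

lemma norm_exp_I_real (x : ℝ) : ‖Complex.exp (-(Complex.I * x))‖ = 1 := by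
  rw [show -(Complex.I * (x : ℂ)) = ((-x : ℝ) : ℂ) * Complex.I by push_cast; ring]
  exact Complex.norm_exp_ofReal_mul_I _

theorem WB_circ (D : ℕ → Hil n →ₗ[ℂ] Hil n) (hD : ∀ k v, ‖D k v‖ ≤ ‖v‖) (γ : ℕ → ℝ)
    (E0 : Conf n → ℝ) (i : Fin n) (ζ : ℂ) (v : Hil n) (k : ℕ) :
    WB (Real.exp ((∑ l ∈ range k, |γ l|) * ‖ζ‖) * ‖v‖)
      (fun σ => circ D γ (fun z => (E0 z : ℂ) - ζ * (Rov i σ z : ℝ)) v k) := by
  have hn : 0 < n := i.pos
  have hn' : (0 : ℝ) < n := by exact_mod_cast hn
  induction k with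
  | zero => simpa only [range_zero, sum_empty, zero_mul, Real.exp_zero, one_mul, circ] using WB.const v
  | succ k ih =>
    have h1 := ih.gates (Complex.I * γ k * ζ / n) (univ.erase i)
      (fun j σ => spin (σ i) * spin (σ j)) (fun j z => spin (z i) * spin (z j))
      (fun j σ => spin2_sq i j σ) (fun j z => spin2_sq i j z)
    have hph : ∀ v : Hil n, ‖diagL (fun z => Complex.exp (-(Complex.I * (γ k * E0 z : ℝ)))) v‖
        ≤ ‖v‖ := fun v =>
      (norm_diagL_eq (fun z => norm_exp_I_real _) v).le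
    have h2 := (h1.map _ hph).map (D k) (hD k)
    refine (h2.mono ?_).congr fun σ => ?_
    · rw [← mul_assoc, ← Real.exp_add, sum_range_succ]
      refine mul_le_mul_of_nonneg_right (Real.exp_le_exp.2 ?_) (norm_nonneg _)
      have h3 : ((univ.erase i).card : ℝ) * ‖Complex.I * γ k * ζ / n‖ ≤ |γ k| * ‖ζ‖ := by
        have h4 : ((univ.erase i).card : ℝ) ≤ n := by
          have : (univ.erase i).card ≤ n := by
            refine (card_le_univ _).trans ?_
            simp only [Fintype.card_fin, Std.le_refl]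
          exact_mod_cast this
        have h5 : ‖Complex.I * γ k * ζ / n‖ = |γ k| * ‖ζ‖ / n := by
          simp only [Complex.norm_div, Complex.norm_mul, Complex.norm_I, Complex.norm_real, Real.norm_eq_abs, one_mul, RCLike.norm_natCast]
        rw [h5]
        calc ((univ.erase i).card : ℝ) * (|γ k| * ‖ζ‖ / n) ≤ n * (|γ k| * ‖ζ‖ / n) := by
              (clear * - h4 hn; gcongr)
          _ = |γ k| * ‖ζ‖ := by field_simp
      linarith only [h3]
    · simp only [circ]
      congr 1
      ext z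
      simp only [phaseL, diagL_apply]
      rw [← mul_assoc, ← Complex.exp_add]
      congr 2
      simp only [Rov]
      generalize (∑ j ∈ univ.erase i, spin (σ i) * spin (σ j) * (spin (z i) * spin (z j)) : ℝ) = S
      push_cast
      have : (n : ℂ) ≠ 0 := by exact_mod_cast hn.ne'
      field_simp
      ring

/-- The measured-direction shifted amplitude, as an entire function. -/
noncomputable def Fsh (D : ℕ → Hil n →ₗ[ℂ] Hil n) (γ : ℕ → ℝ) (E0 : Conf n → ℝ) (i : Fin n)
    (v : Hil n) (p : ℕ) (ζ : ℂ) : Hil n :=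
  WithLp.toLp 2 fun σ => circ D γ (fun z => (E0 z : ℂ) - ζ * (Rov i σ z : ℝ)) v p σ

theorem norm_Fsh_le (D : ℕ → Hil n →ₗ[ℂ] Hil n) (hD : ∀ k v, ‖D k v‖ ≤ ‖v‖) (γ : ℕ → ℝ)
    (E0 : Conf n → ℝ) (i : Fin n) (v : Hil n) (p : ℕ) (ζ : ℂ) :
    ‖Fsh D γ E0 i v p ζ‖ ≤ Real.exp ((∑ l ∈ range p, |γ l|) * ‖ζ‖) * ‖v‖ :=
  (WB_circ D hD γ E0 i ζ v p).eval

lemma differentiable_circ (D : ℕ → Hil n →ₗ[ℂ] Hil n) (γ : ℕ → ℝ)
    (E0 R : Conf n → ℝ) (v : Hil n) (k : ℕ) :
    Differentiable ℂ (fun ζ : ℂ => circ D γ (fun z => (E0 z : ℂ) - ζ * (R z : ℝ)) v k) := by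
  induction k with
  | zero => simp only [circ]; exact differentiable_const v
  | succ k ih =>
    simp only [circ]
    have h1 : Differentiable ℂ (fun ζ : ℂ => phaseL (γ k) (fun z => (E0 z : ℂ) - ζ * (R z : ℝ))
        (circ D γ (fun z => (E0 z : ℂ) - ζ * (R z : ℝ)) v k)) := by
      rw [differentiable_euclidean]
      intro z
      simp only [phaseL, diagL_apply]
      have h2 := (differentiable_euclidean.1 ih) z
      fun_prop
    exact (LinearMap.toContinuousLinearMap (D k)).differentiable.comp h1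

theorem differentiable_Fsh (D : ℕ → Hil n →ₗ[ℂ] Hil n) (γ : ℕ → ℝ)
    (E0 : Conf n → ℝ) (i : Fin n) (v : Hil n) (p : ℕ) :
    Differentiable ℂ (Fsh D γ E0 i v p) := by
  rw [differentiable_euclidean]
  intro σ
  exact (differentiable_euclidean.1 (differentiable_circ D γ E0 (Rov i σ) v p)) σ

end Vale.Agent.P367.Gap
end
end

section

section

namespace Vale.Agent.P367.Gap

open Finset

variable {n : ℕ}

/-- symmetric coupling matrix with zero diagonal -/
noncomputable def Ksym (J : Fin n × Fin n → ℝ) (i j : Fin n) : ℝ :=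
  (√(n : ℝ))⁻¹ * (if i < j then J (i, j) else if j < i then J (j, i) else 0)

lemma Ksym_symm (J : Fin n × Fin n → ℝ) (i j : Fin n) : Ksym J i j = Ksym J j i := by
  unfold Ksym
  rcases lt_trichotomy i j with h | h | h
  · simp [h, h.not_gt]
  · simp [h]
  · simp [h, h.not_gt]

lemma Ksym_diag (J : Fin n × Fin n → ℝ) (i : Fin n) : Ksym J i i = 0 := by
  simp [Ksym]

/-- quadratic form -/
noncomputable def Hq (J : Fin n × Fin n → ℝ) (x : Fin n → ℝ) : ℝ :=
  (√(n : ℝ))⁻¹ * ∑ i, ∑ j, if i < j then J (i, j) * x i * x j else 0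

/-- local field -/
noncomputable def fld (J : Fin n × Fin n → ℝ) (x : Fin n → ℝ) (i : Fin n) : ℝ :=
  ∑ j, Ksym J i j * x j

lemma Hq_eq (J : Fin n × Fin n → ℝ) (x : Fin n → ℝ) :
    Hq J x = 1 / 2 * ∑ i, ∑ j, Ksym J i j * x i * x j := by
  have h1 : ∑ i, ∑ j, Ksym J i j * x i * x j
      = (√(n : ℝ))⁻¹ * ∑ i, ∑ j, (if i < j then J (i, j) * x i * x j else 0)
      + (√(n : ℝ))⁻¹ * ∑ i, ∑ j, (if j < i then J (j, i) * x i * x j else 0) := by
    rw [mul_sum, mul_sum, ← sum_add_distrib]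
    refine sum_congr rfl fun i _ => ?_
    rw [mul_sum, mul_sum, ← sum_add_distrib]
    refine sum_congr rfl fun j _ => ?_
    unfold Ksym
    rcases lt_trichotomy i j with h | h | h
    · simp only [h, ↓reduceIte, h.not_gt, mul_zero, add_zero]; ring
    · simp [h]
    · simp only [h.not_gt, ↓reduceIte, h, mul_zero, zero_add]; ring
  have h2 : ∑ i, ∑ j, (if j < i then J (j, i) * x i * x j else 0)
      = ∑ i, ∑ j, (if i < j then J (i, j) * x i * x j else 0) := by
    rw [sum_comm]
    refine sum_congr rfl fun i _ => sum_congr rfl fun j _ => ?_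
    split_ifs
    · ring
    · rfl
  rw [h1, h2, Hq]
  ring

lemma sum_mul_fld (J : Fin n × Fin n → ℝ) (x d : Fin n → ℝ) :
    ∑ i, d i * fld J x i = ∑ i, ∑ j, Ksym J i j * d i * x j := by
  refine sum_congr rfl fun i _ => ?_
  rw [fld, mul_sum]
  refine sum_congr rfl fun j _ => ?_
  ring

lemma Hq_add (J : Fin n × Fin n → ℝ) (x d : Fin n → ℝ) :
    Hq J (fun i => x i + d i) = Hq J x + ∑ i, d i * fld J x i + Hq J d := by
  rw [Hq_eq, Hq_eq, Hq_eq, sum_mul_fld]
  have h1 : ∑ i, ∑ j, Ksym J i j * (x i + d i) * (x j + d j)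
      = ∑ i, ∑ j, Ksym J i j * x i * x j + ∑ i, ∑ j, Ksym J i j * d i * x j
        + ∑ i, ∑ j, Ksym J i j * x i * d j + ∑ i, ∑ j, Ksym J i j * d i * d j := by
    simp only [← sum_add_distrib]
    refine sum_congr rfl fun i _ => sum_congr rfl fun j _ => ?_
    ring
  have h2 : ∑ i, ∑ j, Ksym J i j * x i * d j = ∑ i, ∑ j, Ksym J i j * d i * x j := by
    rw [sum_comm]
    refine sum_congr rfl fun i _ => sum_congr rfl fun j _ => ?_
    rw [Ksym_symm]
    ring
  rw [h1, h2]
  ring

lemma Hq_update (J : Fin n × Fin n → ℝ) (x : Fin n → ℝ) (i : Fin n) (t : ℝ) :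
    Hq J (Function.update x i t) = Hq J x + (t - x i) * fld J x i := by
  have h0 : Function.update x i t = fun k => x k + Function.update (fun _ => (0 : ℝ)) i (t - x i) k := by
    ext k
    by_cases h : k = i
    · subst h; simp
    · simp [h]
  rw [h0, Hq_add]
  have h1 : ∑ k, Function.update (fun _ => (0 : ℝ)) i (t - x i) k * fld J x k
      = (t - x i) * fld J x i := by
    rw [sum_eq_single i]
    · simp
    · intro k _ hk; simp [hk]
    · intro h; exact absurd (mem_univ i) h
  have h2 : Hq J (Function.update (fun _ => (0 : ℝ)) i (t - x i)) = 0 := by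
    rw [Hq_eq]
    have : ∑ a, ∑ b, Ksym J a b * Function.update (fun _ => (0 : ℝ)) i (t - x i) a
        * Function.update (fun _ => (0 : ℝ)) i (t - x i) b = 0 := by
      refine sum_eq_zero fun a _ => sum_eq_zero fun b _ => ?_
      by_cases ha : a = i
      · by_cases hb : b = i
        · subst ha; subst hb; rw [Ksym_diag]; ring
        · simp [hb]
      · simp [ha]
    rw [this, mul_zero]
  rw [h1, h2, add_zero]

/-- a multi-affine form on the cube is at most its value at some vertex -/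
lemma exists_vertex (J : Fin n × Fin n → ℝ) (x : Fin n → ℝ) (hx : ∀ i, |x i| ≤ 1) :
    ∃ σ : Conf n, Hq J x ≤ Hq J (fun i => spin (σ i)) := by
  have key : ∀ S : Finset (Fin n), ∃ y : Fin n → ℝ, (∀ i, |y i| ≤ 1) ∧
      (∀ i ∈ S, y i = 1 ∨ y i = -1) ∧ Hq J x ≤ Hq J y := by
    intro S
    induction S using Finset.induction_on with
    | empty => exact ⟨x, hx, by simp, le_rfl⟩
    | insert i S hi ih =>
      obtain ⟨y, hy1, hy2, hy3⟩ := ih
      have hyi := abs_le.1 (hy1 i)
      rcases le_total 0 (fld J y i) with hf | hf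
      · refine ⟨Function.update y i 1, ?_, ?_, ?_⟩
        · intro k
          by_cases hk : k = i
          · subst hk; simp
          · simpa only [ne_eq, hk, not_false_eq_true, Function.update_of_ne] using hy1 k
        · intro k hk
          by_cases hk' : k = i
          · subst hk'; simp
          · simpa [hk'] using hy2 k ((mem_insert.1 hk).resolve_left hk')
        · rw [Hq_update]
          have : 0 ≤ (1 - y i) * fld J y i := mul_nonneg (by linarith) hf
          linarith only [hy3, this]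
      · refine ⟨Function.update y i (-1), ?_, ?_, ?_⟩
        · intro k
          by_cases hk : k = i
          · subst hk; simp
          · simpa only [ne_eq, hk, not_false_eq_true, Function.update_of_ne] using hy1 k
        · intro k hk
          by_cases hk' : k = i
          · subst hk'; simp
          · simpa [hk'] using hy2 k ((mem_insert.1 hk).resolve_left hk')
        · rw [Hq_update]
          have : 0 ≤ (-1 - y i) * fld J y i := mul_nonneg_of_nonpos_of_nonpos (by linarith) hf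
          linarith
  obtain ⟨y, _, hy2, hy3⟩ := key univ
  refine ⟨fun i => decide (y i = -1), ?_⟩
  have : (fun i => spin (decide (y i = -1))) = y := by
    ext i
    rcases hy2 i (mem_univ i) with h | h
    · rw [h]; norm_num [spin]
    · rw [h]; norm_num [spin]
  rw [this]
  exact hy3

/-- The SK energy of a configuration. -/
noncomputable def skEq (J : Fin n × Fin n → ℝ) (σ : Conf n) : ℝ :=
  (√(n : ℝ))⁻¹ * ∑ i, ∑ j, if i < j then J (i, j) * spin (σ i) * spin (σ j) else 0

lemma Hq_neg (J : Fin n × Fin n → ℝ) (x : Fin n → ℝ) :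
    Hq (fun e => - J e) x = - Hq J x := by
  unfold Hq
  rw [← mul_neg, ← sum_neg_distrib]
  congr 1
  refine sum_congr rfl fun i _ => ?_
  rw [← sum_neg_distrib]
  refine sum_congr rfl fun j _ => ?_
  split_ifs <;> ring

/-- aligned local field -/
noncomputable def afld (J : Fin n × Fin n → ℝ) (σ : Conf n) (i : Fin n) : ℝ :=
  spin (σ i) * fld J (fun j => spin (σ j)) i

end Vale.Agent.P367.Gap
end
end

section

section

open MeasureTheory ProbabilityTheory Finset Matrix

namespace Vale.Agent.P367.Gap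

variable {n : ℕ}

/-- Pair character. -/
noncomputable def chi (s : Conf n) (e : Pair n) : ℝ := spin (s e.1.1) * spin (s e.1.2)

/-- Incidence indicator. -/
noncomputable def inc (i : Fin n) (e : Pair n) : ℝ := if e.1.1 = i ∨ e.1.2 = i then 1 else 0

lemma sum_pair (f : Fin n → Fin n → ℝ) :
    ∑ e : Pair n, f e.1.1 e.1.2 = ∑ a, ∑ b, if a < b then f a b else 0 := by
  rw [← Fintype.sum_prod_type' (f := fun a b => if a < b then f a b else 0), ← Finset.sum_filter]
  exact (Finset.sum_subtype (univ.filter (fun e : Fin n × Fin n => e.1 < e.2)) (by simp only [mem_filter, mem_univ, true_and, implies_true])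
    (fun e => f e.1 e.2)).symm

lemma sum_inc (g : Fin n → Fin n → ℝ) (hg : ∀ a b, g a b = g b a) (i : Fin n) :
    ∑ e : Pair n, inc i e * g e.1.1 e.1.2 = ∑ j ∈ univ.erase i, g i j := by
  have h1 := sum_pair (n := n) (fun a b => (if a = i ∨ b = i then (1 : ℝ) else 0) * g a b)
  simp only [inc]
  rw [h1]
  have h2 : ∀ a b : Fin n, (if a < b then (if a = i ∨ b = i then (1 : ℝ) else 0) * g a b else 0)
      = (if a = i then (if i < b then g i b else 0) else 0)
        + (if b = i then (if a < i then g i a else 0) else 0) := by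
    intro a b
    by_cases ha : a = i
    · subst ha
      by_cases hb : b = a
      · subst hb; simp
      · simp [hb]
    · by_cases hb : b = i
      · subst hb
        simp [ha, hg a b]
      · simp [ha, hb]
  simp only [h2, Finset.sum_add_distrib]
  have h3 : ∑ a, ∑ b, (if a = i then (if i < b then g i b else 0) else 0)
      = ∑ b, (if i < b then g i b else 0) := by
    rw [Finset.sum_eq_single i]
    · simp only [↓reduceIte]
    · intro a _ ha; simp [ha]
    · intro h; exact absurd (mem_univ i) h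
  have h4 : ∑ a, ∑ b, (if b = i then (if a < i then g i a else 0) else 0)
      = ∑ a, (if a < i then g i a else 0) := by
    apply Finset.sum_congr rfl
    intro a _
    simp
  rw [h3, h4, ← Finset.sum_add_distrib]
  rw [← Finset.sum_filter_add_sum_filter_not univ (fun j => j ≠ i)]
  have h5 : ∑ x ∈ univ.filter (fun j => ¬ j ≠ i), ((if i < x then g i x else 0)
      + (if x < i then g i x else 0)) = 0 := by
    apply Finset.sum_eq_zero
    intro x hx
    have : x = i := by simpa only [ne_eq, Decidable.not_not, mem_filter, mem_univ, true_and] using hx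
    subst this
    simp
  rw [h5, add_zero]
  have h6 : univ.filter (fun j : Fin n => j ≠ i) = univ.erase i := by
    ext j; simp only [ne_eq, mem_filter, mem_univ, true_and, mem_erase, and_true]
  rw [h6]
  apply Finset.sum_congr rfl
  intro j hj
  have hj' : j ≠ i := (Finset.mem_erase.mp hj).1
  rcases lt_or_gt_of_ne hj' with h | h
  · simp [h, h.not_gt]
  · simp [h, h.not_gt]

/-- The row direction attached to a configuration. -/
noncomputable def uvec (i : Fin n) (s : Conf n) (e : Pair n) : ℝ :=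
  (Real.sqrt n)⁻¹ * (inc i e * chi s e)

lemma inv_sqrt_mul (n : ℕ) : (Real.sqrt n)⁻¹ * (Real.sqrt n)⁻¹ = ((n : ℝ))⁻¹ := by
  rw [← mul_inv, Real.mul_self_sqrt (Nat.cast_nonneg n)]

lemma chi_sq (s : Conf n) (e : Pair n) : chi s e * chi s e = 1 := by
  unfold chi
  rw [mul_mul_mul_comm, spin_sq, spin_sq, one_mul]

lemma inc_sq (i : Fin n) (e : Pair n) : inc i e * inc i e = inc i e := by
  unfold inc
  split_ifs <;> simp

lemma skEnergy_shift (J : Pair n → ℝ) (r : ℝ) (i : Fin n) (s z : Conf n) :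
    skEnergy (J - r • uvec i s) z = skEnergy J z - r * Rov i s z := by
  have h := sum_inc (n := n)
    (fun a b => (spin (s a) * spin (s b)) * (spin (z a) * spin (z b)))
    (fun a b => by ring) i
  unfold Rov
  rw [← h]
  unfold skEnergy uvec
  simp only [Pi.sub_apply, Pi.smul_apply, smul_eq_mul, sub_mul, Finset.sum_sub_distrib, mul_sub]
  congr 1
  rw [← inv_sqrt_mul, mul_assoc, Finset.mul_sum, Finset.mul_sum, Finset.mul_sum, Finset.mul_sum]
  apply Finset.sum_congr rfl
  intro e _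
  unfold chi
  ring

lemma uvec_sq (hn : 0 < n) (i : Fin n) (s : Conf n) :
    ∑ e, (uvec i s e) ^ 2 = 1 - (n : ℝ)⁻¹ := by
  have h := sum_inc (n := n) (fun _ _ => (1 : ℝ)) (fun a b => rfl) i
  have h1 : ∀ e : Pair n, (uvec i s e) ^ 2 = (n : ℝ)⁻¹ * (inc i e * 1) := by
    intro e
    unfold uvec
    calc ((Real.sqrt n)⁻¹ * (inc i e * chi s e)) ^ 2
        = ((Real.sqrt n)⁻¹ * (Real.sqrt n)⁻¹) * ((inc i e * inc i e) * (chi s e * chi s e)) := by
          ring
      _ = _ := by rw [inv_sqrt_mul, inc_sq, chi_sq]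
  simp only [h1]
  rw [← Finset.mul_sum, h]
  have hn' : (n : ℝ) ≠ 0 := by exact_mod_cast hn.ne'
  rw [Finset.sum_const, Finset.card_erase_of_mem (mem_univ i), Finset.card_univ, Fintype.card_fin,
    nsmul_eq_mul, mul_one, Nat.cast_sub hn]
  push_cast
  (clear * - hn'; field_simp)

/-- Couplings on pairs extended to a full array. -/
noncomputable def ext (J : Pair n → ℝ) : Fin n × Fin n → ℝ :=
  fun e => if h : e.1 < e.2 then J ⟨e, h⟩ else 0

lemma ext_pair (J : Pair n → ℝ) (e : Pair n) : ext J (e.1.1, e.1.2) = J e := by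
  unfold ext
  have : (e.1.1, e.1.2).1 < (e.1.1, e.1.2).2 := e.2
  rw [dif_pos this]

lemma skEq_ext (J : Pair n → ℝ) (s : Conf n) : skEq (ext J) s = skEnergy J s := by
  unfold skEq skEnergy
  congr 1
  have h := sum_pair (n := n) (fun a b => ext J (a, b) * spin (s a) * spin (s b))
  rw [← h]
  apply Finset.sum_congr rfl
  intro e _
  rw [ext_pair]
  ring

lemma tt_eq (J : Pair n → ℝ) (i : Fin n) (s : Conf n) :
    tt (uvec i) s J = afld (ext J) s i := by
  unfold tt afld fld
  have h := sum_inc (n := n)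
    (fun a b => Ksym (ext J) a b * (spin (s a) * spin (s b)))
    (fun a b => by rw [Ksym_symm]; ring) i
  have h2 : ∑ j ∈ univ.erase i, Ksym (ext J) i j * (spin (s i) * spin (s j))
      = ∑ j, Ksym (ext J) i j * (spin (s i) * spin (s j)) := by
    rw [← Finset.add_sum_erase univ _ (mem_univ i), Ksym_diag]
    simp only [mem_univ, sum_erase_eq_sub, zero_mul, zero_add]
  rw [h2] at h
  rw [Finset.mul_sum]
  have h3 : ∑ j, spin (s i) * (Ksym (ext J) i j * spin (s j))
      = ∑ j, Ksym (ext J) i j * (spin (s i) * spin (s j)) := by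
    apply Finset.sum_congr rfl
    intro j _
    ring
  rw [h3, ← h]
  apply Finset.sum_congr rfl
  intro e _
  unfold uvec Ksym chi
  rw [if_pos e.2, ext_pair]
  ring

lemma costOp_eq (J : Pair n → ℝ) :
    costOp J = Matrix.diagonal fun s => ((skEnergy J s : ℝ) : ℂ) := by
  unfold costOp pauliZ skEnergy
  ext s t
  by_cases hst : s = t
  · subst hst
    simp only [Matrix.smul_apply, Matrix.sum_apply, Matrix.diagonal_mul_diagonal,
      Matrix.diagonal_apply_eq, smul_eq_mul]
    push_cast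
    rfl
  · simp only [Complex.ofReal_inv, diagonal_mul_diagonal, Complex.coe_smul, Matrix.smul_apply, Matrix.sum_apply, Matrix.diagonal_apply_ne _ hst, smul_zero, sum_const_zero, smul_eq_mul, mul_zero, Complex.ofReal_mul, Complex.ofReal_sum]

lemma exp_cost (J : Pair n → ℝ) (g : ℝ) (v : Conf n → ℂ) :
    NormedSpace.exp ((-(Complex.I * (g : ℂ))) • costOp J) *ᵥ v
      = fun s => Complex.exp (-(Complex.I * g * ((skEnergy J s : ℝ) : ℂ))) * v s := by
  rw [costOp_eq, ← Matrix.diagonal_smul, Matrix.exp_diagonal]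
  funext s
  rw [Matrix.mulVec_diagonal]
  congr 1
  rw [Pi.coe_exp, ← Complex.exp_eq_exp_ℂ]
  congr 1
  simp only [Pi.smul_apply, smul_eq_mul]
  ring

lemma pauliX_herm (i : Fin n) : (pauliX i : Matrix (Conf n) (Conf n) ℂ).IsHermitian := by
  ext s t
  simp only [Matrix.conjTranspose_apply, pauliX, Matrix.of_apply]
  have h : (t = Function.update s i (!(s i))) ↔ (s = Function.update t i (!(t i))) := by
    constructor
    · intro h
      subst h
      simp
    · intro h
      subst h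
      simp
  by_cases h1 : s = Function.update t i (!(t i))
  · rw [if_pos h1, if_pos (h.mpr h1)]; simp
  · rw [if_neg h1, if_neg (fun h2 => h1 (h.mp h2))]; simp

lemma mixer_herm (n : ℕ) : (mixer n).IsHermitian := by
  unfold mixer Matrix.IsHermitian
  rw [Matrix.conjTranspose_sum]
  apply Finset.sum_congr rfl
  intro i _
  exact pauliX_herm i

/-- The mixing unitary. -/
noncomputable def mixU (n : ℕ) (b : ℝ) : Matrix (Conf n) (Conf n) ℂ :=
  NormedSpace.exp ((-(Complex.I * (b : ℂ))) • mixer n)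

lemma mixU_unitary (b : ℝ) : (mixU n b)ᴴ * mixU n b = 1 := by
  unfold mixU
  rw [← Matrix.exp_conjTranspose, Matrix.conjTranspose_smul, (mixer_herm n).eq]
  have h1 : star (-(Complex.I * (b : ℂ))) = Complex.I * b := by
    simp only [star_neg, star_mul', RCLike.star_def, Complex.conj_I, Complex.conj_ofReal, neg_mul, neg_neg]
  rw [h1, ← Matrix.exp_add_of_commute]
  · rw [neg_smul, add_neg_cancel, NormedSpace.exp_zero]
  · exact (Commute.refl (mixer n)).smul_left _ |>.smul_right _

lemma sum_norm_sq_eq (v : Conf n → ℂ) :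
    ((∑ s, ‖v s‖ ^ 2 : ℝ) : ℂ) = star v ⬝ᵥ v := by
  rw [dotProduct]
  push_cast
  apply Finset.sum_congr rfl
  intro s _
  simp only [Pi.star_apply, RCLike.star_def]
  rw [mul_comm, Complex.mul_conj, Complex.normSq_eq_norm_sq]
  push_cast
  rfl

lemma sum_norm_sq_mulVec (U : Matrix (Conf n) (Conf n) ℂ) (hU : Uᴴ * U = 1) (v : Conf n → ℂ) :
    ∑ s, ‖(U *ᵥ v) s‖ ^ 2 = ∑ s, ‖v s‖ ^ 2 := by
  have h : ((∑ s, ‖(U *ᵥ v) s‖ ^ 2 : ℝ) : ℂ) = ((∑ s, ‖v s‖ ^ 2 : ℝ) : ℂ) := by
    rw [sum_norm_sq_eq, sum_norm_sq_eq, Matrix.star_mulVec, Matrix.dotProduct_mulVec,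
      Matrix.vecMul_vecMul, hU, Matrix.vecMul_one]
  exact_mod_cast h

/-- Matrix action on the Hilbert space. -/
noncomputable def matL (U : Matrix (Conf n) (Conf n) ℂ) : Hil n →ₗ[ℂ] Hil n where
  toFun v := WithLp.toLp 2 (U *ᵥ (WithLp.ofLp v))
  map_add' u v := by
    simp [Matrix.mulVec_add]
  map_smul' c v := by
    simp [Matrix.mulVec_smul]

lemma norm_matL (U : Matrix (Conf n) (Conf n) ℂ) (hU : Uᴴ * U = 1) (v : Hil n) :
    ‖matL U v‖ = ‖v‖ := by
  rw [EuclideanSpace.norm_eq, EuclideanSpace.norm_eq]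
  congr 1
  exact sum_norm_sq_mulVec U hU (WithLp.ofLp v)

/-- Initial state in the Hilbert space. -/
noncomputable def plusH (n : ℕ) : Hil n := WithLp.toLp 2 (plusState n)

lemma norm_plusH (n : ℕ) : ‖plusH n‖ = 1 := by
  rw [EuclideanSpace.norm_eq]
  have h : ∑ s : Conf n, ‖plusH n s‖ ^ 2 = 1 := by
    have h1 : ∀ s : Conf n, ‖plusH n s‖ ^ 2 = (1 / 2 : ℝ) ^ n := by
      intro s
      have : plusH n s = (((Real.sqrt 2)⁻¹ ^ n : ℝ) : ℂ) := rfl
      rw [this, Complex.norm_real, Real.norm_eq_abs, sq_abs, ← pow_mul, mul_comm n 2, pow_mul,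
        inv_pow, Real.sq_sqrt (by norm_num)]
      norm_num
    simp only [h1, Finset.sum_const, Finset.card_univ, nsmul_eq_mul]
    rw [Fintype.card_fun, Fintype.card_bool, Fintype.card_fin]
    push_cast
    rw [← mul_pow]
    norm_num
  rw [h, Real.sqrt_one]

/-- Real energies as complex ones. -/
noncomputable def cE (J : Pair n → ℝ) : Conf n → ℂ := fun s => ((skEnergy J s : ℝ) : ℂ)

lemma norm_circ_real (D : ℕ → Hil n →ₗ[ℂ] Hil n) (hD : ∀ k v, ‖D k v‖ = ‖v‖) (γ : ℕ → ℝ)
    (J : Pair n → ℝ) (v : Hil n) (k : ℕ) : ‖circ D γ (cE J) v k‖ = ‖v‖ := by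
  induction k with
  | zero => rfl
  | succ k ih =>
    rw [circ, hD, phaseL, norm_diagL_eq, ih]
    intro s
    unfold cE
    rw [show -(Complex.I * (γ k : ℂ) * ((skEnergy J s : ℝ) : ℂ))
      = -(Complex.I * ((γ k * skEnergy J s : ℝ) : ℂ)) by push_cast; ring]
    exact norm_exp_I_real _

lemma continuous_skEnergy (s : Conf n) : Continuous fun J : Pair n → ℝ => skEnergy J s := by
  unfold skEnergy
  fun_prop

lemma continuous_circ (D : ℕ → Hil n →ₗ[ℂ] Hil n) (γ : ℕ → ℝ) (v : Hil n) (k : ℕ) :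
    Continuous fun J : Pair n → ℝ => circ D γ (cE J) v k := by
  induction k with
  | zero => exact continuous_const
  | succ k ih =>
    simp only [circ]
    have h1 : Continuous fun J : Pair n → ℝ => phaseL (γ k) (cE J) (circ D γ (cE J) v k) := by
      have h2 : ∀ s, Continuous fun J : Pair n → ℝ =>
          Complex.exp (-(Complex.I * (γ k : ℂ) * cE J s)) * (circ D γ (cE J) v k) s := by
        intro s
        have h3 := continuous_skEnergy (n := n) s
        have h4 : Continuous fun J : Pair n → ℝ => (circ D γ (cE J) v k) s :=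
          (PiLp.continuous_apply 2 _ s).comp ih
        unfold cE at *
        fun_prop
      have h5 : Continuous fun J : Pair n → ℝ =>
          (fun s => Complex.exp (-(Complex.I * (γ k : ℂ) * cE J s)) * (circ D γ (cE J) v k) s) :=
        continuous_pi h2
      exact (PiLp.continuous_toLp 2 _).comp h5
    exact (LinearMap.continuous_of_finiteDimensional (D k)).comp h1

/-- The QAOA state is a circuit. -/
lemma circ_eq_qaoa (J : Pair n → ℝ) (p : ℕ) : ∀ (γ β : Fin p → ℝ) (γ' β' : ℕ → ℝ),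
    (∀ k : Fin p, γ' k = γ k) → (∀ k : Fin p, β' k = β k) →
    circ (fun k => matL (mixU n (β' k))) γ' (cE J) (plusH n) p
      = WithLp.toLp 2 (qaoaState J p γ β) := by
  induction p with
  | zero =>
    intro γ β γ' β' _ _
    rfl
  | succ p ih =>
    intro γ β γ' β' hγ hβ
    rw [circ, ih (fun k => γ k.castSucc) (fun k => β k.castSucc) γ' β'
      (fun k => by have := hγ k.castSucc; simpa using this)
      (fun k => by have := hβ k.castSucc; simpa using this)]
    rw [qaoaState, exp_cost]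
    have h1 : γ' p = γ (Fin.last p) := by have := hγ (Fin.last p); simpa using this
    have h2 : β' p = β (Fin.last p) := by have := hβ (Fin.last p); simpa using this
    rw [← h1, ← h2]
    rfl

end Vale.Agent.P367.Gap
end
end

section

section

open MeasureTheory ProbabilityTheory Finset Matrix Filter Topology

namespace Vale.Agent.P367.Gap

variable {n : ℕ}

/-- Flip lemma with the total misalignment. -/
theorem flip_gain2 (K : Fin n × Fin n → ℝ) (σ : Conf n) (q : ℝ) (hq0 : 0 ≤ q) (hq1 : q ≤ 1) :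
    skEq K σ + 2 * q * ∑ i, max (-(afld K σ i)) 0
      ≤ (⨆ τ : Conf n, skEq K τ) + 4 * q ^ 2 * ⨆ τ : Conf n, skEq (fun e => - K e) τ := by
  classical
  set S := univ.filter fun i => afld K σ i < 0 with hS
  set x : Fin n → ℝ := fun i => spin (σ i) with hx
  have hx1 : ∀ i, |x i| = 1 := fun i => abs_spin _
  set m : Fin n → ℝ := fun i => if i ∈ S then x i else 0 with hm
  have hm1 : ∀ i, |m i| ≤ 1 := by
    intro i
    simp only [hm]
    split_ifs
    · exact (hx1 i).le
    · simp only [abs_zero, zero_le_one]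
  have hscale : Hq K (fun i => (-(2 * q)) * m i) = 4 * q ^ 2 * Hq K m := by
    rw [Hq_eq, Hq_eq]
    have : ∑ i, ∑ j, Ksym K i j * (-(2 * q) * m i) * (-(2 * q) * m j)
        = 4 * q ^ 2 * ∑ i, ∑ j, Ksym K i j * m i * m j := by
      rw [mul_sum]
      refine sum_congr rfl fun i _ => ?_
      rw [mul_sum]
      refine sum_congr rfl fun j _ => ?_
      ring
    rw [this]; ring
  have hadd := Hq_add K x (fun i => (-(2 * q)) * m i)
  rw [hscale] at hadd
  have hlin : ∑ i, (-(2 * q)) * m i * fld K x i = 2 * q * ∑ i, max (-(afld K σ i)) 0 := by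
    rw [mul_sum]
    refine sum_congr rfl fun i _ => ?_
    by_cases hi : i ∈ S
    · have h1 : afld K σ i < 0 := (mem_filter.1 hi).2
      rw [max_eq_left (by linarith only [h1])]
      simp only [hm, hi, if_true, afld, hx]
      ring
    · have h1 : ¬ afld K σ i < 0 := fun h => hi (mem_filter.2 ⟨mem_univ i, h⟩)
      rw [max_eq_right (by linarith only [h1])]
      simp [hm, hi]
  have hcube : ∀ i, |x i + (-(2 * q)) * m i| ≤ 1 := by
    intro i
    simp only [hm]
    split_ifs
    · have : x i + -(2 * q) * x i = x i * (1 - 2 * q) := by ring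
      rw [this, abs_mul, hx1, one_mul, abs_le]
      constructor <;> linarith only [hq0, hq1]
    · simp [hx1]
  obtain ⟨τ, hτ⟩ := exists_vertex K _ hcube
  obtain ⟨τ', hτ'⟩ := exists_vertex (fun e => - K e) m hm1
  have hM : Hq K (fun i => spin (τ i)) ≤ ⨆ τ : Conf n, skEq K τ :=
    le_ciSup (f := fun τ : Conf n => skEq K τ) (Set.finite_range _).bddAbove τ
  have hM' : Hq (fun e => - K e) (fun i => spin (τ' i)) ≤ ⨆ τ : Conf n, skEq (fun e => - K e) τ :=
    le_ciSup (f := fun τ : Conf n => skEq (fun e => - K e) τ) (Set.finite_range _).bddAbove τ'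
  rw [Hq_neg] at hτ'
  have h5 : - Hq K m ≤ ⨆ τ : Conf n, skEq (fun e => - K e) τ := hτ'.trans hM'
  have h6 : -(4 * q ^ 2 * Hq K m) ≤ 4 * q ^ 2 * ⨆ τ : Conf n, skEq (fun e => - K e) τ := by
    have := mul_le_mul_of_nonneg_left h5 (show (0 : ℝ) ≤ 4 * q ^ 2 by (clear * -; positivity))
    linarith only [this]
  have h7 : skEq K σ = Hq K x := rfl
  have h8 := hτ.trans hM
  rw [hadd] at h8
  rw [h7, ← hlin]
  linarith only [hadd, hτ, hM, h6]

lemma ext_neg (J : Pair n → ℝ) : (fun e => - ext J e) = ext (-J) := by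
  funext e
  unfold ext
  split_ifs <;> simp

/-- The averaged form of the flip lemma, in terms of the pair couplings. -/
lemma flip_avg (J : Pair n → ℝ) (w : Conf n → ℝ) (hw : ∀ s, 0 ≤ w s) (hw1 : ∑ s, w s = 1)
    (q : ℝ) (hq0 : 0 ≤ q) (hq1 : q ≤ 1) :
    ∑ s, w s * skEnergy J s + 2 * q * ∑ i, ∑ s, w s * max (-(tt (uvec i) s J)) 0
      ≤ (⨆ s : Conf n, skEnergy J s) + 4 * q ^ 2 * ⨆ s : Conf n, skEnergy (-J) s := by
  have h1 : ∀ s, w s * (skEnergy J s + 2 * q * ∑ i, max (-(tt (uvec i) s J)) 0)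
      ≤ w s * ((⨆ s : Conf n, skEnergy J s) + 4 * q ^ 2 * ⨆ s : Conf n, skEnergy (-J) s) := by
    intro s
    apply mul_le_mul_of_nonneg_left _ (hw s)
    have h := flip_gain2 (ext J) s q hq0 hq1
    rw [ext_neg] at h
    simp only [skEq_ext] at h
    simp only [tt_eq]
    exact h
  have h2 := Finset.sum_le_sum (s := univ) fun s _ => h1 s
  rw [← Finset.sum_mul, hw1, one_mul] at h2
  refine le_trans (le_of_eq ?_) h2
  simp only [mul_add, Finset.sum_add_distrib]
  congr 1
  rw [Finset.sum_comm, Finset.mul_sum]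
  apply Finset.sum_congr rfl
  intro s _
  rw [Finset.mul_sum, Finset.mul_sum, Finset.mul_sum]
  apply Finset.sum_congr rfl
  intro i _
  ring

/-- Exponential moment of the energy. -/
lemma integral_exp_energy (s : Conf n) :
    ∫ J : Pair n → ℝ, Real.exp (skEnergy (-J) s) ∂(gLaw (Pair n)) ≤ Real.exp (n / 2) := by
  have h1 : ∀ J : Pair n → ℝ, skEnergy (-J) s = ∑ e, (-((Real.sqrt n)⁻¹ * chi s e)) * J e := by
    intro J
    unfold skEnergy chi
    rw [Finset.mul_sum]
    apply Finset.sum_congr rfl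
    intro e _
    simp only [Pi.neg_apply]
    ring
  simp only [h1]
  rw [integral_exp_linear]
  apply Real.exp_le_exp.mpr
  have h2 : ∀ e : Pair n, (-((Real.sqrt n)⁻¹ * chi s e)) ^ 2 = (n : ℝ)⁻¹ := by
    intro e
    calc (-((Real.sqrt n)⁻¹ * chi s e)) ^ 2
        = ((Real.sqrt n)⁻¹ * (Real.sqrt n)⁻¹) * (chi s e * chi s e) := by ring
      _ = _ := by rw [inv_sqrt_mul, chi_sq, mul_one]
  simp only [h2, Finset.sum_const, Finset.card_univ, nsmul_eq_mul]
  have h3 : (Fintype.card (Pair n) : ℝ) ≤ n * n := by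
    have : Fintype.card (Pair n) ≤ Fintype.card (Fin n × Fin n) := Fintype.card_subtype_le _
    rw [Fintype.card_prod, Fintype.card_fin] at this
    exact_mod_cast this
  rcases Nat.eq_zero_or_pos n with hn | hn
  · subst hn; simp
  · have hn' : (0 : ℝ) < n := by exact_mod_cast hn
    have : (Fintype.card (Pair n) : ℝ) * (n : ℝ)⁻¹ ≤ n := by
      rw [← div_eq_mul_inv, div_le_iff₀ hn']
      exact h3
    linarith only [this]

lemma integrable_exp_energy (s : Conf n) :
    Integrable (fun J : Pair n → ℝ => Real.exp (skEnergy (-J) s)) (gLaw (Pair n)) := by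
  have h1 : ∀ J : Pair n → ℝ, skEnergy (-J) s = ∑ e, (-((Real.sqrt n)⁻¹ * chi s e)) * J e := by
    intro J
    unfold skEnergy chi
    rw [Finset.mul_sum]
    apply Finset.sum_congr rfl
    intro e _
    simp only [Pi.neg_apply]
    ring
  simp only [h1]
  exact integrable_exp_linear _

lemma integrable_energy (s : Conf n) :
    Integrable (fun J : Pair n → ℝ => skEnergy J s) (gLaw (Pair n)) := by
  unfold skEnergy
  apply Integrable.const_mul
  apply integrable_finsetSum
  intro e _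
  apply Integrable.mul_const
  exact integrable_comp_eval (μ := fun _ : Pair n => gaussianReal 0 1) (i := e) (f := fun x => x)
    ((memLp_id_gaussianReal 1).integrable le_rfl)

lemma integrable_energy_neg (s : Conf n) :
    Integrable (fun J : Pair n → ℝ => skEnergy (-J) s) (gLaw (Pair n)) := by
  have h : (fun J : Pair n → ℝ => skEnergy (-J) s) = fun J => - skEnergy J s := by
    funext J
    unfold skEnergy
    rw [← mul_neg, ← Finset.sum_neg_distrib]
    congr 1
    apply Finset.sum_congr rfl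
    intro e _
    simp only [Pi.neg_apply]
    ring
  rw [h]
  exact (integrable_energy s).neg

lemma integrable_iSup {Ω : Type*} [MeasurableSpace Ω] {μ : Measure Ω} {S : Type*} [Fintype S]
    [Nonempty S] (f : S → Ω → ℝ) (hf : ∀ s, Integrable (f s) μ) (hm : ∀ s, Measurable (f s)) :
    Integrable (fun ω => ⨆ s, f s ω) μ := by
  have h1 : Integrable (fun ω => ∑ s, |f s ω|) μ :=
    integrable_finsetSum _ fun s _ => (hf s).abs
  refine h1.mono' ?_ (Filter.Eventually.of_forall fun ω => ?_)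
  · apply Measurable.aestronglyMeasurable
    exact Measurable.iSup hm
  · rw [Real.norm_eq_abs, abs_le]
    obtain ⟨s0⟩ := (inferInstance : Nonempty S)
    have hb : BddAbove (Set.range fun s => f s ω) := (Set.finite_range _).bddAbove
    have h2 : ∀ s, |f s ω| ≤ ∑ s, |f s ω| := fun s =>
      Finset.single_le_sum (f := fun s => |f s ω|) (fun _ _ => abs_nonneg _) (mem_univ s)
    constructor
    · have h3 : f s0 ω ≤ ⨆ s, f s ω := le_ciSup hb s0
      have h4 := neg_abs_le (f s0 ω)
      have h5 := h2 s0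
      linarith
    · exact ciSup_le fun s => (le_abs_self _).trans (h2 s)

lemma integral_sup_neg_le (hn : 0 < n) :
    ∫ J : Pair n → ℝ, (⨆ s : Conf n, skEnergy (-J) s) ∂(gLaw (Pair n)) ≤ 2 * n := by
  have hn' : (0 : ℝ) < n := by exact_mod_cast hn
  set A : ℝ := 2 ^ n * Real.exp (n / 2) with hA
  have hA0 : 0 < A := by positivity
  have hpt : ∀ J : Pair n → ℝ, (⨆ s : Conf n, skEnergy (-J) s)
      ≤ Real.log A - 1 + A⁻¹ * ∑ s : Conf n, Real.exp (skEnergy (-J) s) := by
    intro J
    apply ciSup_le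
    intro s
    have h1 := Real.add_one_le_exp (skEnergy (-J) s - Real.log A)
    rw [Real.exp_sub, Real.exp_log hA0] at h1
    have h2 : Real.exp (skEnergy (-J) s) ≤ ∑ s : Conf n, Real.exp (skEnergy (-J) s) :=
      Finset.single_le_sum (f := fun s : Conf n => Real.exp (skEnergy (-J) s))
        (fun _ _ => (Real.exp_pos _).le) (mem_univ s)
    have h3 : Real.exp (skEnergy (-J) s) / A ≤ A⁻¹ * ∑ s : Conf n, Real.exp (skEnergy (-J) s) := by
      rw [div_eq_inv_mul]
      exact mul_le_mul_of_nonneg_left h2 (by positivity)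
    linarith only [h1, h3]
  have hi1 : Integrable (fun J : Pair n → ℝ => ⨆ s : Conf n, skEnergy (-J) s)
      (gLaw (Pair n)) := by
    apply integrable_iSup (fun (s : Conf n) (J : Pair n → ℝ) => skEnergy (-J) s)
    · intro s; exact integrable_energy_neg s
    · intro s
      have := continuous_skEnergy (n := n) s
      exact (this.comp continuous_neg).measurable
  have hi2 : Integrable (fun J : Pair n → ℝ => ∑ s : Conf n, Real.exp (skEnergy (-J) s))
      (gLaw (Pair n)) := integrable_finsetSum _ fun s _ => integrable_exp_energy s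
  calc ∫ J : Pair n → ℝ, (⨆ s : Conf n, skEnergy (-J) s) ∂(gLaw (Pair n))
      ≤ ∫ J : Pair n → ℝ, (Real.log A - 1 + A⁻¹ * ∑ s : Conf n, Real.exp (skEnergy (-J) s))
          ∂(gLaw (Pair n)) := by
        apply integral_mono hi1
        · exact (integrable_const _).add (hi2.const_mul _)
        · exact hpt
    _ = Real.log A - 1 + A⁻¹ * ∑ s : Conf n,
          ∫ J : Pair n → ℝ, Real.exp (skEnergy (-J) s) ∂(gLaw (Pair n)) := by
        rw [integral_add (integrable_const _) (hi2.const_mul _), integral_const_mul,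
          integral_finsetSum _ fun s _ => integrable_exp_energy s]
        simp only [integral_const, probReal_univ, smul_eq_mul, one_mul]
    _ ≤ Real.log A - 1 + A⁻¹ * ∑ s : Conf n, Real.exp (n / 2) := by
        have := Finset.sum_le_sum (s := (univ : Finset (Conf n)))
          fun s _ => integral_exp_energy s
        have := mul_le_mul_of_nonneg_left this (show 0 ≤ A⁻¹ by positivity)
        linarith only [this]
    _ = Real.log A := by
        rw [Finset.sum_const, Finset.card_univ, nsmul_eq_mul, Fintype.card_fun,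
          Fintype.card_bool, Fintype.card_fin]
        push_cast
        rw [← hA, inv_mul_cancel₀ hA0.ne']
        ring
    _ ≤ 2 * n := by
        rw [hA, Real.log_mul (by positivity) (Real.exp_pos _).ne', Real.log_exp, Real.log_pow]
        have := Real.log_two_lt_d9
        nlinarith only [this]

lemma qaoaMean_eq (J : Pair n → ℝ) (p : ℕ) (γ β : Fin p → ℝ) :
    qaoaMean J p γ β = ∑ s, ‖qaoaState J p γ β s‖ ^ 2 * skEnergy J s := by
  unfold qaoaMean
  have h : star (qaoaState J p γ β) ⬝ᵥ (costOp J *ᵥ qaoaState J p γ β)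
      = ((∑ s, ‖qaoaState J p γ β s‖ ^ 2 * skEnergy J s : ℝ) : ℂ) := by
    rw [costOp_eq, dotProduct]
    push_cast
    apply Finset.sum_congr rfl
    intro s _
    rw [Matrix.mulVec_diagonal]
    simp only [Pi.star_apply, RCLike.star_def]
    rw [mul_left_comm, mul_comm ((starRingEnd ℂ) _), Complex.mul_conj,
      Complex.normSq_eq_norm_sq]
    push_cast
    ring
  rw [h, Complex.ofReal_re]

/-- The constant coming from the misalignment lemma. -/
noncomputable def d0 (T : ℝ) : ℝ :=
  Real.exp (-(18 * (1200 * (1 + T)) ^ 2 + 12 * T * (1200 * (1 + T)))) / (4 * (1200 * (1 + T)))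

lemma d0_pos {T : ℝ} (hT : 0 ≤ T) : 0 < d0 T := by
  unfold d0
  have := Real.exp_pos (-(18 * (1200 * (1 + T)) ^ 2 + 12 * T * (1200 * (1 + T))))
  positivity

lemma d0_le_one {T : ℝ} (hT : 0 ≤ T) : d0 T ≤ 1 := by
  unfold d0
  rw [div_le_one (by positivity)]
  have h1 : Real.exp (-(18 * (1200 * (1 + T)) ^ 2 + 12 * T * (1200 * (1 + T)))) ≤ 1 := by
    apply Real.exp_le_one_iff.mpr
    have : 0 ≤ 18 * (1200 * (1 + T)) ^ 2 + 12 * T * (1200 * (1 + T)) := by positivity
    linarith
  linarith only [hT, h1]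

lemma d0_sq_lower {T : ℝ} (hT : 0 ≤ T) :
    Real.exp (-(10 ^ 8 * (1 + T) ^ 2)) ≤ d0 T ^ 2 / 8 := by
  set a : ℝ := 1 + T with ha
  have ha1 : 1 ≤ a := by rw [ha]; linarith
  have h1 : Real.exp (-(3 * 10 ^ 7 * a ^ 2)) ≤ d0 T := by
    unfold d0
    rw [← ha, le_div_iff₀ (by positivity)]
    have h2 : 4 * (1200 * a) ≤ Real.exp (4 * (1200 * a)) := by
      have := Real.add_one_le_exp (4 * (1200 * a))
      linarith only [this]
    calc Real.exp (-(3 * 10 ^ 7 * a ^ 2)) * (4 * (1200 * a))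
        ≤ Real.exp (-(3 * 10 ^ 7 * a ^ 2)) * Real.exp (4 * (1200 * a)) :=
          mul_le_mul_of_nonneg_left h2 (Real.exp_pos _).le
      _ = Real.exp (-(3 * 10 ^ 7 * a ^ 2) + 4 * (1200 * a)) := (Real.exp_add _ _).symm
      _ ≤ _ := by
          apply Real.exp_le_exp.mpr
          have hT' : T = a - 1 := by rw [ha]; ring
          rw [hT']
          nlinarith only [hT]
  have h3 : (8 : ℝ) ≤ Real.exp 3 := by
    have h4 : Real.exp 3 = Real.exp 1 ^ 3 := by
      rw [← Real.exp_nat_mul]; norm_num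
    rw [h4]
    have h5 := Real.exp_one_gt_d9
    have h6 : (2.7 : ℝ) ≤ Real.exp 1 := by linarith only [h5]
    calc (8 : ℝ) ≤ 2.7 ^ 3 := by norm_num
      _ ≤ Real.exp 1 ^ 3 := pow_le_pow_left₀ (by norm_num) h6 3
  rw [le_div_iff₀ (by norm_num)]
  calc Real.exp (-(10 ^ 8 * a ^ 2)) * 8 ≤ Real.exp (-(10 ^ 8 * a ^ 2)) * Real.exp 3 :=
        mul_le_mul_of_nonneg_left h3 (Real.exp_pos _).le
    _ = Real.exp (-(10 ^ 8 * a ^ 2) + 3) := (Real.exp_add _ _).symm
    _ ≤ Real.exp (-(3 * 10 ^ 7 * a ^ 2) + -(3 * 10 ^ 7 * a ^ 2)) := by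
        apply Real.exp_le_exp.mpr
        nlinarith only [hT]
    _ = Real.exp (-(3 * 10 ^ 7 * a ^ 2)) ^ 2 := by rw [Real.exp_add]; ring
    _ ≤ d0 T ^ 2 := pow_le_pow_left₀ (Real.exp_pos _).le h1 2

/-- **Main theorem**, finite size. -/
theorem gap_finite (T : ℝ) (n : ℕ) (hn : 2 ≤ n) (p : ℕ) (γ β : Fin p → ℝ)
    (hγ : ∑ k, |γ k| ≤ T) :
    qaoaValue n p γ β ≤ groundValue n - Real.exp (-(10 ^ 8 * (1 + T) ^ 2)) := by
  have hT : 0 ≤ T := le_trans (Finset.sum_nonneg fun k _ => abs_nonneg _) hγ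
  have hn0 : 0 < n := by omega
  have hnr : (0 : ℝ) < n := by exact_mod_cast hn0
  have hn2 : (2 : ℝ) ≤ n := by exact_mod_cast hn
  -- extended angle sequences
  set γ' : ℕ → ℝ := fun k => if h : k < p then γ ⟨k, h⟩ else 0 with hγ'
  set β' : ℕ → ℝ := fun k => if h : k < p then β ⟨k, h⟩ else 0 with hβ'
  have hγe : ∀ k : Fin p, γ' k = γ k := by
    intro k; simp [hγ', k.2]
  have hβe : ∀ k : Fin p, β' k = β k := by
    intro k; simp [hβ', k.2]
  set D : ℕ → Hil n →ₗ[ℂ] Hil n := fun k => matL (mixU n (β' k)) with hD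
  have hDn : ∀ k v, ‖D k v‖ = ‖v‖ := fun k v => norm_matL _ (mixU_unitary _) v
  have hsumγ : ∑ l ∈ range p, |γ' l| ≤ T := by
    rw [← Fin.sum_univ_eq_sum_range (fun l => |γ' l|) p]
    simp only [hγe]
    exact hγ
  have hstate : ∀ J : Pair n → ℝ, circ D γ' (cE J) (plusH n) p
      = WithLp.toLp 2 (qaoaState J p γ β) := fun J =>
    circ_eq_qaoa J p γ β γ' β' hγe hβe
  set ψ : (Pair n → ℝ) → Conf n → ℂ := fun J => qaoaState J p γ β with hψ
  have hψc : ∀ J s, ψ J s = circ D γ' (cE J) (plusH n) p s := by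
    intro J s
    rw [hstate J]
  have hmeas : ∀ s, Measurable fun J => ψ J s := by
    intro s
    have h1 := continuous_circ D γ' (plusH n) p
    have h2 : Continuous fun J : Pair n → ℝ => (circ D γ' (cE J) (plusH n) p) s :=
      (PiLp.continuous_apply 2 _ s).comp h1
    have h3 : (fun J => ψ J s) = fun J => circ D γ' (cE J) (plusH n) p s := by
      funext J; exact hψc J s
    rw [h3]
    exact h2.measurable
  have hnorm : ∀ J, ∑ s, ‖ψ J s‖ ^ 2 = 1 := by
    intro J
    have h1 := norm_circ_real D hDn γ' J (plusH n) p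
    rw [norm_plusH, EuclideanSpace.norm_eq] at h1
    have h2 : ∑ s, ‖circ D γ' (cE J) (plusH n) p s‖ ^ 2 = 1 := by
      have h3 := congrArg (fun x : ℝ => x ^ 2) h1
      simp only at h3
      rw [Real.sq_sqrt (Finset.sum_nonneg fun s _ => by (clear * -; positivity))] at h3
      rw [h3]; norm_num
    simp only [hψc]
    exact h2
  have hκ : (1 : ℝ) / 2 ≤ 1 - (n : ℝ)⁻¹ := by
    have : (n : ℝ)⁻¹ ≤ 1 / 2 := by
      rw [inv_le_comm₀ hnr (by norm_num)]
      linarith only [hn2]
    linarith only [this]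
  have hκ1 : 1 - (n : ℝ)⁻¹ ≤ 1 := by
    have : 0 < (n : ℝ)⁻¹ := by positivity
    linarith only [this]
  have hmis : ∀ i : Fin n, d0 T ≤ Dmis ψ (uvec i) := by
    intro i
    apply Dmis_lower hκ hκ1 (fun s => uvec_sq hn0 i s) hmeas hnorm hT
    intro J
    refine ⟨fun z => Fsh D γ' (skEnergy J) i (plusH n) p z, ?_, ?_, ?_⟩
    · intro s
      exact (differentiable_euclidean.1 (differentiable_Fsh D γ' (skEnergy J) i (plusH n) p)) s
    · intro r s
      rw [hψc]
      have h1 : (fun z => ((skEnergy J z : ℝ) : ℂ) - (r : ℂ) * ((Rov i s z : ℝ) : ℂ))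
          = cE (J - r • uvec i s) := by
        funext z
        unfold cE
        rw [skEnergy_shift]
        push_cast
        ring
      show circ D γ' (fun z => ((skEnergy J z : ℝ) : ℂ) - (r : ℂ) * ((Rov i s z : ℝ) : ℂ))
        (plusH n) p s = _
      rw [h1]
    · intro z y hy
      refine le_trans (cs_pairing y _ hy) ?_
      have h1 := norm_Fsh_le D (fun k v => (hDn k v).le) γ' (skEnergy J) i (plusH n) p z
      rw [norm_plusH, mul_one, EuclideanSpace.norm_eq] at h1
      refine le_trans h1 ?_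
      apply Real.exp_le_exp.mpr
      exact mul_le_mul_of_nonneg_right hsumγ (norm_nonneg _)
  -- pointwise inequality
  set q : ℝ := d0 T / 8 with hq
  have hd0 := d0_pos hT
  have hd1 := d0_le_one hT
  have hq0 : 0 ≤ q := by (clear * - hd0; positivity)
  have hq1 : q ≤ 1 := by rw [hq]; linarith only [hd1]
  have hpt : ∀ J : Pair n → ℝ,
      qaoaMean J p γ β + 2 * q * ∑ i, ∑ s, ‖ψ J s‖ ^ 2 * max (-(tt (uvec i) s J)) 0
        ≤ (⨆ s : Conf n, skEnergy J s) + 4 * q ^ 2 * ⨆ s : Conf n, skEnergy (-J) s := by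
    intro J
    rw [qaoaMean_eq]
    exact flip_avg J (fun s => ‖ψ J s‖ ^ 2) (fun s => by (clear * -; positivity)) (hnorm J) q hq0 hq1
  have iE : Integrable (fun J : Pair n → ℝ => qaoaMean J p γ β) (gLaw (Pair n)) := by
    have h1 : (fun J : Pair n → ℝ => qaoaMean J p γ β)
        = fun J => ∑ s, ‖ψ J s‖ ^ 2 * skEnergy J s := by
      funext J; exact qaoaMean_eq J p γ β
    rw [h1]
    apply integrable_finsetSum
    intro s _
    refine (integrable_energy s).abs.mono' ?_ (Filter.Eventually.of_forall fun J => ?_)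
    · apply Measurable.aestronglyMeasurable
      exact ((hmeas s).norm.pow_const 2).mul (continuous_skEnergy s).measurable
    · rw [norm_mul, Real.norm_eq_abs, Real.norm_eq_abs, abs_of_nonneg (by (clear * -; positivity))]
      calc ‖ψ J s‖ ^ 2 * |skEnergy J s| ≤ 1 * |skEnergy J s| :=
            mul_le_mul_of_nonneg_right (norm_sq_le_one (hnorm J) s) (abs_nonneg _)
        _ = _ := one_mul _
  have iM : ∀ i : Fin n, Integrable
      (fun J : Pair n → ℝ => ∑ s, ‖ψ J s‖ ^ 2 * max (-(tt (uvec i) s J)) 0) (gLaw (Pair n)) :=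
    fun i => integrable_finsetSum _ fun s _ => integrable_mis ψ (uvec i) hmeas hnorm s
  have iS1 : Integrable (fun J : Pair n → ℝ => ⨆ s : Conf n, skEnergy J s) (gLaw (Pair n)) :=
    integrable_iSup (fun (s : Conf n) (J : Pair n → ℝ) => skEnergy J s)
      (fun s => integrable_energy s) (fun s => (continuous_skEnergy s).measurable)
  have iS2 : Integrable (fun J : Pair n → ℝ => ⨆ s : Conf n, skEnergy (-J) s)
      (gLaw (Pair n)) :=
    integrable_iSup (fun (s : Conf n) (J : Pair n → ℝ) => skEnergy (-J) s)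
      (fun s => integrable_energy_neg s)
      (fun s => ((continuous_skEnergy s).comp continuous_neg).measurable)
  have hint : ∫ J, (qaoaMean J p γ β
        + 2 * q * ∑ i, ∑ s, ‖ψ J s‖ ^ 2 * max (-(tt (uvec i) s J)) 0) ∂(gLaw (Pair n))
      ≤ ∫ J : Pair n → ℝ, ((⨆ s : Conf n, skEnergy J s)
        + 4 * q ^ 2 * ⨆ s : Conf n, skEnergy (-J) s) ∂(gLaw (Pair n)) := by
    apply integral_mono
    · exact iE.add ((integrable_finsetSum _ fun i _ => iM i).const_mul _)
    · exact iS1.add (iS2.const_mul _)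
    · exact hpt
  rw [integral_add iE ((integrable_finsetSum _ fun i _ => iM i).const_mul _),
    integral_add iS1 (iS2.const_mul _), integral_const_mul, integral_const_mul,
    integral_finsetSum _ fun i _ => iM i] at hint
  have hsumD : (n : ℝ) * d0 T ≤ ∑ i : Fin n,
      ∫ J : Pair n → ℝ, ∑ s, ‖ψ J s‖ ^ 2 * max (-(tt (uvec i) s J)) 0 ∂(gLaw (Pair n)) := by
    calc (n : ℝ) * d0 T = ∑ _i : Fin n, d0 T := by simp only [sum_const, card_univ, Fintype.card_fin, nsmul_eq_mul]
      _ ≤ _ := Finset.sum_le_sum fun i _ => hmis i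
  have hneg := integral_sup_neg_le hn0
  have hQ : (n : ℝ) * qaoaValue n p γ β = ∫ J, qaoaMean J p γ β ∂(gLaw (Pair n)) := by
    unfold qaoaValue couplingLaw
    rw [← mul_assoc, mul_inv_cancel₀ hnr.ne', one_mul]
  have hP : (n : ℝ) * groundValue n
      = ∫ J : Pair n → ℝ, (⨆ s : Conf n, skEnergy J s) ∂(gLaw (Pair n)) := by
    unfold groundValue couplingLaw
    rw [← mul_assoc, mul_inv_cancel₀ hnr.ne', one_mul]
  rw [← hQ, ← hP] at hint
  have h1 : 2 * q * ((n : ℝ) * d0 T) ≤ 2 * q * ∑ i : Fin n,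
      ∫ J : Pair n → ℝ, ∑ s, ‖ψ J s‖ ^ 2 * max (-(tt (uvec i) s J)) 0 ∂(gLaw (Pair n)) :=
    mul_le_mul_of_nonneg_left hsumD (by positivity)
  have h2 : 4 * q ^ 2 * ∫ J : Pair n → ℝ, (⨆ s : Conf n, skEnergy (-J) s) ∂(gLaw (Pair n))
      ≤ 4 * q ^ 2 * (2 * n) := mul_le_mul_of_nonneg_left hneg (by positivity)
  have h3 : (n : ℝ) * qaoaValue n p γ β + (n : ℝ) * (d0 T ^ 2 / 8) ≤ (n : ℝ) * groundValue n := by
    have h4 : 2 * q * ((n : ℝ) * d0 T) - 4 * q ^ 2 * (2 * n) = (n : ℝ) * (d0 T ^ 2 / 8) := by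
      rw [hq]; ring
    linarith only [hint, h1, h2, h4]
  have h5 : qaoaValue n p γ β + d0 T ^ 2 / 8 ≤ groundValue n := by
    have : (n : ℝ) * (qaoaValue n p γ β + d0 T ^ 2 / 8) ≤ (n : ℝ) * groundValue n := by
      rw [mul_add]; exact h3
    exact le_of_mul_le_mul_left this hnr
  have h6 := d0_sq_lower hT
  exact le_sub_iff_add_le.mpr (le_trans (add_le_add le_rfl h6) h5)

/-- **Main theorem**, limit form. -/
theorem gap_limit (T : ℝ) (p : ℕ) (γ β : Fin p → ℝ) (hγ : ∑ k, |γ k| ≤ T) (v P : ℝ)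
    (hv : Tendsto (fun n => qaoaValue n p γ β) atTop (𝓝 v))
    (hP : Tendsto groundValue atTop (𝓝 P)) :
    v ≤ P - Real.exp (-(10 ^ 8 * (1 + T) ^ 2)) := by
  apply le_of_tendsto_of_tendsto hv (hP.sub_const _)
  filter_upwards [eventually_ge_atTop 2] with n hn
  exact gap_finite T n hn p γ β hγ

end Vale.Agent.P367.Gap
end
end

section

section

namespace Vale.Agent.P367.Lim

open Finset ComplexConjugate Vale.Agent.P367.Gap

/-- one-qubit matrix element of `exp(-iβX)` -/
noncomputable def mix (β : ℝ) (b b' : Bool) : ℂ :=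
  if b = b' then (Real.cos β : ℂ) else -(Complex.I * Real.sin β)

lemma mix_unitary (β : ℝ) (a b : Bool) :
    ∑ z, mix β z a * conj (mix β z b) = if a = b then 1 else 0 := by
  have h : (Real.cos β : ℂ) * Real.cos β + (Real.sin β : ℂ) * Real.sin β = 1 := by
    have := Real.cos_sq_add_sin_sq β
    rw [← Complex.ofReal_mul, ← Complex.ofReal_mul, ← Complex.ofReal_add,
      ← pow_two, ← pow_two, this, Complex.ofReal_one]
  have hI := Complex.I_mul_I
  cases a <;> cases b <;>
    simp only [mix, Fintype.univ_bool, mem_singleton, sum_insert, sum_singleton, if_true,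
      Bool.false_eq_true, Bool.true_eq_false, if_false, not_false_eq_true,
      map_neg, map_mul, Complex.conj_I, Complex.conj_ofReal]
  · linear_combination h - (Real.sin β : ℂ) ^ 2 * hI
  · ring
  · ring
  · linear_combination h - (Real.sin β : ℂ) ^ 2 * hI

/-- one-sided single-site path -/
abbrev Pth (p : ℕ) : Type := Fin (p + 1) → Bool

/-- contour path of a single site: ket path and bra path -/
abbrev CP (p : ℕ) : Type := Pth p × Pth p

/-- one-sided path weight -/
noncomputable def kap (β : ℕ → ℝ) : (p : ℕ) → Pth p → ℂ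
  | 0, _ => (((Real.sqrt 2)⁻¹ : ℝ) : ℂ)
  | p + 1, a => mix (β p) (a (Fin.last (p + 1))) (a (Fin.last p).castSucc) * kap β p (Fin.init a)

/-- closed contour weight -/
noncomputable def wgt (β : ℕ → ℝ) (p : ℕ) (x : CP p) : ℂ :=
  kap β p x.1 * conj (kap β p x.2) * (if x.1 (Fin.last p) = x.2 (Fin.last p) then 1 else 0)

/-- truncated path -/
def ini {p : ℕ} (x : CP (p + 1)) : CP p := (Fin.init x.1, Fin.init x.2)

/-- interaction through the phases of layers `< p` -/
noncomputable def qq (γ : ℕ → ℝ) (p : ℕ) (x y : CP p) : ℝ :=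
  ∑ k : Fin p, γ k * (spin (x.1 k.castSucc) * spin (y.1 k.castSucc)
    - spin (x.2 k.castSucc) * spin (y.2 k.castSucc))

/-- interaction including the phase at the last time -/
noncomputable def qh (γ : ℕ → ℝ) (p : ℕ) (x y : CP p) : ℝ :=
  ∑ k : Fin (p + 1), γ k * (spin (x.1 k) * spin (y.1 k) - spin (x.2 k) * spin (y.2 k))

lemma qq_succ (γ : ℕ → ℝ) (p : ℕ) (x y : CP (p + 1)) :
    qq γ (p + 1) x y = qh γ p (ini x) (ini y) := rfl

lemma qh_eq (γ : ℕ → ℝ) (p : ℕ) (x y : CP p) :
    qh γ p x y = qq γ p x y + γ p * (spin (x.1 (Fin.last p)) * spin (y.1 (Fin.last p))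
      - spin (x.2 (Fin.last p)) * spin (y.2 (Fin.last p))) := by
  unfold qh qq
  rw [Fin.sum_univ_castSucc]
  rfl

/-- last spin of the ket path -/
noncomputable def lst {p : ℕ} (x : CP p) : ℝ := spin (x.1 (Fin.last p))

variable {V : Type} [Fintype V] [DecidableEq V]

/-- many-site amplitude with insertions `u k` -/
noncomputable def amp (β : ℕ → ℝ) : (p : ℕ) → (ℕ → (V → Bool) → ℂ) → (V → Bool) → ℂ
  | 0, u, z => u 0 z * ∏ _j : V, (((Real.sqrt 2)⁻¹ : ℝ) : ℂ)
  | p + 1, u, z => u (p + 1) z * ∑ z' : V → Bool, (∏ j, mix (β p) (z j) (z' j)) * amp β p u z'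

lemma tensor_unitary (β : ℝ) (a b : V → Bool) :
    ∑ z : V → Bool, (∏ j, mix β (z j) (a j)) * conj (∏ j, mix β (z j) (b j))
      = if a = b then 1 else 0 := by
  have h1 : ∀ z : V → Bool, (∏ j, mix β (z j) (a j)) * conj (∏ j, mix β (z j) (b j))
      = ∏ j, (mix β (z j) (a j) * conj (mix β (z j) (b j))) := by
    intro z
    rw [map_prod, prod_mul_distrib]
  simp_rw [h1]
  have h2 := (Finset.prod_univ_sum (fun _ : V => (univ : Finset Bool))
    (fun j z => mix β z (a j) * conj (mix β z (b j))))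
  rw [Fintype.piFinset_univ] at h2
  rw [← h2]
  simp_rw [mix_unitary]
  by_cases h : a = b
  · subst h; simp only [↓reduceIte, prod_const_one]
  · rw [if_neg h]
    obtain ⟨j, hj⟩ := Function.ne_iff.1 h
    exact prod_eq_zero (mem_univ j) (if_neg hj)

lemma sum_norm_sq_tensor (β : ℝ) (f : (V → Bool) → ℂ) :
    ∑ z : V → Bool, ‖∑ z' : V → Bool, (∏ j, mix β (z j) (z' j)) * f z'‖ ^ 2
      = ∑ z', ‖f z'‖ ^ 2 := by
  have hc : ((∑ z : V → Bool, ‖∑ z' : V → Bool, (∏ j, mix β (z j) (z' j)) * f z'‖ ^ 2 : ℝ) : ℂ)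
      = ((∑ z', ‖f z'‖ ^ 2 : ℝ) : ℂ) := by
    push_cast
    simp_rw [← Complex.mul_conj']
    calc ∑ z : V → Bool, (∑ z', (∏ j, mix β (z j) (z' j)) * f z')
            * conj (∑ z', (∏ j, mix β (z j) (z' j)) * f z')
        = ∑ z : V → Bool, ∑ a : V → Bool, ∑ b : V → Bool,
            ((∏ j, mix β (z j) (a j)) * conj (∏ j, mix β (z j) (b j))) * (f a * conj (f b)) := by
          refine sum_congr rfl fun z _ => ?_
          rw [map_sum, sum_mul_sum]
          refine sum_congr rfl fun a _ => sum_congr rfl fun b _ => ?_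
          rw [map_mul]
          ring
      _ = ∑ a : V → Bool, ∑ b : V → Bool,
            (∑ z : V → Bool, (∏ j, mix β (z j) (a j)) * conj (∏ j, mix β (z j) (b j)))
              * (f a * conj (f b)) := by
          rw [sum_comm]
          refine sum_congr rfl fun a _ => ?_
          rw [sum_comm]
          refine sum_congr rfl fun b _ => ?_
          rw [sum_mul]
      _ = ∑ z', f z' * conj (f z') := by
          simp_rw [tensor_unitary]
          simp only [ite_mul, one_mul, zero_mul, sum_ite_eq, mem_univ, ↓reduceIte]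
  exact_mod_cast hc

lemma sum_norm_sq_amp (β : ℕ → ℝ) (p : ℕ) (u : ℕ → (V → Bool) → ℂ)
    (hu : ∀ k z, ‖u k z‖ ≤ 1) : ∑ z, ‖amp β p u z‖ ^ 2 ≤ 1 := by
  induction p with
  | zero =>
    have h : ∀ z : V → Bool, ‖amp β 0 u z‖ ^ 2 ≤ (2⁻¹ : ℝ) ^ Fintype.card V := by
      intro z
      simp only [amp, prod_const, card_univ, norm_mul, norm_pow]
      have h1 : ‖(((Real.sqrt 2)⁻¹ : ℝ) : ℂ)‖ = (Real.sqrt 2)⁻¹ := by
        rw [Complex.norm_real, Real.norm_eq_abs, abs_of_nonneg (by positivity)]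
      rw [h1, mul_pow, ← pow_mul, mul_comm (Fintype.card V) 2, pow_mul, inv_pow,
        Real.sq_sqrt (by norm_num)]
      have h2 : ‖u 0 z‖ ^ 2 ≤ 1 := pow_le_one₀ (norm_nonneg _) (hu 0 z)
      calc ‖u 0 z‖ ^ 2 * (2⁻¹ : ℝ) ^ Fintype.card V ≤ 1 * (2⁻¹ : ℝ) ^ Fintype.card V := by
            gcongr
        _ = _ := one_mul _
    refine (sum_le_sum fun z _ => h z).trans ?_
    rw [sum_const, card_univ, Fintype.card_fun, Fintype.card_bool, nsmul_eq_mul]
    push_cast
    rw [← mul_pow]
    norm_num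
  | succ p ih =>
    have h : ∀ z : V → Bool, ‖amp β (p + 1) u z‖ ^ 2
        ≤ ‖∑ z' : V → Bool, (∏ j, mix (β p) (z j) (z' j)) * amp β p u z'‖ ^ 2 := by
      intro z
      simp only [amp, norm_mul]
      have := hu (p + 1) z
      have h0 := norm_nonneg (∑ z' : V → Bool, (∏ j, mix (β p) (z j) (z' j)) * amp β p u z')
      gcongr
      exact mul_le_of_le_one_left h0 this
    refine (sum_le_sum fun z _ => h z).trans ?_
    rw [sum_norm_sq_tensor]
    exact ih

/-- split off the last time of a family of paths -/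
def splitE (V : Type) (p : ℕ) : (V → Pth (p + 1)) ≃ (V → Pth p) × (V → Bool) where
  toFun A := (fun j => Fin.init (A j), fun j => A j (Fin.last (p + 1)))
  invFun B := fun j => Fin.snoc (α := fun _ => Bool) (B.1 j) (B.2 j)
  left_inv A := by
    funext j
    exact Fin.snoc_init_self (A j)
  right_inv B := by
    refine Prod.ext ?_ ?_
    · funext j
      simp only [Fin.init_snoc]
    · funext j
      simp only [Fin.snoc_last]

lemma amp_path (β : ℕ → ℝ) (p : ℕ) (u : ℕ → (V → Bool) → ℂ) (z : V → Bool) :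
    amp β p u z = ∑ A : V → Pth p, (if (fun j => A j (Fin.last p)) = z then (1 : ℂ) else 0)
      * ((∏ j, kap β p (A j)) * ∏ k : Fin (p + 1), u k (fun j => A j k)) := by
  induction p generalizing z with
  | zero =>
    have h : ∀ A : V → Pth 0, (if (fun j => A j (Fin.last 0)) = z then (1 : ℂ) else 0)
        * ((∏ j, kap β 0 (A j)) * ∏ k : Fin (0 + 1), u k (fun j => A j k))
        = if A = (fun j _ => z j) then u 0 z * ∏ _j : V, (((Real.sqrt 2)⁻¹ : ℝ) : ℂ) else 0 := by
      intro A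
      by_cases hA : A = (fun j _ => z j)
      · subst hA
        simp only [↓reduceIte, kap, Complex.ofReal_inv, prod_inv_distrib, prod_const, card_univ, Nat.reduceAdd, univ_unique, Fin.default_eq_zero, Fin.isValue, Fin.val_eq_zero, card_singleton, pow_one, one_mul]
        ring
      · rw [if_neg hA, if_neg, zero_mul]
        intro h
        apply hA
        funext j k
        rw [← h]
        congr 1
        exact Subsingleton.elim (α := Fin 1) _ _
    simp_rw [h]
    simp only [amp, Complex.ofReal_inv, prod_inv_distrib, prod_const, card_univ, Nat.reduceAdd, sum_ite_eq', mem_univ, ↓reduceIte]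
  | succ p ih =>
    rw [← (splitE V p).symm.sum_comp, Fintype.sum_prod_type]
    have h1 : ∀ (A : V → Pth p) (y : V → Bool),
        (if (fun j => (splitE V p).symm (A, y) j (Fin.last (p + 1))) = z then (1 : ℂ) else 0)
        * ((∏ j, kap β (p + 1) ((splitE V p).symm (A, y) j))
          * ∏ k : Fin (p + 1 + 1), u k (fun j => (splitE V p).symm (A, y) j k))
        = (if y = z then (1 : ℂ) else 0) * (u (p + 1) y *
            ((∏ j, mix (β p) (y j) (A j (Fin.last p))) *
            ((∏ j, kap β p (A j)) * ∏ k : Fin (p + 1), u k (fun j => A j k)))) := by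
      intro A y
      have e1 : (fun j => (splitE V p).symm (A, y) j (Fin.last (p + 1))) = y := by
        funext j; simp [splitE]
      have e2 : ∀ j, kap β (p + 1) ((splitE V p).symm (A, y) j)
          = mix (β p) (y j) (A j (Fin.last p)) * kap β p (A j) := by
        intro j
        have hl : (splitE V p).symm (A, y) j (Fin.last (p + 1)) = y j := by simp [splitE]
        have hc : (splitE V p).symm (A, y) j (Fin.last p).castSucc = A j (Fin.last p) := by
          simp only [splitE, Equiv.coe_fn_symm_mk, Fin.snoc_castSucc]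
        have hi : Fin.init ((splitE V p).symm (A, y) j) = A j := by
          simp only [splitE, Equiv.coe_fn_symm_mk, Fin.init_snoc]
        rw [kap, hl, hc, hi]
      have e3 : ∏ k : Fin (p + 1 + 1), u k (fun j => (splitE V p).symm (A, y) j k)
          = (∏ k : Fin (p + 1), u k (fun j => A j k)) * u (p + 1) y := by
        rw [Fin.prod_univ_castSucc]
        congr 1
        · refine prod_congr rfl fun k _ => ?_
          simp only [splitE, Equiv.coe_fn_symm_mk, Fin.snoc_castSucc, Fin.val_castSucc]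
        · simp only [splitE, Equiv.coe_fn_symm_mk, Fin.snoc_last, Fin.val_last]
      rw [e1, e3]
      simp_rw [e2]
      rw [prod_mul_distrib]
      ring
    simp_rw [h1]
    rw [amp]
    simp_rw [ih]
    have h2 : ∀ A : V → Pth p, ∑ y : V → Bool, (if y = z then (1 : ℂ) else 0) * (u (p + 1) y *
            ((∏ j, mix (β p) (y j) (A j (Fin.last p))) *
            ((∏ j, kap β p (A j)) * ∏ k : Fin (p + 1), u k (fun j => A j k))))
        = u (p + 1) z * ((∏ j, mix (β p) (z j) (A j (Fin.last p))) *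
            ((∏ j, kap β p (A j)) * ∏ k : Fin (p + 1), u k (fun j => A j k))) := by
      intro A
      rw [sum_eq_single z]
      · simp only [↓reduceIte, one_mul]
      · intro y _ hy; simp [hy]
      · intro h; exact absurd (mem_univ z) h
    simp_rw [h2]
    rw [← mul_sum]
    congr 1
    simp_rw [mul_sum]
    rw [sum_comm]
    refine sum_congr rfl fun A _ => ?_
    rw [sum_eq_single (fun j => A j (Fin.last p))]
    · simp only [↓reduceIte, one_mul]
    · intro y _ hy
      rw [if_neg (fun h => hy h.symm)]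
      ring
    · intro h; exact absurd (mem_univ _) h

/-- the two-sided sum as a sum over contour paths -/
theorem sum_amp_mul_conj (β : ℕ → ℝ) (p : ℕ) (u v : ℕ → (V → Bool) → ℂ) :
    ∑ z, amp β p u z * conj (amp β p v z) =
      ∑ X : V → CP p, (∏ j, wgt β p (X j)) *
        ((∏ k : Fin (p + 1), u k (fun j => (X j).1 k)) *
          ∏ k : Fin (p + 1), conj (v k (fun j => (X j).2 k))) := by
  rw [← (Equiv.arrowProdEquivProdArrow V (fun _ => Pth p) (fun _ => Pth p)).symm.sum_comp,
    Fintype.sum_prod_type]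
  have h1 : ∀ z : V → Bool, amp β p u z * conj (amp β p v z)
      = ∑ A : V → Pth p, ∑ B : V → Pth p,
        (if (fun j => A j (Fin.last p)) = z then (1 : ℂ) else 0) *
        (if (fun j => B j (Fin.last p)) = z then (1 : ℂ) else 0) *
        (((∏ j, kap β p (A j)) * ∏ k : Fin (p + 1), u k (fun j => A j k)) *
          conj ((∏ j, kap β p (B j)) * ∏ k : Fin (p + 1), v k (fun j => B j k))) := by
    intro z
    rw [amp_path β p u, amp_path β p v, map_sum, sum_mul_sum]
    refine sum_congr rfl fun A _ => sum_congr rfl fun B _ => ?_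
    rw [map_mul]
    have : conj (if (fun j => B j (Fin.last p)) = z then (1 : ℂ) else 0)
        = (if (fun j => B j (Fin.last p)) = z then (1 : ℂ) else 0) := by
      split_ifs <;> simp
    rw [this]
    ring
  simp_rw [h1]
  rw [sum_comm]
  refine sum_congr rfl fun A _ => ?_
  rw [sum_comm]
  refine sum_congr rfl fun B _ => ?_
  have h2 : ∑ z : V → Bool, (if (fun j => A j (Fin.last p)) = z then (1 : ℂ) else 0) *
        (if (fun j => B j (Fin.last p)) = z then (1 : ℂ) else 0) *
        (((∏ j, kap β p (A j)) * ∏ k : Fin (p + 1), u k (fun j => A j k)) *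
          conj ((∏ j, kap β p (B j)) * ∏ k : Fin (p + 1), v k (fun j => B j k)))
      = (if (fun j => A j (Fin.last p)) = (fun j => B j (Fin.last p)) then (1 : ℂ) else 0) *
        (((∏ j, kap β p (A j)) * ∏ k : Fin (p + 1), u k (fun j => A j k)) *
          conj ((∏ j, kap β p (B j)) * ∏ k : Fin (p + 1), v k (fun j => B j k))) := by
    rw [sum_eq_single (fun j => A j (Fin.last p))]
    · by_cases h : (fun j => A j (Fin.last p)) = (fun j => B j (Fin.last p))
      · simp only [h, ↓reduceIte, mul_one, map_mul, map_prod, one_mul]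
      · rw [if_neg h, if_neg (fun h' => h (Eq.symm h'))]
        simp only [↓reduceIte, mul_zero, map_mul, map_prod, zero_mul]
    · intro z _ hz
      rw [if_neg (fun h => hz h.symm)]
      ring
    · intro h; exact absurd (mem_univ _) h
  rw [h2]
  have h3 : ∏ j, wgt β p (((Equiv.arrowProdEquivProdArrow V (fun _ => Pth p)
      (fun _ => Pth p)).symm (A, B)) j)
      = (if (fun j => A j (Fin.last p)) = (fun j => B j (Fin.last p)) then (1 : ℂ) else 0) *
        ((∏ j, kap β p (A j)) * conj (∏ j, kap β p (B j))) := by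
    have h4 : ∀ j, wgt β p (((Equiv.arrowProdEquivProdArrow V (fun _ => Pth p)
        (fun _ => Pth p)).symm (A, B)) j) = kap β p (A j) * conj (kap β p (B j)) *
          (if A j (Fin.last p) = B j (Fin.last p) then (1 : ℂ) else 0) := fun j => rfl
    simp_rw [h4]
    rw [prod_mul_distrib, prod_mul_distrib, map_prod]
    have : ∏ j, (if A j (Fin.last p) = B j (Fin.last p) then (1 : ℂ) else 0)
        = (if (fun j => A j (Fin.last p)) = (fun j => B j (Fin.last p)) then (1 : ℂ) else 0) := by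
      by_cases h : (fun j => A j (Fin.last p)) = (fun j => B j (Fin.last p))
      · rw [if_pos h]
        exact prod_eq_one fun j _ => if_pos (congrFun h j)
      · rw [if_neg h]
        obtain ⟨j, hj⟩ := Function.ne_iff.1 h
        exact prod_eq_zero (mem_univ j) (if_neg hj)
    rw [this]
    ring
  rw [h3]
  simp only [Equiv.arrowProdEquivProdArrow, Equiv.coe_fn_symm_mk, map_mul, map_prod]
  ring

/-- unitarity bound -/
theorem norm_sum_paths_le (β : ℕ → ℝ) (p : ℕ) (u v : ℕ → (V → Bool) → ℂ)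
    (hu : ∀ k z, ‖u k z‖ ≤ 1) (hv : ∀ k z, ‖v k z‖ ≤ 1) :
    ‖∑ X : V → CP p, (∏ j, wgt β p (X j)) *
        ((∏ k : Fin (p + 1), u k (fun j => (X j).1 k)) *
          ∏ k : Fin (p + 1), conj (v k (fun j => (X j).2 k)))‖ ≤ 1 := by
  rw [← sum_amp_mul_conj]
  have h1 := sum_norm_sq_amp β p u hu
  have h2 := sum_norm_sq_amp β p v hv
  calc ‖∑ z, amp β p u z * conj (amp β p v z)‖ ≤ ∑ z, ‖amp β p u z * conj (amp β p v z)‖ :=
        norm_sum_le _ _
    _ ≤ ∑ z, (‖amp β p u z‖ ^ 2 + ‖amp β p v z‖ ^ 2) / 2 := by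
        refine sum_le_sum fun z _ => ?_
        rw [norm_mul, RCLike.norm_conj]
        nlinarith [sq_nonneg (‖amp β p u z‖ - ‖amp β p v z‖)]
    _ = ((∑ z, ‖amp β p u z‖ ^ 2) + ∑ z, ‖amp β p v z‖ ^ 2) / 2 := by
        rw [← sum_div, sum_add_distrib]
    _ ≤ 1 := by linarith

end Vale.Agent.P367.Lim
end
end

section

section

namespace Vale.Agent.P367.Lim

open Finset ComplexConjugate Matrix Nat Vale.Agent.P367.Gap

/-- exponential of a multiple of an involution -/
lemma exp_invol {m : Type} [Fintype m] [DecidableEq m] (A : Matrix m m ℂ) (hA : A * A = 1) (c : ℂ) :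
    NormedSpace.exp (c • A) = Complex.cosh c • (1 : Matrix m m ℂ) + Complex.sinh c • A := by
  have hp : ∀ k : ℕ, A ^ (2 * k) = 1 := by
    intro k
    rw [pow_mul, pow_two, hA, one_pow]
  have hp' : ∀ k : ℕ, A ^ (2 * k + 1) = A := by
    intro k
    rw [pow_succ, hp, one_mul]
  have h1 : HasSum (fun k : ℕ => (((2 * k)! : ℂ)⁻¹) • (c • A) ^ (2 * k))
      (Complex.cosh c • (1 : Matrix m m ℂ)) := by
    have h := (Complex.hasSum_cosh c).smul_const (1 : Matrix m m ℂ)
    refine h.congr_fun ?_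
    intro k
    rw [smul_pow, hp, smul_smul, div_eq_mul_inv, mul_comm]
  have h2 : HasSum (fun k : ℕ => (((2 * k + 1)! : ℂ)⁻¹) • (c • A) ^ (2 * k + 1))
      (Complex.sinh c • A) := by
    have h := (Complex.hasSum_sinh c).smul_const A
    refine h.congr_fun ?_
    intro k
    rw [smul_pow, hp', smul_smul, div_eq_mul_inv, mul_comm]
  have h3 := HasSum.even_add_odd (f := fun k : ℕ => ((k ! : ℂ)⁻¹) • (c • A) ^ k) h1 h2
  rw [NormedSpace.exp_eq_tsum (𝕂 := ℂ)]
  exact h3.tsum_eq

variable {n : ℕ}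

/-- flip one spin -/
def flp (i : Fin n) (s : Conf n) : Conf n := Function.update s i (!(s i))

lemma flp_flp (i : Fin n) (s : Conf n) : flp i (flp i s) = s := by
  unfold flp
  simp

lemma eq_flp_iff (i : Fin n) (s t : Conf n) : s = flp i t ↔ t = flp i s := by
  constructor
  · intro h; rw [h, flp_flp]
  · intro h; rw [h, flp_flp]

lemma pauliX_mul (i : Fin n) (M : Matrix (Conf n) (Conf n) ℂ) (s t : Conf n) :
    (pauliX i * M) s t = M (flp i s) t := by
  rw [Matrix.mul_apply]
  have h : ∀ r, (pauliX i : Matrix (Conf n) (Conf n) ℂ) s r * M r t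
      = if r = flp i s then M r t else 0 := by
    intro r
    have : (pauliX i : Matrix (Conf n) (Conf n) ℂ) s r = if s = flp i r then 1 else 0 := rfl
    rw [this]
    by_cases hr : r = flp i s
    · rw [if_pos hr, if_pos ((eq_flp_iff i s r).2 hr), one_mul]
    · rw [if_neg hr, if_neg (fun h => hr ((eq_flp_iff i s r).1 h)), zero_mul]
  simp_rw [h]
  simp

lemma pauliX_apply (i : Fin n) (s t : Conf n) :
    (pauliX i : Matrix (Conf n) (Conf n) ℂ) s t = if s = flp i t then 1 else 0 := rfl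

lemma flp_comm (i j : Fin n) (s : Conf n) : flp i (flp j s) = flp j (flp i s) := by
  by_cases h : i = j
  · subst h; rfl
  · unfold flp
    rw [Function.update_of_ne h, Function.update_of_ne (Ne.symm h), Function.update_comm h]

lemma pauliX_sq (i : Fin n) : (pauliX i : Matrix (Conf n) (Conf n) ℂ) * pauliX i = 1 := by
  ext s t
  rw [pauliX_mul, pauliX_apply, Matrix.one_apply]
  by_cases h : s = t
  · subst h; simp
  · rw [if_neg h, if_neg]
    intro h'
    apply h
    rw [← flp_flp i s, h', flp_flp]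

lemma pauliX_commute (i j : Fin n) :
    Commute (pauliX i : Matrix (Conf n) (Conf n) ℂ) (pauliX j) := by
  ext s t
  rw [pauliX_mul, pauliX_mul, pauliX_apply, pauliX_apply]
  by_cases h : flp i s = flp j t
  · rw [if_pos h, if_pos]
    rw [eq_flp_iff, flp_comm, h, flp_flp]
  · rw [if_neg h, if_neg]
    intro h'
    apply h
    rw [eq_flp_iff, flp_comm, h', flp_flp]

/-- one-site factor with complex parameter -/
noncomputable def mixc (c : ℂ) (b b' : Bool) : ℂ := if b = b' then Complex.cosh c else Complex.sinh c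

lemma mixc_eq (b : ℝ) (x y : Bool) : mixc (-(Complex.I * (b : ℂ))) x y = mix b x y := by
  unfold mixc mix
  have h1 : -(Complex.I * (b : ℂ)) = -(b * Complex.I) := by ring
  rw [h1, Complex.cosh_neg, Complex.sinh_neg, Complex.cosh_mul_I, Complex.sinh_mul_I]
  push_cast
  split_ifs
  · rfl
  · ring

lemma exp_sum_pauliX (c : ℂ) (S : Finset (Fin n)) (s t : Conf n) :
    NormedSpace.exp (c • ∑ i ∈ S, (pauliX i : Matrix (Conf n) (Conf n) ℂ)) s t
      = ∏ j, if j ∈ S then mixc c (s j) (t j) else if s j = t j then 1 else 0 := by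
  induction S using Finset.induction_on generalizing s with
  | empty =>
    simp only [sum_empty, smul_zero, NormedSpace.exp_zero, notMem_empty, if_false]
    rw [Matrix.one_apply]
    by_cases h : s = t
    · subst h; simp only [↓reduceIte, prod_const_one]
    · rw [if_neg h]
      obtain ⟨j, hj⟩ := Function.ne_iff.1 h
      exact (prod_eq_zero (mem_univ j) (if_neg hj)).symm
  | insert a S ha ih =>
    rw [sum_insert ha, smul_add, Matrix.exp_add_of_commute, exp_invol _ (pauliX_sq a), add_mul,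
      Matrix.add_apply, Matrix.smul_mul, Matrix.smul_mul, Matrix.smul_apply, Matrix.smul_apply,
      one_mul, pauliX_mul, ih, ih, smul_eq_mul, smul_eq_mul]
    · rw [← mul_prod_erase univ _ (mem_univ a), ← mul_prod_erase univ _ (mem_univ a),
        ← mul_prod_erase univ _ (mem_univ a)]
      have h1 : ∏ x ∈ univ.erase a, (if x ∈ S then mixc c (flp a s x) (t x)
            else if flp a s x = t x then 1 else 0)
          = ∏ x ∈ univ.erase a, (if x ∈ S then mixc c (s x) (t x)
            else if s x = t x then 1 else 0) := by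
        refine prod_congr rfl fun x hx => ?_
        have : flp a s x = s x := Function.update_of_ne (ne_of_mem_erase hx) _ _
        rw [this]
      have h2 : ∏ x ∈ univ.erase a, (if x ∈ insert a S then mixc c (s x) (t x)
            else if s x = t x then 1 else 0)
          = ∏ x ∈ univ.erase a, (if x ∈ S then mixc c (s x) (t x)
            else if s x = t x then 1 else 0) := by
        refine prod_congr rfl fun x hx => ?_
        have : x ∈ insert a S ↔ x ∈ S := by
          rw [mem_insert]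
          exact or_iff_right (ne_of_mem_erase hx)
        simp only [this]
      rw [h1, h2, if_neg ha, if_neg ha, if_pos (mem_insert_self a S)]
      have h3 : flp a s a = !(s a) := Function.update_self _ _ _
      rw [h3]
      unfold mixc
      cases s a <;> cases t a <;> simp
    · have h : Commute (pauliX a : Matrix (Conf n) (Conf n) ℂ) (∑ i ∈ S, pauliX i) :=
        Commute.sum_right _ _ _ fun i _ => pauliX_commute a i
      exact (h.smul_left c).smul_right c

theorem mixU_apply (b : ℝ) (s t : Conf n) : mixU n b s t = ∏ j, mix b (s j) (t j) := by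
  unfold mixU mixer
  rw [exp_sum_pauliX]
  refine prod_congr rfl fun j _ => ?_
  rw [if_pos (mem_univ j), mixc_eq]

end Vale.Agent.P367.Lim
end
end

section

section

namespace Vale.Agent.P367.Lim

open Finset ComplexConjugate MeasureTheory ProbabilityTheory Vale.Agent.P367.Gap

/-- characteristic function of a linear form in independent standard Gaussians -/
lemma gauss_char {ι : Type*} [Fintype ι] (c : ι → ℝ) :
    ∫ J : ι → ℝ, Complex.exp (-(Complex.I * ((∑ e, c e * J e : ℝ) : ℂ)))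
      ∂(Measure.pi fun _ => gaussianReal 0 1) = Complex.exp (-((1 / 2 * ∑ e, c e ^ 2 : ℝ) : ℂ)) := by
  have h1 : ∀ J : ι → ℝ, Complex.exp (-(Complex.I * ((∑ e, c e * J e : ℝ) : ℂ)))
      = ∏ e, Complex.exp (((-c e : ℝ) : ℂ) * (J e : ℂ) * Complex.I) := by
    intro J
    rw [← Complex.exp_sum]
    congr 1
    push_cast
    rw [mul_sum, ← sum_neg_distrib]
    refine sum_congr rfl fun e _ => ?_
    ring
  simp_rw [h1]
  rw [integral_fintype_prod_eq_prod (f := fun e (x : ℝ) =>
    Complex.exp (((-c e : ℝ) : ℂ) * (x : ℂ) * Complex.I))]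
  have h2 : ∀ e, ∫ x : ℝ, Complex.exp (((-c e : ℝ) : ℂ) * (x : ℂ) * Complex.I)
      ∂(gaussianReal 0 1) = Complex.exp (-((1 / 2 * c e ^ 2 : ℝ) : ℂ)) := by
    intro e
    rw [← charFun_apply_real, charFun_gaussianReal]
    congr 1
    push_cast
    ring
  simp_rw [h2]
  rw [← Complex.exp_sum]
  congr 1
  push_cast
  rw [mul_sum, ← sum_neg_distrib]

variable {V : Type} [Fintype V] [DecidableEq V]

/-- quadratic interaction of a family of contour paths -/
noncomputable def QI (γ : ℕ → ℝ) (p : ℕ) (ξ : V → V → ℝ) (X : V → CP p) : ℝ :=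
  ∑ i, ∑ j, if i = j then 0 else (qq γ p (X i) (X j) + ξ i j * (lst (X i) * lst (X j))) ^ 2

/-- averaged path functional -/
noncomputable def FF (γ β : ℕ → ℝ) (p : ℕ) (s : ℝ) (ξ : V → V → ℝ) (φ : V → CP p → ℂ) : ℂ :=
  ∑ X : V → CP p, (∏ j, wgt β p (X j) * φ j (X j)) *
    Complex.exp (-((s ^ 2 / 4 * QI γ p ξ X : ℝ) : ℂ))

/-- pair energy with ordered couplings -/
noncomputable def EJ (s : ℝ) (J : V × V → ℝ) (ξ : V → V → ℝ) (z : V → Bool) : ℝ :=
  ∑ e : V × V, (s / Real.sqrt 2) * (if e.1 = e.2 then 0 else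
    ξ e.1 e.2 * (spin (z e.1) * spin (z e.2))) * J e

/-- linear form coefficients -/
noncomputable def cf (γ : ℕ → ℝ) (p : ℕ) (s : ℝ) (ξ : V → V → ℝ) (X : V → CP p) (e : V × V) : ℝ :=
  (s / Real.sqrt 2) * (if e.1 = e.2 then 0 else
    (qq γ p (X e.1) (X e.2) + ξ e.1 e.2 * (lst (X e.1) * lst (X e.2))))

lemma half_sum_cf (γ : ℕ → ℝ) (p : ℕ) (s : ℝ) (ξ : V → V → ℝ) (X : V → CP p) :
    1 / 2 * ∑ e, cf γ p s ξ X e ^ 2 = s ^ 2 / 4 * QI γ p ξ X := by
  unfold cf QI
  rw [Fintype.sum_prod_type, mul_sum, mul_sum]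
  refine sum_congr rfl fun i _ => ?_
  rw [mul_sum, mul_sum]
  refine sum_congr rfl fun j _ => ?_
  simp only
  by_cases h : i = j
  · simp [h]
  · simp only [if_neg h]
    rw [mul_pow, div_pow, Real.sq_sqrt (by norm_num)]
    ring

lemma sum_cf_mul (γ : ℕ → ℝ) (p : ℕ) (s : ℝ) (ξ : V → V → ℝ) (X : V → CP p) (J : V × V → ℝ) :
    ∑ e, cf γ p s ξ X e * J e
      = ∑ k : Fin p, γ k * EJ s J (fun _ _ => 1) (fun j => (X j).1 k.castSucc)
        + EJ s J ξ (fun j => (X j).1 (Fin.last p))
        - ∑ k : Fin p, γ k * EJ s J (fun _ _ => 1) (fun j => (X j).2 k.castSucc) := by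
  unfold EJ cf
  simp_rw [mul_sum]
  rw [sum_comm, sum_comm (s := (univ : Finset (Fin p)))
    (f := fun k e => γ ↑k * (s / Real.sqrt 2 * (if e.1 = e.2 then 0 else
      1 * (spin ((X e.1).2 k.castSucc) * spin ((X e.2).2 k.castSucc))) * J e))]
  rw [← sum_add_distrib, ← sum_sub_distrib]
  refine sum_congr rfl fun e _ => ?_
  by_cases h : e.1 = e.2
  · simp only [h, ↓reduceIte, mul_zero, zero_mul, sum_const_zero, add_zero, sub_self]
  · simp only [if_neg h, lst, qq]
    rw [mul_add, add_mul, mul_sum, sum_mul, add_sub_right_comm, ← sum_sub_distrib]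
    congr 1
    · refine sum_congr rfl fun k _ => ?_
      ring

lemma norm_exp_neg_I (x : ℝ) : ‖Complex.exp (-(Complex.I * (x : ℂ)))‖ = 1 := by
  rw [show -(Complex.I * (x : ℂ)) = ((-x : ℝ) : ℂ) * Complex.I by push_cast; ring]
  exact Complex.norm_exp_ofReal_mul_I _

/-- for each coupling realisation the path sum is bounded by one -/
lemma norm_inner_le (γ β : ℕ → ℝ) (p : ℕ) (s : ℝ) (ξ : V → V → ℝ) (φ : V → CP p → ℂ)
    (U W : V → Fin (p + 1) → Bool → ℂ) (hU : ∀ j k b, ‖U j k b‖ ≤ 1) (hW : ∀ j k b, ‖W j k b‖ ≤ 1)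
    (hφ : ∀ j x, φ j x = (∏ k, U j k (x.1 k)) * ∏ k, W j k (x.2 k)) (J : V × V → ℝ) :
    ‖∑ X : V → CP p, (∏ j, wgt β p (X j) * φ j (X j)) *
      Complex.exp (-(Complex.I * ((∑ e, cf γ p s ξ X e * J e : ℝ) : ℂ)))‖ ≤ 1 := by
  classical
  let θ : ℕ → (V → Bool) → ℝ := fun k z =>
    if k < p then γ k * EJ s J (fun _ _ => 1) z else EJ s J ξ z
  let θ' : ℕ → (V → Bool) → ℝ := fun k z =>
    if k < p then γ k * EJ s J (fun _ _ => 1) z else 0
  let u : ℕ → (V → Bool) → ℂ := fun k z =>
    (if h : k < p + 1 then ∏ j, U j ⟨k, h⟩ (z j) else 1) * Complex.exp (-(Complex.I * (θ k z : ℂ)))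
  let v : ℕ → (V → Bool) → ℂ := fun k z =>
    (if h : k < p + 1 then ∏ j, conj (W j ⟨k, h⟩ (z j)) else 1)
      * Complex.exp (-(Complex.I * (θ' k z : ℂ)))
  have hu : ∀ k z, ‖u k z‖ ≤ 1 := by
    intro k z
    simp only [u, norm_mul, norm_exp_neg_I, mul_one]
    split_ifs
    · rw [norm_prod]
      exact prod_le_one (fun _ _ => norm_nonneg _) fun j _ => hU _ _ _
    · simp
  have hv : ∀ k z, ‖v k z‖ ≤ 1 := by
    intro k z
    simp only [v, norm_mul, norm_exp_neg_I, mul_one]
    split_ifs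
    · rw [norm_prod]
      refine prod_le_one (fun _ _ => norm_nonneg _) fun j _ => ?_
      rw [RCLike.norm_conj]
      exact hW _ _ _
    · simp
  have key := norm_sum_paths_le (V := V) β p u v hu hv
  convert key using 3 with X
  rw [prod_mul_distrib, mul_assoc]
  congr 1
  have e1 : ∏ k : Fin (p + 1), u k (fun j => (X j).1 k)
      = (∏ j, ∏ k, U j k ((X j).1 k)) * Complex.exp (-(Complex.I *
        ((∑ k : Fin p, γ k * EJ s J (fun _ _ => 1) (fun j => (X j).1 k.castSucc)
          + EJ s J ξ (fun j => (X j).1 (Fin.last p)) : ℝ) : ℂ))) := by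
    simp only [u]
    rw [prod_mul_distrib, ← Complex.exp_sum]
    congr 1
    · rw [prod_comm]
      refine prod_congr rfl fun k _ => ?_
      rw [dif_pos k.2]
    · congr 1
      rw [sum_neg_distrib, ← mul_sum]
      congr 2
      rw [← Complex.ofReal_sum]
      congr 1
      rw [Fin.sum_univ_castSucc]
      congr 1
      · refine sum_congr rfl fun k _ => ?_
        simp [θ]
      · simp [θ]
  have e2 : ∏ k : Fin (p + 1), conj (v k (fun j => (X j).2 k))
      = (∏ j, ∏ k, W j k ((X j).2 k)) * Complex.exp ((Complex.I *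
        ((∑ k : Fin p, γ k * EJ s J (fun _ _ => 1) (fun j => (X j).2 k.castSucc) : ℝ) : ℂ))) := by
    simp only [v, map_mul]
    rw [prod_mul_distrib]
    congr 1
    · rw [prod_comm]
      refine prod_congr rfl fun k _ => ?_
      rw [dif_pos k.2, map_prod]
      simp only [Fin.eta, RingHomCompTriple.comp_apply, RingHom.id_apply]
    · have : ∀ k : Fin (p + 1), conj (Complex.exp (-(Complex.I * (θ' k (fun j => (X j).2 k) : ℂ))))
          = Complex.exp (Complex.I * (θ' k (fun j => (X j).2 k) : ℂ)) := by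
        intro k
        rw [← Complex.exp_conj, map_neg, map_mul, Complex.conj_I, Complex.conj_ofReal]
        congr 1; ring
      simp_rw [this]
      rw [← Complex.exp_sum, ← mul_sum]
      congr 2
      rw [← Complex.ofReal_sum]
      congr 1
      rw [Fin.sum_univ_castSucc]
      simp only [Fin.val_castSucc, Fin.is_lt, ↓reduceIte, Fin.val_last, lt_self_iff_false, add_zero, θ']
  rw [e1, e2]
  have e3 : ∏ j, φ j (X j) = (∏ j, ∏ k, U j k ((X j).1 k)) * ∏ j, ∏ k, W j k ((X j).2 k) := by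
    rw [← prod_mul_distrib]
    exact prod_congr rfl fun j _ => hφ j (X j)
  rw [e3, sum_cf_mul]
  rw [mul_mul_mul_comm, ← Complex.exp_add]
  congr 2
  push_cast
  ring

lemma integrable_exp_lin {ι : Type*} [Fintype ι] (c : ι → ℝ) :
    Integrable (fun J : ι → ℝ => Complex.exp (-(Complex.I * ((∑ e, c e * J e : ℝ) : ℂ))))
      (Measure.pi fun _ => gaussianReal 0 1) := by
  refine (integrable_const (1 : ℝ)).mono' ?_ ?_
  · refine Continuous.aestronglyMeasurable ?_
    fun_prop
  · exact Filter.Eventually.of_forall fun J => (norm_exp_neg_I _).le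

/-- Gaussian representation of `FF` -/
lemma FF_eq_integral (γ β : ℕ → ℝ) (p : ℕ) (s : ℝ) (ξ : V → V → ℝ) (φ : V → CP p → ℂ) :
    FF γ β p s ξ φ = ∫ J : V × V → ℝ, (∑ X : V → CP p, (∏ j, wgt β p (X j) * φ j (X j)) *
      Complex.exp (-(Complex.I * ((∑ e, cf γ p s ξ X e * J e : ℝ) : ℂ))))
        ∂(Measure.pi fun _ => gaussianReal 0 1) := by
  rw [integral_finsetSum]
  · unfold FF
    refine sum_congr rfl fun X _ => ?_
    rw [integral_const_mul, gauss_char, half_sum_cf]
  · intro X _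
    exact (integrable_exp_lin _).const_mul _

/-- unitarity bound for product-form one-site factors -/
theorem norm_FF_le (γ β : ℕ → ℝ) (p : ℕ) (s : ℝ) (ξ : V → V → ℝ) (φ : V → CP p → ℂ)
    (U W : V → Fin (p + 1) → Bool → ℂ) (hU : ∀ j k b, ‖U j k b‖ ≤ 1) (hW : ∀ j k b, ‖W j k b‖ ≤ 1)
    (hφ : ∀ j x, φ j x = (∏ k, U j k (x.1 k)) * ∏ k, W j k (x.2 k)) :
    ‖FF γ β p s ξ φ‖ ≤ 1 := by
  rw [FF_eq_integral]
  have := norm_integral_le_of_norm_le_const (μ := Measure.pi fun _ : V × V => gaussianReal 0 1)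
    (Filter.Eventually.of_forall fun J => norm_inner_le γ β p s ξ φ U W hU hW hφ J)
  simpa only [Complex.ofReal_sum, Complex.ofReal_mul, ge_iff_le, probReal_univ, mul_one] using this

end Vale.Agent.P367.Lim
end
end

section

section

namespace Vale.Agent.P367.Lim

open Finset ComplexConjugate MeasureTheory ProbabilityTheory Vale.Agent.P367.Gap

variable {V : Type} [Fintype V] [DecidableEq V] {V' : Type} [Fintype V'] [DecidableEq V']

lemma FF_equiv (γ β : ℕ → ℝ) (p : ℕ) (s : ℝ) (e : V ≃ V') (ξ : V' → V' → ℝ)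
    (φ : V' → CP p → ℂ) :
    FF γ β p s ξ φ = FF γ β p s (fun i j => ξ (e i) (e j)) (fun j => φ (e j)) := by
  unfold FF
  rw [← (Equiv.arrowCongr e (Equiv.refl (CP p))).sum_comp]
  refine sum_congr rfl fun X _ => ?_
  have h0 : ∀ i, (Equiv.arrowCongr e (Equiv.refl (CP p))) X (e i) = X i := by
    intro i; simp [Equiv.arrowCongr]
  congr 1
  · rw [← e.prod_comp]
    refine prod_congr rfl fun i _ => ?_
    rw [h0]
  · congr 4
    unfold QI
    rw [← e.sum_comp]
    refine sum_congr rfl fun i _ => ?_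
    rw [← e.sum_comp]
    refine sum_congr rfl fun j _ => ?_
    rw [h0, h0]
    simp only [EmbeddingLike.apply_eq_iff_eq]

lemma qq_comm (γ : ℕ → ℝ) (p : ℕ) (x y : CP p) : qq γ p x y = qq γ p y x := by
  unfold qq
  refine sum_congr rfl fun k _ => ?_
  ring

/-- split-off of a group of sites -/
lemma FF_sum (γ β : ℕ → ℝ) (p : ℕ) (s : ℝ) (ξ : V ⊕ V' → V ⊕ V' → ℝ)
    (hξ : ∀ i j, ξ (Sum.inl i) (Sum.inr j) = ξ (Sum.inr j) (Sum.inl i))
    (φ : V ⊕ V' → CP p → ℂ) :
    FF γ β p s ξ φ = ∑ X : V → CP p, (∏ i, wgt β p (X i) * φ (Sum.inl i) (X i)) *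
      (Complex.exp (-((s ^ 2 / 4 * QI γ p (fun i j => ξ (Sum.inl i) (Sum.inl j)) X : ℝ) : ℂ)) *
      FF γ β p s (fun i j => ξ (Sum.inr i) (Sum.inr j)) (fun j y => φ (Sum.inr j) y *
        Complex.exp (-((s ^ 2 / 2 * ∑ i, (qq γ p (X i) y
          + ξ (Sum.inl i) (Sum.inr j) * (lst (X i) * lst y)) ^ 2 : ℝ) : ℂ)))) := by
  unfold FF
  rw [← (Equiv.sumArrowEquivProdArrow V V' (CP p)).symm.sum_comp, Fintype.sum_prod_type]
  refine sum_congr rfl fun X _ => ?_
  rw [mul_sum, mul_sum]
  refine sum_congr rfl fun Y _ => ?_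
  have hl : ∀ i, (Equiv.sumArrowEquivProdArrow V V' (CP p)).symm (X, Y) (Sum.inl i) = X i :=
    fun i => rfl
  have hr : ∀ j, (Equiv.sumArrowEquivProdArrow V V' (CP p)).symm (X, Y) (Sum.inr j) = Y j :=
    fun j => rfl
  rw [Fintype.prod_sum_type]
  simp_rw [hl, hr]
  have hq : QI γ p ξ ((Equiv.sumArrowEquivProdArrow V V' (CP p)).symm (X, Y))
      = QI γ p (fun i j => ξ (Sum.inl i) (Sum.inl j)) X
        + QI γ p (fun i j => ξ (Sum.inr i) (Sum.inr j)) Y
        + 2 * ∑ j, ∑ i, (qq γ p (X i) (Y j)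
          + ξ (Sum.inl i) (Sum.inr j) * (lst (X i) * lst (Y j))) ^ 2 := by
    unfold QI
    simp only [Fintype.sum_sum_type, hl, hr, Sum.inl.injEq, Sum.inr.injEq, reduceCtorEq, if_false,
      sum_add_distrib]
    have h1 : ∑ x : V', ∑ x_1 : V, (qq γ p (Y x) (X x_1)
          + ξ (Sum.inr x) (Sum.inl x_1) * (lst (Y x) * lst (X x_1))) ^ 2
        = ∑ j, ∑ i, (qq γ p (X i) (Y j)
          + ξ (Sum.inl i) (Sum.inr j) * (lst (X i) * lst (Y j))) ^ 2 := by
      refine sum_congr rfl fun j _ => sum_congr rfl fun i _ => ?_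
      rw [qq_comm, hξ, mul_comm (lst (Y j))]
    have h2 : ∑ x : V, ∑ x_1 : V', (qq γ p (X x) (Y x_1)
          + ξ (Sum.inl x) (Sum.inr x_1) * (lst (X x) * lst (Y x_1))) ^ 2
        = ∑ j, ∑ i, (qq γ p (X i) (Y j)
          + ξ (Sum.inl i) (Sum.inr j) * (lst (X i) * lst (Y j))) ^ 2 := by
      rw [sum_comm]
    rw [h1, h2]
    ring
  have hp : ∏ j, wgt β p (Y j) * (φ (Sum.inr j) (Y j) *
        Complex.exp (-((s ^ 2 / 2 * ∑ i, (qq γ p (X i) (Y j)
          + ξ (Sum.inl i) (Sum.inr j) * (lst (X i) * lst (Y j))) ^ 2 : ℝ) : ℂ)))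
      = (∏ j, wgt β p (Y j) * φ (Sum.inr j) (Y j)) *
        Complex.exp (-((s ^ 2 / 2 * ∑ j, ∑ i, (qq γ p (X i) (Y j)
          + ξ (Sum.inl i) (Sum.inr j) * (lst (X i) * lst (Y j))) ^ 2 : ℝ) : ℂ)) := by
    have : ∀ j, wgt β p (Y j) * (φ (Sum.inr j) (Y j) *
        Complex.exp (-((s ^ 2 / 2 * ∑ i, (qq γ p (X i) (Y j)
          + ξ (Sum.inl i) (Sum.inr j) * (lst (X i) * lst (Y j))) ^ 2 : ℝ) : ℂ)))
        = (wgt β p (Y j) * φ (Sum.inr j) (Y j)) *
        Complex.exp (-((s ^ 2 / 2 * ∑ i, (qq γ p (X i) (Y j)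
          + ξ (Sum.inl i) (Sum.inr j) * (lst (X i) * lst (Y j))) ^ 2 : ℝ) : ℂ)) := fun j => by ring
    simp_rw [this]
    rw [prod_mul_distrib, ← Complex.exp_sum]
    congr 2
    rw [sum_neg_distrib, ← Complex.ofReal_sum, mul_sum]
  rw [hp, hq]
  have he : Complex.exp (-((s ^ 2 / 4 * (QI γ p (fun i j => ξ (Sum.inl i) (Sum.inl j)) X
        + QI γ p (fun i j => ξ (Sum.inr i) (Sum.inr j)) Y
        + 2 * ∑ j, ∑ i, (qq γ p (X i) (Y j)
          + ξ (Sum.inl i) (Sum.inr j) * (lst (X i) * lst (Y j))) ^ 2) : ℝ) : ℂ))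
      = Complex.exp (-((s ^ 2 / 4 * QI γ p (fun i j => ξ (Sum.inl i) (Sum.inl j)) X : ℝ) : ℂ)) *
        Complex.exp (-((s ^ 2 / 4 * QI γ p (fun i j => ξ (Sum.inr i) (Sum.inr j)) Y : ℝ) : ℂ)) *
        Complex.exp (-((s ^ 2 / 2 * ∑ j, ∑ i, (qq γ p (X i) (Y j)
          + ξ (Sum.inl i) (Sum.inr j) * (lst (X i) * lst (Y j))) ^ 2 : ℝ) : ℂ)) := by
    rw [← Complex.exp_add, ← Complex.exp_add]
    congr 1
    push_cast
    ring
  rw [he]
  ring

/-- closed-path restriction: `qh = qq` when both paths are closed -/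
lemma qh_eq_of_closed (γ : ℕ → ℝ) (p : ℕ) (x y : CP p)
    (hx : x.1 (Fin.last p) = x.2 (Fin.last p)) (hy : y.1 (Fin.last p) = y.2 (Fin.last p)) :
    qh γ p x y = qq γ p x y := by
  rw [qh_eq, hx, hy]
  ring

lemma sum_last (β : ℕ → ℝ) (p : ℕ) (x : CP p) :
    ∑ c : Bool × Bool, wgt β (p + 1)
      ((Fin.snoc (α := fun _ => Bool) x.1 c.1, Fin.snoc (α := fun _ => Bool) x.2 c.2) : CP (p + 1))
      = wgt β p x := by
  have h1 : ∀ c : Bool × Bool, wgt β (p + 1)
      ((Fin.snoc (α := fun _ => Bool) x.1 c.1, Fin.snoc (α := fun _ => Bool) x.2 c.2) : CP (p + 1))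
      = (mix (β p) c.1 (x.1 (Fin.last p)) * conj (mix (β p) c.2 (x.2 (Fin.last p)))
        * (if c.1 = c.2 then 1 else 0)) * (kap β p x.1 * conj (kap β p x.2)) := by
    intro c
    simp only [wgt, kap, Fin.snoc_last, Fin.snoc_castSucc, Fin.init_snoc, map_mul]
    ring
  simp_rw [h1]
  rw [← sum_mul, Fintype.sum_prod_type]
  have h2 : ∀ c : Bool, ∑ d : Bool, (mix (β p) c (x.1 (Fin.last p))
      * conj (mix (β p) d (x.2 (Fin.last p))) * (if c = d then (1 : ℂ) else 0))
      = mix (β p) c (x.1 (Fin.last p)) * conj (mix (β p) c (x.2 (Fin.last p))) := by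
    intro c
    rw [sum_eq_single c]
    · simp
    · intro d _ hd; simp [Ne.symm hd]
    · intro h; exact absurd (mem_univ c) h
  simp only [h2, mix_unitary]
  unfold wgt
  ring

/-- split off the last time of contour paths -/
def splitC (V : Type) (p : ℕ) : (V → CP (p + 1)) ≃ (V → CP p) × (V → Bool × Bool) where
  toFun X := (fun j => ini (X j), fun j => ((X j).1 (Fin.last (p + 1)), (X j).2 (Fin.last (p + 1))))
  invFun B := fun j => (Fin.snoc (α := fun _ => Bool) (B.1 j).1 (B.2 j).1,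
    Fin.snoc (α := fun _ => Bool) (B.1 j).2 (B.2 j).2)
  left_inv X := by
    funext j
    refine Prod.ext ?_ ?_
    · exact Fin.snoc_init_self (X j).1
    · exact Fin.snoc_init_self (X j).2
  right_inv B := by
    refine Prod.ext ?_ ?_
    · funext j
      simp only [ini, Fin.init_snoc]
    · funext j
      simp only [Fin.snoc_last]

/-- causality -/
theorem FF_succ (γ β : ℕ → ℝ) (p : ℕ) (s : ℝ) (φ : V → CP p → ℂ) :
    FF γ β (p + 1) s (fun _ _ => 0) (fun j x => φ j (ini x)) = FF γ β p s (fun _ _ => 0) φ := by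
  unfold FF
  rw [← (splitC V p).symm.sum_comp, Fintype.sum_prod_type]
  refine sum_congr rfl fun X _ => ?_
  have hini : ∀ c j, ini ((splitC V p).symm (X, c) j) = X j := by
    intro c j
    simp only [splitC, Equiv.coe_fn_symm_mk, ini, Fin.init_snoc]
  have hQ : ∀ c, QI γ (p + 1) (fun _ _ => 0) ((splitC V p).symm (X, c))
      = ∑ i, ∑ j, if i = j then 0 else (qh γ p (X i) (X j)) ^ 2 := by
    intro c
    unfold QI
    refine sum_congr rfl fun i _ => sum_congr rfl fun j _ => ?_
    rw [qq_succ, hini, hini]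
    simp
  simp_rw [hQ, hini]
  rw [← sum_mul]
  have h3 : ∑ c : V → Bool × Bool, ∏ j, wgt β (p + 1) ((splitC V p).symm (X, c) j) * φ j (X j)
      = ∏ j, wgt β p (X j) * φ j (X j) := by
    simp_rw [prod_mul_distrib]
    rw [← sum_mul]
    congr 1
    have h4 := (Finset.prod_univ_sum (fun _ : V => (univ : Finset (Bool × Bool)))
      (fun j c => wgt β (p + 1) ((Fin.snoc (α := fun _ => Bool) (X j).1 c.1,
        Fin.snoc (α := fun _ => Bool) (X j).2 c.2) : CP (p + 1))))
    rw [Fintype.piFinset_univ] at h4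
    have h5 : ∀ c : V → Bool × Bool, ∀ j, (splitC V p).symm (X, c) j
        = ((Fin.snoc (α := fun _ => Bool) (X j).1 (c j).1,
          Fin.snoc (α := fun _ => Bool) (X j).2 (c j).2) : CP (p + 1)) := fun c j => rfl
    simp_rw [h5]
    rw [← h4]
    refine prod_congr rfl fun j _ => ?_
    exact sum_last β p (X j)
  rw [h3]
  by_cases hcl : ∀ j, (X j).1 (Fin.last p) = (X j).2 (Fin.last p)
  · congr 5
    unfold QI
    refine sum_congr rfl fun i _ => sum_congr rfl fun j _ => ?_
    rw [qh_eq_of_closed γ p _ _ (hcl i) (hcl j)]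
    simp
  · push Not at hcl
    obtain ⟨j, hj⟩ := hcl
    have h0 : ∏ j, wgt β p (X j) * φ j (X j) = 0 := by
      refine prod_eq_zero (mem_univ j) ?_
      unfold wgt
      rw [if_neg hj]
      ring
    rw [h0]
    ring

end Vale.Agent.P367.Lim
end
end

section

section

namespace Vale.Agent.P367.Lim

open Finset ComplexConjugate MeasureTheory ProbabilityTheory Filter Topology Vale.Agent.P367.Gap

/-- marginal of `m` sites in a system of `m + N` sites -/
noncomputable def Mg (γ β : ℕ → ℝ) (p m N : ℕ) (s : ℝ) (y : Fin m → CP p) : ℂ :=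
  FF (V := Fin m ⊕ Fin N) γ β p s (fun _ _ => 0)
    (Sum.elim (fun i x => if x = y i then 1 else 0) (fun _ _ => 1))

lemma indicator_prod {p : ℕ} (x y : CP p) : (if x = y then (1 : ℂ) else 0)
    = (∏ k, if x.1 k = y.1 k then (1 : ℂ) else 0) * ∏ k, if x.2 k = y.2 k then (1 : ℂ) else 0 := by
  by_cases h : x = y
  · subst h; simp
  · rw [if_neg h]
    symm
    by_cases h1 : x.1 = y.1
    · have h2 : x.2 ≠ y.2 := fun h2 => h (Prod.ext h1 h2)
      obtain ⟨k, hk⟩ := Function.ne_iff.1 h2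
      rw [prod_eq_zero (s := univ) (f := fun k => if x.2 k = y.2 k then (1 : ℂ) else 0)
        (mem_univ k) (if_neg hk), mul_zero]
    · obtain ⟨k, hk⟩ := Function.ne_iff.1 h1
      rw [prod_eq_zero (s := univ) (f := fun k => if x.1 k = y.1 k then (1 : ℂ) else 0)
        (mem_univ k) (if_neg hk), zero_mul]

lemma norm_Mg_le (γ β : ℕ → ℝ) (p m N : ℕ) (s : ℝ) (y : Fin m → CP p) :
    ‖Mg γ β p m N s y‖ ≤ 1 := by
  refine norm_FF_le γ β p s _ _
    (Sum.elim (fun i k b => if b = (y i).1 k then 1 else 0) (fun _ _ _ => 1))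
    (Sum.elim (fun i k b => if b = (y i).2 k then 1 else 0) (fun _ _ _ => 1)) ?_ ?_ ?_
  · rintro (i | j) k b
    · simp only [Sum.elim_inl]; split_ifs <;> simp
    · simp
  · rintro (i | j) k b
    · simp only [Sum.elim_inl]; split_ifs <;> simp
    · simp
  · rintro (i | j) x
    · simp only [Sum.elim_inl]
      exact indicator_prod x (y i)
    · simp

lemma FF_inl (γ β : ℕ → ℝ) (p r N : ℕ) (s : ℝ) (u : CP p → ℂ) :
    FF (V := Fin r ⊕ Fin N) γ β p s (fun _ _ => 0) (Sum.elim (fun _ => u) (fun _ _ => 1))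
      = ∑ y : Fin r → CP p, (∏ i, u (y i)) * Mg γ β p r N s y := by
  unfold Mg FF
  simp_rw [mul_sum]
  rw [sum_comm]
  refine sum_congr rfl fun X _ => ?_
  simp_rw [Fintype.prod_sum_type, Sum.elim_inl, Sum.elim_inr, prod_mul_distrib]
  have h1 : ∑ y : Fin r → CP p, (∏ i, u (y i)) * (∏ i, if X (Sum.inl i) = y i then (1 : ℂ) else 0)
      = ∏ i, u (X (Sum.inl i)) := by
    rw [sum_eq_single (fun i => X (Sum.inl i))]
    · simp only [↓reduceIte, prod_const_one, mul_one]
    · intro y _ hy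
      obtain ⟨i, hi⟩ := Function.ne_iff.1 hy
      rw [prod_eq_zero (s := univ) (f := fun i => if X (Sum.inl i) = y i then (1 : ℂ) else 0)
        (mem_univ i) (if_neg (fun h => hi h.symm)), mul_zero]
    · intro h; exact absurd (mem_univ _) h
  rw [← h1, mul_sum, sum_mul, sum_mul]
  refine sum_congr rfl fun y _ => ?_
  ring

lemma FF_powerset (γ β : ℕ → ℝ) (p N : ℕ) (s : ℝ) (u : CP p → ℂ) :
    FF (V := Fin N) γ β p s (fun _ _ => 0) (fun _ x => 1 + u x)
      = ∑ T ∈ (univ : Finset (Fin N)).powerset,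
        FF (V := Fin N) γ β p s (fun _ _ => 0) (fun j x => if j ∈ T then u x else 1) := by
  unfold FF
  rw [sum_comm]
  refine sum_congr rfl fun X _ => ?_
  rw [prod_mul_distrib, prod_one_add, mul_sum, sum_mul]
  refine sum_congr rfl fun T _ => ?_
  rw [prod_mul_distrib, prod_ite_mem, univ_inter]

lemma FF_subset (γ β : ℕ → ℝ) (p N : ℕ) (s : ℝ) (u : CP p → ℂ) (T : Finset (Fin N)) :
    FF (V := Fin N) γ β p s (fun _ _ => 0) (fun j x => if j ∈ T then u x else 1)
      = FF (V := Fin T.card ⊕ Fin (N - T.card)) γ β p s (fun _ _ => 0)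
        (Sum.elim (fun _ => u) (fun _ _ => 1)) := by
  have hn : Tᶜ.card = N - T.card := by
    rw [card_compl, Fintype.card_fin]
  rw [FF_equiv γ β p s (finSumEquivOfFinset (rfl : T.card = T.card) hn)]
  congr 1
  funext j
  rcases j with i | j
  · funext x
    rw [finSumEquivOfFinset_inl, if_pos (orderEmbOfFin_mem T rfl i)]
    rfl
  · funext x
    have := orderEmbOfFin_mem Tᶜ hn j
    rw [finSumEquivOfFinset_inr, if_neg (mem_compl.1 this)]
    rfl

lemma FF_one_add (γ β : ℕ → ℝ) (p N : ℕ) (s : ℝ) (u : CP p → ℂ) :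
    FF (V := Fin N) γ β p s (fun _ _ => 0) (fun _ x => 1 + u x)
      = ∑ r ∈ range (N + 1), (N.choose r : ℂ) *
        ∑ y : Fin r → CP p, (∏ i, u (y i)) * Mg γ β p r (N - r) s y := by
  rw [FF_powerset]
  simp_rw [FF_subset, FF_inl]
  have := sum_powerset_apply_card (fun r => ∑ y : Fin r → CP p, (∏ i, u (y i))
    * Mg γ β p r (N - r) s y) (x := (univ : Finset (Fin N)))
  rw [this, card_univ, Fintype.card_fin]
  refine sum_congr rfl fun r _ => ?_
  rw [nsmul_eq_mul]

/-- limiting one-site weights -/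
noncomputable def gg (γ β : ℕ → ℝ) : (p : ℕ) → CP p → ℂ
  | 0, x => wgt β 0 x
  | p + 1, x => wgt β (p + 1) x *
      Complex.exp (-(1 / 2 * ∑ y : CP p, gg γ β p y * ((qh γ p (ini x) y ^ 2 : ℝ) : ℂ)))

/-- convergence of all marginals -/
def LT (γ β : ℕ → ℝ) (p : ℕ) : Prop :=
  ∀ (m : ℕ) (y : Fin m → CP p) (s : ℕ → ℝ), Tendsto (fun N : ℕ => (N : ℝ) * s N ^ 2) atTop (𝓝 1) →
    Tendsto (fun N => Mg γ β p m N (s N) y) atTop (𝓝 (∏ i, gg γ β p (y i)))

lemma tendsto_shift_s (s : ℕ → ℝ) (hs : Tendsto (fun N : ℕ => (N : ℝ) * s N ^ 2) atTop (𝓝 1))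
    (r : ℕ) : Tendsto (fun N : ℕ => (N : ℝ) * s (N + r) ^ 2) atTop (𝓝 1) := by
  have h1 : Tendsto (fun N : ℕ => ((N + r : ℕ) : ℝ) * s (N + r) ^ 2) atTop (𝓝 1) :=
    hs.comp (tendsto_add_atTop_nat r)
  have h2 : Tendsto (fun N : ℕ => (N : ℝ) / ((N + r : ℕ) : ℝ)) atTop (𝓝 1) := by
    have := tendsto_natCast_div_add_atTop (𝕜 := ℝ) (r : ℝ)
    refine this.congr fun N => ?_
    push_cast; rfl
  have h3 := h2.mul h1
  rw [one_mul] at h3
  refine (h3.congr' ?_)
  filter_upwards [eventually_gt_atTop 0] with N hN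
  have : ((N + r : ℕ) : ℝ) ≠ 0 := by positivity
  field_simp

lemma tendsto_Mg_sub (γ β : ℕ → ℝ) (p : ℕ) (h : LT γ β p) (r : ℕ) (y : Fin r → CP p) (s : ℕ → ℝ)
    (hs : Tendsto (fun N : ℕ => (N : ℝ) * s N ^ 2) atTop (𝓝 1)) :
    Tendsto (fun N => Mg γ β p r (N - r) (s N) y) atTop (𝓝 (∏ i, gg γ β p (y i))) := by
  have h1 := h r y (fun N => s (N + r)) (tendsto_shift_s s hs r)
  have h2 : Tendsto (fun N : ℕ => N - r) atTop atTop := tendsto_sub_atTop_nat r
  refine (h1.comp h2).congr' ?_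
  filter_upwards [eventually_ge_atTop r] with N hN
  simp only [Function.comp]
  rw [Nat.sub_add_cancel hN]

/-- exponential functionals converge -/
theorem tendsto_FF_exp (γ β : ℕ → ℝ) (p : ℕ) (h : LT γ β p) (s : ℕ → ℝ)
    (hs : Tendsto (fun N : ℕ => (N : ℝ) * s N ^ 2) atTop (𝓝 1))
    (u : ℕ → CP p → ℂ) (t : CP p → ℂ)
    (hu : ∀ y, Tendsto (fun N : ℕ => (N : ℂ) * u N y) atTop (𝓝 (t y))) :
    Tendsto (fun N => FF (V := Fin N) γ β p (s N) (fun _ _ => 0) (fun _ x => 1 + u N x)) atTop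
      (𝓝 (Complex.exp (∑ y, gg γ β p y * t y))) := by
  -- termwise description
  let a : ℕ → ℕ → ℂ := fun N r => (N.choose r : ℂ) *
        ∑ y : Fin r → CP p, (∏ i, u N (y i)) * Mg γ β p r (N - r) (s N) y
  have ha : ∀ N, FF (V := Fin N) γ β p (s N) (fun _ _ => 0) (fun _ x => 1 + u N x)
      = ∑' r, a N r := by
    intro N
    rw [FF_one_add, tsum_eq_sum (s := range (N + 1))]
    intro r hr
    have : N < r := by
      by_contra h'
      exact hr (mem_range.2 (by omega))
    simp only [a, Nat.choose_eq_zero_of_lt this, Nat.cast_zero, zero_mul]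
  simp_rw [ha]
  let A : ℂ := ∑ y, gg γ β p y * t y
  have hexp : Complex.exp A = ∑' r : ℕ, A ^ r / (r.factorial : ℂ) := by
    rw [Complex.exp_eq_exp_ℂ, NormedSpace.exp_eq_tsum_div]
  change Tendsto (fun N => ∑' r, a N r) atTop (𝓝 (Complex.exp A))
  rw [hexp]
  -- uniform bound
  obtain ⟨C, hC0, hC⟩ : ∃ C : ℝ, 0 ≤ C ∧ ∀ᶠ N : ℕ in atTop, ∀ y, ‖(N : ℂ) * u N y‖ ≤ C := by
    refine ⟨∑ y, (‖t y‖ + 1), sum_nonneg fun _ _ => by positivity, ?_⟩
    rw [eventually_all]
    intro y
    have h1 : ∀ᶠ N : ℕ in atTop, ‖(N : ℂ) * u N y‖ < ‖t y‖ + 1 :=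
      (hu y).norm.eventually_lt_const (by linarith only [])
    filter_upwards [h1] with N hN
    refine hN.le.trans ?_
    exact single_le_sum (f := fun y => ‖t y‖ + 1) (fun _ _ => by (clear * -; positivity)) (mem_univ y)
  refine tendsto_tsum_of_dominated_convergence
    (bound := fun r : ℕ => (C * Fintype.card (CP p)) ^ r / r.factorial)
    (Real.summable_pow_div_factorial _) ?_ ?_
  · intro r
    have h1 : Tendsto (fun N : ℕ => (N.choose r : ℂ) * ((1 : ℂ) / N) ^ r) atTop
        (𝓝 (1 / (r.factorial : ℂ))) := by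
      have h2 : Tendsto (fun n : ℕ => (n : ℝ) * (1 / n)) atTop (𝓝 1) := by
        refine tendsto_const_nhds.congr' ?_
        filter_upwards [eventually_gt_atTop 0] with n hn
        have : (n : ℝ) ≠ 0 := by positivity
        field_simp
      have h3 := tendsto_choose_mul_pow_atTop (k := r) h2
      rw [one_pow] at h3
      have h4 := (Complex.continuous_ofReal.tendsto _).comp h3
      refine (h4.congr fun n => ?_).trans (le_of_eq ?_)
      · simp only [one_div, inv_pow, Function.comp_apply, Complex.ofReal_mul, Complex.ofReal_natCast, Complex.ofReal_inv, Complex.ofReal_pow]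
      · simp only [one_div, Complex.ofReal_inv, Complex.ofReal_natCast]
    have h5 : ∀ y : Fin r → CP p, Tendsto (fun N : ℕ => (∏ i, ((N : ℂ) * u N (y i)))
        * Mg γ β p r (N - r) (s N) y) atTop
        (𝓝 ((∏ i, t (y i)) * ∏ i, gg γ β p (y i))) := fun y =>
      (tendsto_finsetProd _ fun i _ => hu (y i)).mul (tendsto_Mg_sub γ β p h r y s hs)
    have h6 := h1.mul (tendsto_finsetSum univ fun y _ => h5 y)
    have h7 : 1 / (r.factorial : ℂ) * ∑ y : Fin r → CP p, (∏ i, t (y i)) * ∏ i, gg γ β p (y i)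
        = A ^ r / (r.factorial : ℂ) := by
      have : A ^ r = ∑ y : Fin r → CP p, (∏ i, t (y i)) * ∏ i, gg γ β p (y i) := by
        have h8 := (Finset.prod_univ_sum (fun _ : Fin r => (univ : Finset (CP p)))
          (fun _ y => gg γ β p y * t y))
        rw [Fintype.piFinset_univ, prod_const, card_univ, Fintype.card_fin] at h8
        rw [h8]
        refine sum_congr rfl fun y _ => ?_
        rw [prod_mul_distrib, mul_comm]
      rw [this]
      ring
    rw [h7] at h6
    refine h6.congr' ?_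
    filter_upwards [eventually_gt_atTop 0] with N hN
    have hN' : (N : ℂ) ≠ 0 := by exact_mod_cast hN.ne'
    simp only [a, mul_sum]
    refine sum_congr rfl fun y _ => ?_
    rw [prod_mul_distrib, prod_const, card_univ, Fintype.card_fin, one_div, inv_pow]
    field_simp
  · filter_upwards [hC, eventually_gt_atTop 0] with N hN hN0 r
    have hN' : (0 : ℝ) < N := by exact_mod_cast hN0
    have hub : ∀ y, ‖u N y‖ ≤ C / N := by
      intro y
      rw [le_div_iff₀ hN', mul_comm]
      simpa only [Complex.norm_mul, RCLike.norm_natCast] using hN y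
    simp only [a, norm_mul, Complex.norm_natCast]
    have h1 : ‖∑ y : Fin r → CP p, (∏ i, u N (y i)) * Mg γ β p r (N - r) (s N) y‖
        ≤ (Fintype.card (CP p) : ℝ) ^ r * (C / N) ^ r := by
      refine (norm_sum_le _ _).trans ?_
      calc ∑ y : Fin r → CP p, ‖(∏ i, u N (y i)) * Mg γ β p r (N - r) (s N) y‖
          ≤ ∑ _y : Fin r → CP p, (C / N) ^ r := by
            refine sum_le_sum fun y _ => ?_
            rw [norm_mul, norm_prod]
            have h2 : ∏ i, ‖u N (y i)‖ ≤ (C / N) ^ r := by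
              calc ∏ i, ‖u N (y i)‖ ≤ ∏ _i : Fin r, (C / N) :=
                    prod_le_prod (fun _ _ => norm_nonneg _) fun i _ => hub (y i)
                _ = (C / N) ^ r := by rw [prod_const, card_univ, Fintype.card_fin]
            calc (∏ i, ‖u N (y i)‖) * ‖Mg γ β p r (N - r) (s N) y‖
                ≤ (C / N) ^ r * 1 := by
                  gcongr
                  exact norm_Mg_le _ _ _ _ _ _ _
              _ = _ := mul_one _
        _ = _ := by
            rw [sum_const, card_univ, Fintype.card_fun, Fintype.card_fin, nsmul_eq_mul]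
            push_cast
            rfl
    have h3 : (N.choose r : ℝ) ≤ (N : ℝ) ^ r / r.factorial := Nat.choose_le_pow_div r N
    calc (N.choose r : ℝ) * ‖∑ y : Fin r → CP p, (∏ i, u N (y i)) * Mg γ β p r (N - r) (s N) y‖
        ≤ ((N : ℝ) ^ r / r.factorial) * ((Fintype.card (CP p) : ℝ) ^ r * (C / N) ^ r) := by
          (clear * - h3 h1 hN0; gcongr)
      _ = (C * Fintype.card (CP p)) ^ r / r.factorial := by
          rw [mul_pow, div_pow]
          (clear * - hN0; field_simp)

end Vale.Agent.P367.Lim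
end
end

section

section

namespace Vale.Agent.P367.Lim

open Finset ComplexConjugate MeasureTheory ProbabilityTheory Filter Topology Vale.Agent.P367.Gap

lemma tendsto_nat_mul_exp_sub_one (c : ℕ → ℂ) (c0 : ℂ)
    (hc : Tendsto (fun N : ℕ => (N : ℂ) * c N) atTop (𝓝 c0)) :
    Tendsto (fun N : ℕ => (N : ℂ) * (Complex.exp (c N) - 1)) atTop (𝓝 c0) := by
  have hinv : Tendsto (fun N : ℕ => ((N : ℂ))⁻¹) atTop (𝓝 0) := by
    have := tendsto_inv_atTop_nhds_zero_nat (𝕜 := ℂ)
    exact this
  have hc1 : Tendsto c atTop (𝓝 0) := by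
    have := hinv.mul hc
    rw [zero_mul] at this
    refine this.congr' ?_
    filter_upwards [eventually_gt_atTop 0] with N hN
    have : (N : ℂ) ≠ 0 := by exact_mod_cast hN.ne'
    field_simp
  have hrem : Tendsto (fun N : ℕ => (N : ℂ) * (Complex.exp (c N) - 1 - c N)) atTop (𝓝 0) := by
    rw [tendsto_zero_iff_norm_tendsto_zero]
    have hb : Tendsto (fun N : ℕ => ‖(N : ℂ) * c N‖ * ‖c N‖) atTop (𝓝 0) := by
      have := hc.norm.mul hc1.norm
      simpa only [Complex.norm_mul, RCLike.norm_natCast, norm_zero, mul_zero] using this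
    refine squeeze_zero' (Eventually.of_forall fun _ => norm_nonneg _) ?_ hb
    have h1 : ∀ᶠ N in atTop, ‖c N‖ < 1 := by
      have := hc1.norm
      rw [norm_zero] at this
      exact this.eventually_lt_const one_pos
    filter_upwards [h1] with N hN
    rw [norm_mul, norm_mul, mul_assoc]
    have := Complex.norm_exp_sub_one_sub_id_le hN.le
    rw [pow_two] at this
    (clear * - this; gcongr)
  have := hrem.add hc
  rw [zero_add] at this
  refine this.congr fun N => ?_
  ring

/-- convergence of exponential functionals -/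
theorem tendsto_FF_T (γ β : ℕ → ℝ) (p : ℕ) (h : LT γ β p) (s : ℕ → ℝ)
    (hs : Tendsto (fun N : ℕ => (N : ℝ) * s N ^ 2) atTop (𝓝 1)) (T : CP p → ℝ) :
    Tendsto (fun N => FF (V := Fin N) γ β p (s N) (fun _ _ => 0)
      (fun _ x => Complex.exp (-((s N ^ 2 / 2 * T x : ℝ) : ℂ)))) atTop
      (𝓝 (Complex.exp (-(1 / 2 * ∑ y, gg γ β p y * ((T y : ℝ) : ℂ))))) := by
  have h1 := tendsto_FF_exp γ β p h s hs
    (fun N x => Complex.exp (-((s N ^ 2 / 2 * T x : ℝ) : ℂ)) - 1)
    (fun x => -(1 / 2 * ((T x : ℝ) : ℂ))) (by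
      intro y
      refine tendsto_nat_mul_exp_sub_one _ _ ?_
      have h2 : Tendsto (fun N : ℕ => -((((N : ℝ) * s N ^ 2) * (1 / 2 * T y) : ℝ) : ℂ)) atTop
          (𝓝 (-(((1 : ℝ) * (1 / 2 * T y) : ℝ) : ℂ))) := by
        refine Tendsto.neg ?_
        exact (Complex.continuous_ofReal.tendsto _).comp (hs.mul_const _)
      refine (h2.congr fun N => ?_).trans (le_of_eq ?_)
      · push_cast; ring
      · congr 1; push_cast; ring)
  have h3 : ∑ y, gg γ β p y * (-(1 / 2 * ((T y : ℝ) : ℂ)))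
      = -(1 / 2 * ∑ y, gg γ β p y * ((T y : ℝ) : ℂ)) := by
    rw [mul_sum, ← sum_neg_distrib]
    refine sum_congr rfl fun y _ => ?_
    ring
  rw [h3] at h1
  refine h1.congr fun N => ?_
  congr 1
  funext j x
  ring

lemma sum_wgt_zero (β : ℕ → ℝ) : ∑ x : CP 0, wgt β 0 x = 1 := by
  rw [Fintype.sum_prod_type]
  have h : ∀ a b : Pth 0, wgt β 0 (a, b) = if a = b then (1 / 2 : ℂ) else 0 := by
    intro a b
    have hs : (((Real.sqrt 2)⁻¹ : ℝ) : ℂ) * (((Real.sqrt 2)⁻¹ : ℝ) : ℂ) = 1 / 2 := by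
      rw [← Complex.ofReal_mul, ← mul_inv, Real.mul_self_sqrt (by norm_num)]
      norm_num
    by_cases hab : a = b
    · subst hab
      simp only [wgt, kap, Complex.conj_ofReal, if_true, mul_one]
      exact hs
    · have : a (Fin.last 0) ≠ b (Fin.last 0) := by
        intro h'
        apply hab
        funext k
        rw [Subsingleton.elim (α := Fin 1) k (Fin.last 0)]
        exact h'
      simp only [wgt]
      rw [if_neg this, if_neg hab, mul_zero]
  simp_rw [h]
  simp only [sum_ite_eq, mem_univ, if_true]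
  rw [sum_const, card_univ, Fintype.card_fun, Fintype.card_fin, Fintype.card_bool]
  norm_num

lemma LT_zero (γ β : ℕ → ℝ) : LT γ β 0 := by
  intro m y s _
  have h : ∀ N, Mg γ β 0 m N (s N) y = ∏ i, gg γ β 0 (y i) := by
    intro N
    unfold Mg FF
    have hq : ∀ X : Fin m ⊕ Fin N → CP 0, QI γ 0 (fun _ _ => 0) X = 0 := by
      intro X
      unfold QI
      refine sum_eq_zero fun i _ => sum_eq_zero fun j _ => ?_
      simp [qq]
    simp_rw [hq]
    simp only [mul_zero, Complex.ofReal_zero, neg_zero, Complex.exp_zero, mul_one]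
    have h4 := (Finset.prod_univ_sum (fun _ : Fin m ⊕ Fin N => (univ : Finset (CP 0)))
      (fun j x => wgt β 0 x * (Sum.elim (fun i x => if x = y i then (1 : ℂ) else 0)
        (fun _ _ => 1) j : CP 0 → ℂ) x))
    rw [Fintype.piFinset_univ] at h4
    rw [← h4, Fintype.prod_sum_type]
    simp only [Sum.elim_inl, Sum.elim_inr, mul_one, sum_wgt_zero, prod_const_one, mul_ite,
      mul_zero, sum_ite_eq', mem_univ, if_true]
    rfl
  simp_rw [h]
  exact tendsto_const_nhds

lemma Mg_succ (γ β : ℕ → ℝ) (p m N : ℕ) (s : ℝ) (y : Fin m → CP (p + 1)) :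
    Mg γ β (p + 1) m N s y = (∏ i, wgt β (p + 1) (y i)) *
      (Complex.exp (-((s ^ 2 / 4 * QI γ (p + 1) (fun _ _ => 0) y : ℝ) : ℂ)) *
      FF (V := Fin N) γ β p s (fun _ _ => 0)
        (fun _ x => Complex.exp (-((s ^ 2 / 2 * ∑ i, qh γ p (ini (y i)) x ^ 2 : ℝ) : ℂ)))) := by
  unfold Mg
  rw [FF_sum _ _ _ _ _ (fun _ _ => rfl)]
  rw [sum_eq_single y]
  · simp only [Sum.elim_inl, Sum.elim_inr, if_true, mul_one, zero_mul, add_zero, one_mul]
    congr 2
    have h := FF_succ (V := Fin N) γ β p s (fun _ x =>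
      Complex.exp (-((s ^ 2 / 2 * ∑ i, qh γ p (ini (y i)) x ^ 2 : ℝ) : ℂ)))
    refine Eq.trans ?_ h
    rfl
  · intro X _ hX
    obtain ⟨i, hi⟩ := Function.ne_iff.1 hX
    rw [prod_eq_zero (mem_univ i), zero_mul]
    simp only [Sum.elim_inl]
    rw [if_neg hi, mul_zero]
  · intro h; exact absurd (mem_univ _) h

theorem LT_succ (γ β : ℕ → ℝ) (p : ℕ) (h : LT γ β p) : LT γ β (p + 1) := by
  intro m y s hs
  simp_rw [Mg_succ]
  have h1 := tendsto_FF_T γ β p h s hs (fun x => ∑ i, qh γ p (ini (y i)) x ^ 2)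
  have hs0 : Tendsto (fun N : ℕ => s N ^ 2) atTop (𝓝 0) := by
    have h2 : Tendsto (fun N : ℕ => ((N : ℝ))⁻¹) atTop (𝓝 0) := tendsto_inv_atTop_nhds_zero_nat
    have h3 := h2.mul hs
    rw [zero_mul] at h3
    refine h3.congr' ?_
    filter_upwards [eventually_gt_atTop 0] with N hN
    have : (N : ℝ) ≠ 0 := by exact_mod_cast hN.ne'
    field_simp
  have h2 : Tendsto (fun N : ℕ => Complex.exp
      (-((s N ^ 2 / 4 * QI γ (p + 1) (fun _ _ => 0) y : ℝ) : ℂ))) atTop (𝓝 1) := by
    have h3 : Tendsto (fun N : ℕ => (-((s N ^ 2 / 4 * QI γ (p + 1) (fun _ _ => 0) y : ℝ) : ℂ)))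
        atTop (𝓝 (-(((0 : ℝ) / 4 * QI γ (p + 1) (fun _ _ => 0) y : ℝ) : ℂ))) := by
      refine Tendsto.neg ?_
      exact (Complex.continuous_ofReal.tendsto _).comp ((hs0.div_const 4).mul_const _)
    have h4 := (Complex.continuous_exp.tendsto _).comp h3
    refine h4.trans (le_of_eq ?_)
    simp only [zero_div, zero_mul, Complex.ofReal_zero, neg_zero, Complex.exp_zero]
  have h3 := (h2.mul h1).const_mul (∏ i, wgt β (p + 1) (y i))
  refine h3.trans (le_of_eq ?_)
  congr 1
  rw [one_mul]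
  have h5 : Complex.exp (-(1 / 2 * ∑ x, gg γ β p x * ((∑ i, qh γ p (ini (y i)) x ^ 2 : ℝ) : ℂ)))
      = ∏ i, Complex.exp (-(1 / 2 * ∑ x : CP p, gg γ β p x
        * ((qh γ p (ini (y i)) x ^ 2 : ℝ) : ℂ))) := by
    rw [← Complex.exp_sum]
    congr 1
    rw [sum_neg_distrib, ← mul_sum, sum_comm]
    congr 2
    refine sum_congr rfl fun x _ => ?_
    push_cast
    rw [mul_sum]
  rw [h5, ← prod_mul_distrib]
  rfl

theorem LT_all (γ β : ℕ → ℝ) (p : ℕ) : LT γ β p := by
  induction p with
  | zero => exact LT_zero γ β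
  | succ p ih => exact LT_succ γ β p ih

end Vale.Agent.P367.Lim
end
end

section

section

namespace Vale.Agent.P367.Lim

open Finset ComplexConjugate MeasureTheory ProbabilityTheory Filter Topology Vale.Agent.P367.Gap

variable {n : ℕ}

/-- the circuit state as a path amplitude -/
lemma qaoa_amp (J : Pair n → ℝ) (u : ℕ → Conf n → ℂ) (γ' β' : ℕ → ℝ) (p : ℕ) :
    ∀ (γ β : Fin p → ℝ), (∀ k : Fin p, γ' k = γ k) → (∀ k : Fin p, β' k = β k) →
    (∀ k < p, ∀ z, u k z = Complex.exp (-(Complex.I * γ' k * ((skEnergy J z : ℝ) : ℂ)))) →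
    ∀ z, amp β' p u z = u p z * qaoaState J p γ β z := by
  induction p with
  | zero =>
    intro γ β _ _ _ z
    simp only [amp, qaoaState, plusState, prod_const, card_univ, Fintype.card_fin]
    push_cast
    rfl
  | succ p ih =>
    intro γ β hγ hβ hu z
    have h1 : γ' p = γ (Fin.last p) := by have := hγ (Fin.last p); simpa using this
    have h2 : β' p = β (Fin.last p) := by have := hβ (Fin.last p); simpa using this
    rw [amp, qaoaState, exp_cost]
    congr 1
    have h3 : NormedSpace.exp ((-(Complex.I * (β (Fin.last p) : ℂ))) • mixer n)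
        = mixU n (β (Fin.last p)) := rfl
    rw [h3, Matrix.mulVec, dotProduct]
    refine sum_congr rfl fun z' _ => ?_
    rw [mixU_apply, h2, ih (fun k => γ k.castSucc) (fun k => β k.castSucc)
      (fun k => by have := hγ k.castSucc; simpa using this)
      (fun k => by have := hβ k.castSucc; simpa using this)
      (fun k hk z => hu k (by omega) z), hu p (by omega), h1]

lemma sum_sym (f : Fin n → Fin n → ℝ) (hf : ∀ a b, f a b = f b a) :
    ∑ i, ∑ j, (if i = j then 0 else f i j) = 2 * ∑ e : Pair n, f e.1.1 e.1.2 := by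
  rw [sum_pair, two_mul]
  have h1 : ∀ i j : Fin n, (if i = j then 0 else f i j)
      = (if i < j then f i j else 0) + (if j < i then f j i else 0) := by
    intro i j
    rcases lt_trichotomy i j with h | h | h
    · rw [if_neg h.ne, if_pos h, if_neg h.not_gt, add_zero]
    · subst h; simp
    · rw [if_neg h.ne', if_neg h.not_gt, if_pos h, zero_add, hf]
  simp_rw [h1, sum_add_distrib]
  congr 1
  rw [sum_comm]

/-- source matrix of site `i` -/
noncomputable def xim (i : Fin n) (ξ : ℝ) (a b : Fin n) : ℝ := if a = i ∨ b = i then ξ else 0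

lemma xim_symm (i : Fin n) (ξ : ℝ) (a b : Fin n) : xim i ξ a b = xim i ξ b a := by
  unfold xim
  simp only [or_comm]

/-- Gaussian integration of the contour sum over pair couplings -/
lemma pair_char (γ β : ℕ → ℝ) (p : ℕ) (ξ : Fin n → Fin n → ℝ) (hξ : ∀ a b, ξ a b = ξ b a)
    (φ : Fin n → CP p → ℂ) :
    ∫ J : Pair n → ℝ, (∑ X : Fin n → CP p, (∏ j, wgt β p (X j) * φ j (X j)) *
      Complex.exp (-(Complex.I * ((∑ e : Pair n, ((Real.sqrt n)⁻¹ * (qq γ p (X e.1.1) (X e.1.2)
        + ξ e.1.1 e.1.2 * (lst (X e.1.1) * lst (X e.1.2)))) * J e : ℝ) : ℂ)))) ∂(couplingLaw n)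
      = FF (V := Fin n) γ β p (Real.sqrt n)⁻¹ ξ φ := by
  unfold couplingLaw
  rw [integral_finsetSum]
  · unfold FF
    refine sum_congr rfl fun X _ => ?_
    rw [integral_const_mul, gauss_char]
    congr 4
    have h := sum_sym (n := n) (fun a b => (qq γ p (X a) (X b)
        + ξ a b * (lst (X a) * lst (X b))) ^ 2) (fun a b => by
          rw [qq_comm, hξ, mul_comm (lst (X a))])
    unfold QI
    rw [h]
    have h2 : ∀ e : Pair n, ((Real.sqrt n)⁻¹ * (qq γ p (X e.1.1) (X e.1.2)
        + ξ e.1.1 e.1.2 * (lst (X e.1.1) * lst (X e.1.2)))) ^ 2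
        = (Real.sqrt n)⁻¹ ^ 2 * (qq γ p (X e.1.1) (X e.1.2)
        + ξ e.1.1 e.1.2 * (lst (X e.1.1) * lst (X e.1.2))) ^ 2 := fun e => by rw [mul_pow]
    simp_rw [h2]
    rw [← mul_sum]
    ring
  · intro X _
    exact (integrable_exp_lin _).const_mul _

lemma exp_weight (a b : ℝ) : Complex.exp (-(Complex.I * (a : ℂ) * (b : ℂ)))
    = Complex.exp (-(Complex.I * ((a * b : ℝ) : ℂ))) := by
  congr 1; push_cast; ring

/-- the characteristic function of an aligned field, exactly -/
theorem char_eq (p : ℕ) (γ β : Fin p → ℝ) (γ' β' : ℕ → ℝ)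
    (hγ : ∀ k : Fin p, γ' k = γ k) (hβ : ∀ k : Fin p, β' k = β k) (i : Fin n) (ξ : ℝ) :
    ∫ J, (∑ s, ((‖qaoaState J p γ β s‖ ^ 2 : ℝ) : ℂ) *
      Complex.exp (-(Complex.I * ((ξ * tt (uvec i) s J : ℝ) : ℂ)))) ∂(couplingLaw n)
      = FF (V := Fin n) γ' β' p (Real.sqrt n)⁻¹ (xim i ξ) (fun _ _ => 1) := by
  rw [← pair_char γ' β' p (xim i ξ) (xim_symm i ξ)]
  congr 1
  funext J
  let u : ℕ → Conf n → ℂ := fun k z =>
    if k < p then Complex.exp (-(Complex.I * γ' k * ((skEnergy J z : ℝ) : ℂ)))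
    else Complex.exp (-(Complex.I * ((ξ * tt (uvec i) z J : ℝ) : ℂ)))
  let v : ℕ → Conf n → ℂ := fun k z =>
    if k < p then Complex.exp (-(Complex.I * γ' k * ((skEnergy J z : ℝ) : ℂ)))
    else 1
  have hu := qaoa_amp J u γ' β' p γ β hγ hβ (fun k hk z => by simp [u, hk])
  have hv := qaoa_amp J v γ' β' p γ β hγ hβ (fun k hk z => by simp [v, hk])
  have h1 : ∑ s, ((‖qaoaState J p γ β s‖ ^ 2 : ℝ) : ℂ) *
      Complex.exp (-(Complex.I * ((ξ * tt (uvec i) s J : ℝ) : ℂ)))
      = ∑ z, amp β' p u z * conj (amp β' p v z) := by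
    refine sum_congr rfl fun z _ => ?_
    rw [hu, hv]
    have e1 : u p z = Complex.exp (-(Complex.I * ((ξ * tt (uvec i) z J : ℝ) : ℂ))) := by simp [u]
    have e2 : v p z = 1 := by simp [v]
    rw [e1, e2, one_mul]
    have e3 : ((‖qaoaState J p γ β z‖ ^ 2 : ℝ) : ℂ)
        = qaoaState J p γ β z * conj (qaoaState J p γ β z) := by
      rw [Complex.mul_conj, Complex.normSq_eq_norm_sq]
    rw [e3]
    ring
  rw [h1, sum_amp_mul_conj]
  refine sum_congr rfl fun X _ => ?_
  simp only [mul_one]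
  congr 1
  have e1 : ∏ k : Fin (p + 1), u k (fun j => (X j).1 k)
      = Complex.exp (-(Complex.I * ((∑ k : Fin p, γ' k * skEnergy J (fun j => (X j).1 k.castSucc)
          + ξ * tt (uvec i) (fun j => (X j).1 (Fin.last p)) J : ℝ) : ℂ))) := by
    rw [Fin.prod_univ_castSucc]
    have e2 : ∀ k : Fin p, u k.castSucc (fun j => (X j).1 k.castSucc)
        = Complex.exp (-(Complex.I * ((γ' k * skEnergy J (fun j => (X j).1 k.castSucc) : ℝ) : ℂ))) := by
      intro k
      simp only [u, Fin.val_castSucc, k.2, if_true]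
      exact exp_weight _ _
    have e3 : u (Fin.last p) (fun j => (X j).1 (Fin.last p))
        = Complex.exp (-(Complex.I * ((ξ * tt (uvec i) (fun j => (X j).1 (Fin.last p)) J : ℝ) : ℂ))) := by
      simp [u]
    rw [e3]
    simp_rw [e2]
    rw [← Complex.exp_sum, ← Complex.exp_add]
    congr 1
    rw [sum_neg_distrib, ← mul_sum]
    push_cast
    ring
  have e2 : ∏ k : Fin (p + 1), conj (v k (fun j => (X j).2 k))
      = Complex.exp (Complex.I * ((∑ k : Fin p, γ' k * skEnergy J (fun j => (X j).2 k.castSucc)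
          : ℝ) : ℂ)) := by
    rw [Fin.prod_univ_castSucc]
    have e2 : ∀ k : Fin p, conj (v k.castSucc (fun j => (X j).2 k.castSucc))
        = Complex.exp (Complex.I * ((γ' k * skEnergy J (fun j => (X j).2 k.castSucc) : ℝ) : ℂ)) := by
      intro k
      simp only [v, Fin.val_castSucc, k.2, if_true]
      rw [exp_weight, ← Complex.exp_conj, map_neg, map_mul, Complex.conj_I, Complex.conj_ofReal]
      congr 1
      ring
    have e3 : conj (v (Fin.last p) (fun j => (X j).2 (Fin.last p))) = 1 := by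
      simp only [Fin.val_last, lt_self_iff_false, ↓reduceIte, map_one, v]
    rw [e3]
    simp_rw [e2]
    rw [← Complex.exp_sum, ← mul_sum, mul_one]
    push_cast
    ring_nf
  rw [e1, e2, ← Complex.exp_add]
  congr 1
  have key : ∑ e : Pair n, ((Real.sqrt n)⁻¹ * (qq γ' p (X e.1.1) (X e.1.2)
        + xim i ξ e.1.1 e.1.2 * (lst (X e.1.1) * lst (X e.1.2)))) * J e
      = ∑ k : Fin p, γ' k * skEnergy J (fun j => (X j).1 k.castSucc)
          + ξ * tt (uvec i) (fun j => (X j).1 (Fin.last p)) J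
        - ∑ k : Fin p, γ' k * skEnergy J (fun j => (X j).2 k.castSucc) := by
    unfold skEnergy tt uvec
    simp_rw [mul_sum]
    rw [sum_comm, sum_comm (s := (univ : Finset (Fin p)))
      (f := fun k e => γ' ↑k * ((Real.sqrt n)⁻¹ * (J e *
        (spin ((X e.1.1).2 k.castSucc) * spin ((X e.1.2).2 k.castSucc)))))]
    rw [← sum_add_distrib, ← sum_sub_distrib]
    refine sum_congr rfl fun e _ => ?_
    unfold qq chi inc xim lst
    rw [mul_add, add_mul, mul_sum, sum_mul, add_sub_right_comm, ← sum_sub_distrib]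
    congr 1
    · refine sum_congr rfl fun k _ => ?_
      ring
    · by_cases h : e.1.1 = i ∨ e.1.2 = i
      · simp only [h, if_true]; ring
      · simp only [h, if_false]; ring
  rw [key]
  push_cast
  ring

end Vale.Agent.P367.Lim
end
end

section

section

namespace Vale.Agent.P367.Lim

open Finset ComplexConjugate MeasureTheory ProbabilityTheory Filter Topology Vale.Agent.P367.Gap

/-- total mass one -/
lemma FF_one (γ β : ℕ → ℝ) (V : Type) [Fintype V] [DecidableEq V] (p : ℕ) (s : ℝ) :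
    FF (V := V) γ β p s (fun _ _ => 0) (fun _ _ => 1) = 1 := by
  induction p with
  | zero =>
    unfold FF
    have hq : ∀ X : V → CP 0, QI γ 0 (fun _ _ => 0) X = 0 := by
      intro X
      unfold QI
      refine sum_eq_zero fun i _ => sum_eq_zero fun j _ => ?_
      simp [qq]
    simp_rw [hq]
    simp only [mul_zero, Complex.ofReal_zero, neg_zero, Complex.exp_zero, mul_one]
    have h4 := (Finset.prod_univ_sum (fun _ : V => (univ : Finset (CP 0)))
      (fun _ x => wgt β 0 x))
    rw [Fintype.piFinset_univ] at h4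
    rw [← h4]
    simp only [sum_wgt_zero, prod_const_one]
  | succ p ih =>
    have h := FF_succ (V := V) γ β p s (fun _ _ => 1)
    rw [h, ih]

lemma seq_s (r : ℕ) : Tendsto (fun N : ℕ => (N : ℝ) * ((Real.sqrt ((N + r : ℕ) : ℝ))⁻¹) ^ 2) atTop
    (𝓝 1) := by
  have h2 : Tendsto (fun N : ℕ => (N : ℝ) / ((N + r : ℕ) : ℝ)) atTop (𝓝 1) := by
    have := tendsto_natCast_div_add_atTop (𝕜 := ℝ) (r : ℝ)
    refine this.congr fun N => ?_
    push_cast; rfl
  refine h2.congr fun N => ?_
  rw [inv_pow, Real.sq_sqrt (Nat.cast_nonneg _), div_eq_mul_inv]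

lemma sum_gg (γ β : ℕ → ℝ) (p : ℕ) : ∑ y : CP p, gg γ β p y = 1 := by
  have h1 : ∀ N : ℕ, ∑ y : CP p, Mg γ β p 1 N (Real.sqrt ((N + 1 : ℕ) : ℝ))⁻¹ (fun _ => y) = 1 := by
    intro N
    have h := FF_inl γ β p 1 N (Real.sqrt ((N + 1 : ℕ) : ℝ))⁻¹ (fun _ => 1)
    have h2 : (Sum.elim (fun _ : Fin 1 => fun _ : CP p => (1 : ℂ)) (fun _ : Fin N => fun _ => 1))
        = fun _ _ => 1 := by
      funext j
      rcases j with j | j <;> rfl
    rw [h2, FF_one] at h
    rw [h]
    simp only [prod_const_one, one_mul]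
    exact ((Equiv.funUnique (Fin 1) (CP p)).symm.sum_comp (fun y => Mg γ β p 1 N _ y))
  have h2 : Tendsto (fun N : ℕ => ∑ y : CP p, Mg γ β p 1 N (Real.sqrt ((N + 1 : ℕ) : ℝ))⁻¹
      (fun _ => y)) atTop (𝓝 (∑ y : CP p, gg γ β p y)) := by
    refine tendsto_finsetSum _ fun y _ => ?_
    have h3 := LT_all γ β p 1 (fun _ => y) (fun N => (Real.sqrt ((N + 1 : ℕ) : ℝ))⁻¹) (seq_s 1)
    simpa only [Nat.cast_add, Nat.cast_one, univ_unique, Fin.default_eq_zero, Fin.isValue, prod_const,     card_singleton, pow_one] using h3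
  simp_rw [h1] at h2
  exact tendsto_nhds_unique h2 tendsto_const_nhds |>.symm ▸ rfl

lemma lst_sq {p : ℕ} (x : CP p) : lst x * lst x = 1 := by
  unfold lst spin
  split_ifs <;> norm_num

/-- source matrix after splitting off a site -/
def xiU (m : ℕ) (ξ : ℝ) : Unit ⊕ Fin m → Unit ⊕ Fin m → ℝ :=
  Sum.elim (fun _ _ => ξ) (fun _ => Sum.elim (fun _ => ξ) (fun _ => 0))

lemma FF_unit (γ β : ℕ → ℝ) (p m : ℕ) (s ξ : ℝ) (φ : CP p → ℂ) :
    FF (V := Unit ⊕ Fin m) γ β p s (xiU m ξ) (Sum.elim (fun _ => φ) (fun _ _ => 1))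
      = ∑ x : CP p, wgt β p x * φ x * FF (V := Fin m) γ β p s (fun _ _ => 0)
        (fun _ y => Complex.exp (-((s ^ 2 / 2 * (qq γ p x y + ξ * (lst x * lst y)) ^ 2
          : ℝ) : ℂ))) := by
  rw [FF_sum _ _ _ _ _ (fun _ _ => rfl)]
  rw [← (Equiv.funUnique Unit (CP p)).symm.sum_comp]
  refine sum_congr rfl fun x _ => ?_
  have h0 : QI γ p (fun i j => xiU m ξ (Sum.inl i) (Sum.inl j))
      ((Equiv.funUnique Unit (CP p)).symm x) = 0 := by
    unfold QI
    refine sum_eq_zero fun i _ => sum_eq_zero fun j _ => ?_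
    rw [if_pos (Subsingleton.elim i j)]
  rw [h0]
  simp only [mul_zero, Complex.ofReal_zero, neg_zero, Complex.exp_zero, one_mul]
  congr 1
  · simp [Equiv.funUnique]
  · have h1 : (fun i j => xiU m ξ (Sum.inr i) (Sum.inr j)) = fun _ _ => (0 : ℝ) := by
      funext i j; rfl
    rw [h1]
    congr 1
    funext j y
    simp only [Sum.elim_inr, one_mul, univ_unique, sum_singleton]
    rfl

lemma FF_site (γ β : ℕ → ℝ) (p m : ℕ) (s ξ : ℝ) (i : Fin (m + 1)) (f : Fin (m + 1) → Fin (m + 1) → ℝ)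
    (hf : ∀ a b, f a b = if a = i ∨ b = i then ξ else 0) :
    FF (V := Fin (m + 1)) γ β p s f (fun _ _ => 1)
      = FF (V := Unit ⊕ Fin m) γ β p s (xiU m ξ) (Sum.elim (fun _ _ => 1) (fun _ _ => 1)) := by
  let e : Unit ⊕ Fin m ≃ Fin (m + 1) := (Equiv.sumComm Unit (Fin m)).trans
    ((Equiv.optionEquivSumPUnit (Fin m)).symm.trans (finSuccEquiv' i).symm)
  have e1 : ∀ a, e (Sum.inl a) = i := by
    intro a
    simp [e]
  have e2 : ∀ j, e (Sum.inr j) = i.succAbove j := by
    intro j
    simp [e]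
  rw [FF_equiv γ β p s e]
  congr 1
  · funext a b
    rw [hf]
    rcases a with a | a
    · rw [e1, if_pos (Or.inl rfl)]; rfl
    · rcases b with b | b
      · rw [e1, if_pos (Or.inr rfl)]; rfl
      · rw [e2, e2, if_neg]
        · rfl
        · rintro (h | h)
          · exact Fin.succAbove_ne i a h
          · exact Fin.succAbove_ne i b h
  · funext a
    rcases a with a | a <;> rfl

/-- limit coefficients -/
noncomputable def cx (γ β : ℕ → ℝ) (p : ℕ) (x : CP p) : ℂ :=
  wgt β p x * Complex.exp (-(1 / 2 * ∑ y : CP p, gg γ β p y * ((qq γ p x y ^ 2 : ℝ) : ℂ)))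

/-- limit drifts -/
noncomputable def mx (γ β : ℕ → ℝ) (p : ℕ) (x : CP p) : ℂ :=
  ∑ y : CP p, gg γ β p y * ((qq γ p x y * (lst x * lst y) : ℝ) : ℂ)

lemma tendsto_site (γ β : ℕ → ℝ) (p : ℕ) (ξ : ℝ) (x : CP p) :
    Tendsto (fun m : ℕ => wgt β p x * FF (V := Fin m) γ β p (Real.sqrt ((m + 1 : ℕ) : ℝ))⁻¹
      (fun _ _ => 0) (fun _ y => Complex.exp (-((((Real.sqrt ((m + 1 : ℕ) : ℝ))⁻¹) ^ 2 / 2 *
        (qq γ p x y + ξ * (lst x * lst y)) ^ 2 : ℝ) : ℂ)))) atTop
      (𝓝 (cx γ β p x * Complex.exp (-(ξ * mx γ β p x) - (ξ : ℂ) ^ 2 / 2))) := by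
  have h := (tendsto_FF_T γ β p (LT_all γ β p) (fun N => (Real.sqrt ((N + 1 : ℕ) : ℝ))⁻¹) (seq_s 1)
    (fun y => (qq γ p x y + ξ * (lst x * lst y)) ^ 2)).const_mul (wgt β p x)
  refine h.trans (le_of_eq ?_)
  congr 1
  unfold cx mx
  rw [mul_assoc, ← Complex.exp_add]
  congr 2
  have h1 : ∀ y : CP p, gg γ β p y * (((qq γ p x y + ξ * (lst x * lst y)) ^ 2 : ℝ) : ℂ)
      = gg γ β p y * ((qq γ p x y ^ 2 : ℝ) : ℂ)
        + 2 * ξ * (gg γ β p y * ((qq γ p x y * (lst x * lst y) : ℝ) : ℂ))
        + (ξ : ℂ) ^ 2 * gg γ β p y := by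
    intro y
    have h2 : (qq γ p x y + ξ * (lst x * lst y)) ^ 2
        = qq γ p x y ^ 2 + 2 * ξ * (qq γ p x y * (lst x * lst y)) + ξ ^ 2 := by
      have h3 := lst_sq x
      have h4 := lst_sq y
      calc (qq γ p x y + ξ * (lst x * lst y)) ^ 2
          = qq γ p x y ^ 2 + 2 * ξ * (qq γ p x y * (lst x * lst y))
            + ξ ^ 2 * ((lst x * lst x) * (lst y * lst y)) := by ring
        _ = _ := by rw [h3, h4]; ring
    rw [h2]
    push_cast
    ring
  simp_rw [h1, sum_add_distrib, ← mul_sum, sum_gg]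
  ring

/-- limit of the characteristic function -/
theorem tendsto_char (γ β : ℕ → ℝ) (p : ℕ) (ξ : ℝ) :
    Tendsto (fun m : ℕ => FF (V := Unit ⊕ Fin m) γ β p (Real.sqrt ((m + 1 : ℕ) : ℝ))⁻¹
      (xiU m ξ) (Sum.elim (fun _ _ => 1) (fun _ _ => 1))) atTop
      (𝓝 (∑ x : CP p, cx γ β p x * Complex.exp (-(ξ * mx γ β p x) - (ξ : ℂ) ^ 2 / 2))) := by
  have h := tendsto_finsetSum (univ : Finset (CP p)) fun x _ => tendsto_site γ β p ξ x
  refine h.congr fun m => ?_
  rw [FF_unit]
  refine sum_congr rfl fun x _ => ?_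
  rw [mul_one]

/-- unitarity bound on the limit terms -/
theorem norm_cx_le (γ β : ℕ → ℝ) (p : ℕ) (x : CP p) (ξ : ℝ) :
    ‖cx γ β p x‖ * Real.exp (-(ξ * (mx γ β p x).re) - ξ ^ 2 / 2) ≤ 1 := by
  have h := (tendsto_site γ β p ξ x).norm
  have h1 : ‖cx γ β p x * Complex.exp (-(ξ * mx γ β p x) - (ξ : ℂ) ^ 2 / 2)‖
      = ‖cx γ β p x‖ * Real.exp (-(ξ * (mx γ β p x).re) - ξ ^ 2 / 2) := by
    rw [norm_mul, Complex.norm_exp]
    congr 2
    have h2 : ((ξ : ℂ) ^ 2 / 2) = ((ξ ^ 2 / 2 : ℝ) : ℂ) := by push_cast; ring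
    rw [h2, Complex.sub_re, Complex.neg_re, Complex.ofReal_re, Complex.re_ofReal_mul]
  rw [← h1]
  refine le_of_tendsto h (Eventually.of_forall fun m => ?_)
  have h3 := FF_unit γ β p m (Real.sqrt ((m + 1 : ℕ) : ℝ))⁻¹ ξ (fun z => if z = x then 1 else 0)
  have h4 : ∑ z : CP p, wgt β p z * (if z = x then (1 : ℂ) else 0) * FF (V := Fin m) γ β p
        (Real.sqrt ((m + 1 : ℕ) : ℝ))⁻¹ (fun _ _ => 0)
        (fun _ y => Complex.exp (-((((Real.sqrt ((m + 1 : ℕ) : ℝ))⁻¹) ^ 2 / 2 *
          (qq γ p z y + ξ * (lst z * lst y)) ^ 2 : ℝ) : ℂ)))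
      = wgt β p x * FF (V := Fin m) γ β p (Real.sqrt ((m + 1 : ℕ) : ℝ))⁻¹
      (fun _ _ => 0) (fun _ y => Complex.exp (-((((Real.sqrt ((m + 1 : ℕ) : ℝ))⁻¹) ^ 2 / 2 *
        (qq γ p x y + ξ * (lst x * lst y)) ^ 2 : ℝ) : ℂ))) := by
    rw [sum_eq_single x]
    · simp only [↓reduceIte, mul_one, Nat.cast_add, Nat.cast_one, inv_pow, Complex.ofReal_mul, Complex.ofReal_div, Complex.ofReal_inv, Complex.ofReal_pow, Complex.ofReal_ofNat, Complex.ofReal_add]
    · intro z _ hz
      rw [if_neg hz]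
      ring
    · intro h; exact absurd (mem_univ x) h
  rw [h4] at h3
  rw [← h3]
  refine norm_FF_le γ β p _ _ _
    (Sum.elim (fun _ k b => if b = x.1 k then 1 else 0) (fun _ _ _ => 1))
    (Sum.elim (fun _ k b => if b = x.2 k then 1 else 0) (fun _ _ _ => 1)) ?_ ?_ ?_
  · rintro (i | j) k b
    · simp only [Sum.elim_inl]; split_ifs <;> simp
    · simp
  · rintro (i | j) k b
    · simp only [Sum.elim_inl]; split_ifs <;> simp
    · simp
  · rintro (i | j) z
    · simp only [Sum.elim_inl]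
      exact indicator_prod z x
    · simp

end Vale.Agent.P367.Lim
end
end

section

section

namespace Vale.Agent.P367.Lim

open Finset ComplexConjugate MeasureTheory ProbabilityTheory Filter Topology ENNReal
  Vale.Agent.P367.Gap

variable {n : ℕ}

/-- extension of finitely many angles -/
noncomputable def extA {p : ℕ} (γ : Fin p → ℝ) : ℕ → ℝ := fun k => if h : k < p then γ ⟨k, h⟩ else 0

lemma extA_apply {p : ℕ} (γ : Fin p → ℝ) (k : Fin p) : extA γ k = γ k := by
  simp [extA, k.2]

lemma state_circ (J : Pair n → ℝ) (p : ℕ) (γ β : Fin p → ℝ) (s : Conf n) :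
    qaoaState J p γ β s
      = circ (fun k => matL (mixU n (extA β k))) (extA γ) (cE J) (plusH n) p s := by
  rw [circ_eq_qaoa J p γ β (extA γ) (extA β) (extA_apply γ) (extA_apply β)]

lemma continuous_state (p : ℕ) (γ β : Fin p → ℝ) (s : Conf n) :
    Continuous fun J : Pair n → ℝ => qaoaState J p γ β s := by
  have h1 := continuous_circ (fun k => matL (mixU n (extA β k))) (extA γ) (plusH n) p
  have h2 : Continuous fun J : Pair n → ℝ =>
      (circ (fun k => matL (mixU n (extA β k))) (extA γ) (cE J) (plusH n) p) s :=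
    (PiLp.continuous_apply 2 _ s).comp h1
  refine h2.congr fun J => ?_
  exact (state_circ J p γ β s).symm

lemma sum_state_sq (J : Pair n → ℝ) (p : ℕ) (γ β : Fin p → ℝ) :
    ∑ s, ‖qaoaState J p γ β s‖ ^ 2 = 1 := by
  have h1 := norm_circ_real (fun k => matL (mixU n (extA β k)))
    (fun k v => norm_matL _ (mixU_unitary _) v) (extA γ) J (plusH n) p
  rw [norm_plusH, EuclideanSpace.norm_eq] at h1
  have h2 : ∑ s, ‖circ (fun k => matL (mixU n (extA β k))) (extA γ) (cE J) (plusH n) p s‖ ^ 2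
      = 1 := by
    have h3 := congrArg (fun x : ℝ => x ^ 2) h1
    simp only at h3
    rw [Real.sq_sqrt (Finset.sum_nonneg fun s _ => by (clear * -; positivity))] at h3
    rw [h3]; norm_num
  simp only [state_circ]
  exact h2

lemma state_sq_le (J : Pair n → ℝ) (p : ℕ) (γ β : Fin p → ℝ) (s : Conf n) :
    ‖qaoaState J p γ β s‖ ^ 2 ≤ 1 := by
  rw [← sum_state_sq J p γ β]
  exact single_le_sum (f := fun s => ‖qaoaState J p γ β s‖ ^ 2) (fun _ _ => by positivity)
    (mem_univ s)

/-- one-configuration part of the aligned field law -/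
noncomputable def alf1 (p : ℕ) (γ β : Fin p → ℝ) (i : Fin n) (s : Conf n) : Measure ℝ :=
  ((couplingLaw n).withDensity (fun J => ENNReal.ofReal (‖qaoaState J p γ β s‖ ^ 2))).map
    (fun J => tt (uvec i) s J)

/-- law of the aligned field of a uniformly chosen site -/
noncomputable def alf (n p : ℕ) (γ β : Fin p → ℝ) : Measure ℝ :=
  ((n : ℝ≥0∞)⁻¹) • ∑ i : Fin n, ∑ s : Conf n, alf1 p γ β i s

instance : IsProbabilityMeasure (couplingLaw n) := by
  unfold couplingLaw
  infer_instance

lemma measurable_w (p : ℕ) (γ β : Fin p → ℝ) (s : Conf n) :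
    Measurable fun J : Pair n → ℝ => ENNReal.ofReal (‖qaoaState J p γ β s‖ ^ 2) :=
  ((continuous_state p γ β s).norm.pow 2).measurable.ennreal_ofReal

instance (p : ℕ) (γ β : Fin p → ℝ) (s : Conf n) : IsFiniteMeasure
    ((couplingLaw n).withDensity (fun J => ENNReal.ofReal (‖qaoaState J p γ β s‖ ^ 2))) := by
  refine isFiniteMeasure_withDensity ?_
  refine ne_of_lt (lt_of_le_of_lt (lintegral_mono (g := fun _ => 1) fun J => ?_) ?_)
  · simp only
    exact ENNReal.ofReal_le_one.2 (state_sq_le J p γ β s)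
  · simp

instance (p : ℕ) (γ β : Fin p → ℝ) (i : Fin n) (s : Conf n) : IsFiniteMeasure (alf1 p γ β i s) := by
  unfold alf1
  infer_instance

lemma integral_alf1 {E : Type*} [NormedAddCommGroup E] [NormedSpace ℝ E]
    (p : ℕ) (γ β : Fin p → ℝ) (i : Fin n) (s : Conf n) (f : ℝ → E) (hf : StronglyMeasurable f) :
    ∫ x, f x ∂(alf1 p γ β i s)
      = ∫ J, (‖qaoaState J p γ β s‖ ^ 2) • f (tt (uvec i) s J) ∂(couplingLaw n) := by
  unfold alf1
  rw [integral_map (measurable_tt _ _).aemeasurable hf.aestronglyMeasurable,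
    integral_withDensity_eq_integral_toReal_smul (measurable_w p γ β s)
      (Eventually.of_forall fun J => ENNReal.ofReal_lt_top)]
  congr 1
  funext J
  rw [ENNReal.toReal_ofReal (by positivity)]

lemma integrable_alf1_term {E : Type*} [NormedAddCommGroup E] [NormedSpace ℝ E]
    (p : ℕ) (γ β : Fin p → ℝ) (i : Fin n) (s : Conf n) (f : ℝ → E) (hf : StronglyMeasurable f)
    (C : ℝ) (hC : ∀ x, ‖f x‖ ≤ C) :
    Integrable (fun J => (‖qaoaState J p γ β s‖ ^ 2) • f (tt (uvec i) s J)) (couplingLaw n) := by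
  refine (integrable_const C).mono' ?_ (Eventually.of_forall fun J => ?_)
  · refine StronglyMeasurable.aestronglyMeasurable ?_
    exact ((continuous_state p γ β s).norm.pow 2).stronglyMeasurable.smul
      (hf.comp_measurable (measurable_tt _ _))
  · rw [norm_smul]
    have h1 := state_sq_le J p γ β s
    have h2 := hC (tt (uvec i) s J)
    have h3 : ‖(‖qaoaState J p γ β s‖ ^ 2)‖ ≤ 1 := by
      rw [Real.norm_eq_abs, abs_of_nonneg (by positivity)]
      exact h1
    calc ‖(‖qaoaState J p γ β s‖ ^ 2)‖ * ‖f (tt (uvec i) s J)‖ ≤ 1 * C :=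
          mul_le_mul h3 h2 (norm_nonneg _) (by norm_num)
      _ = C := one_mul C

/-- integrals against the aligned field law -/
theorem integral_alf {E : Type*} [NormedAddCommGroup E] [NormedSpace ℝ E]
    (p : ℕ) (γ β : Fin p → ℝ) (f : ℝ → E) (hf : StronglyMeasurable f)
    (C : ℝ) (hC : ∀ x, ‖f x‖ ≤ C) :
    ∫ x, f x ∂(alf n p γ β) = ((n : ℝ)⁻¹) • ∑ i : Fin n,
      ∫ J, (∑ s, (‖qaoaState J p γ β s‖ ^ 2) • f (tt (uvec i) s J)) ∂(couplingLaw n) := by
  have hint : ∀ (i : Fin n) (s : Conf n), Integrable f (alf1 p γ β i s) := by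
    intro i s
    exact (integrable_const C).mono' hf.aestronglyMeasurable (Eventually.of_forall hC)
  unfold alf
  rw [integral_smul_measure, integral_finsetSum_measure]
  · congr 1
    · simp
    · refine sum_congr rfl fun i _ => ?_
      rw [integral_finsetSum_measure fun s _ => hint i s, integral_finsetSum]
      · refine sum_congr rfl fun s _ => ?_
        exact integral_alf1 p γ β i s f hf
      · intro s _
        exact integrable_alf1_term p γ β i s f hf C hC
  · intro i _
    exact integrable_finsetSum_measure.2 fun s _ => hint i s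

lemma isFinite_alf (p : ℕ) (γ β : Fin p → ℝ) (hn : 0 < n) : IsFiniteMeasure (alf n p γ β) := by
  unfold alf
  have h1 : IsFiniteMeasure (∑ i : Fin n, ∑ s : Conf n, alf1 p γ β i s) := by infer_instance
  have h2 : ((n : ℝ≥0∞)⁻¹) ≠ ∞ := by
    rw [Ne, ENNReal.inv_eq_top]
    exact_mod_cast hn.ne'
  exact Measure.smul_finite _ h2

lemma isProb_alf (p : ℕ) (γ β : Fin p → ℝ) (hn : 0 < n) : IsProbabilityMeasure (alf n p γ β) := by
  have hfin := isFinite_alf p γ β hn
  have h := integral_alf (n := n) p γ β (fun _ => (1 : ℝ)) stronglyMeasurable_const 1 (by simp)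
  have h1 : ∫ J, (∑ s, (‖qaoaState J p γ β s‖ ^ 2) • (1 : ℝ)) ∂(couplingLaw n) = 1 := by
    simp only [smul_eq_mul, mul_one, sum_state_sq]
    simp
  simp only [h1] at h
  rw [integral_const, sum_const, card_univ, Fintype.card_fin, nsmul_eq_mul, smul_eq_mul,
    smul_eq_mul, mul_one, mul_one, inv_mul_cancel₀ (by exact_mod_cast hn.ne')] at h
  refine ⟨?_⟩
  rw [Measure.real, ENNReal.toReal_eq_one_iff] at h
  exact h

/-- probabilities under the aligned field law -/
theorem real_alf (p : ℕ) (γ β : Fin p → ℝ) (S : Set ℝ) (hS : MeasurableSet S) :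
    (alf n p γ β).real S = ((n : ℝ)⁻¹) * ∑ i : Fin n,
      ∫ J, (∑ s, (‖qaoaState J p γ β s‖ ^ 2) * S.indicator (fun _ => (1 : ℝ)) (tt (uvec i) s J))
        ∂(couplingLaw n) := by
  have h := integral_alf (n := n) p γ β (S.indicator (fun _ => (1 : ℝ)))
    (stronglyMeasurable_const.indicator hS) 1 (by
      intro x
      refine (norm_indicator_le_norm_self _ _).trans ?_
      simp)
  rw [integral_indicator hS] at h
  simp only [integral_const, smul_eq_mul, mul_one] at h
  rw [← h]
  simp only [Measure.real, MeasurableSet.univ, Measure.restrict_apply, Set.univ_inter]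

/-- exact characteristic function of the aligned field law -/
theorem char_alf (m p : ℕ) (γ β : Fin p → ℝ) (ξ : ℝ) :
    ∫ x, Complex.exp (-(Complex.I * ξ * x)) ∂(alf (m + 1) p γ β)
      = FF (V := Unit ⊕ Fin m) (extA γ) (extA β) p (Real.sqrt ((m + 1 : ℕ) : ℝ))⁻¹
        (xiU m ξ) (Sum.elim (fun _ _ => 1) (fun _ _ => 1)) := by
  have hcont : Continuous fun x : ℝ => Complex.exp (-(Complex.I * ξ * x)) := by fun_prop
  have h := integral_alf (n := m + 1) p γ β (fun x : ℝ => Complex.exp (-(Complex.I * ξ * x)))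
    hcont.stronglyMeasurable 1 (by
      intro x
      have : -(Complex.I * (ξ : ℂ) * (x : ℂ)) = -(Complex.I * ((ξ * x : ℝ) : ℂ)) := by
        push_cast; ring
      rw [this, norm_exp_neg_I])
  rw [h]
  have h1 : ∀ i : Fin (m + 1), ∫ J, (∑ s, (‖qaoaState J p γ β s‖ ^ 2) •
      Complex.exp (-(Complex.I * ξ * ((tt (uvec i) s J : ℝ) : ℂ)))) ∂(couplingLaw (m + 1))
      = FF (V := Unit ⊕ Fin m) (extA γ) (extA β) p (Real.sqrt ((m + 1 : ℕ) : ℝ))⁻¹
        (xiU m ξ) (Sum.elim (fun _ _ => 1) (fun _ _ => 1)) := by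
    intro i
    rw [← FF_site (extA γ) (extA β) p m _ ξ i (xim i ξ) (fun a b => rfl),
      ← char_eq p γ β (extA γ) (extA β) (extA_apply γ) (extA_apply β) i ξ]
    congr 1
    funext J
    refine sum_congr rfl fun s _ => ?_
    rw [exp_weight, Complex.real_smul]
  simp only [h1, sum_const, card_univ, Fintype.card_fin, nsmul_eq_mul]
  rw [Complex.real_smul]
  push_cast
  have : ((m : ℂ) + 1) ≠ 0 := by exact_mod_cast Nat.succ_ne_zero m
  field_simp

/-- convergence of the characteristic function of the aligned field law -/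
theorem tendsto_char_alf (p : ℕ) (γ β : Fin p → ℝ) (ξ : ℝ) :
    Tendsto (fun m : ℕ => ∫ x, Complex.exp (-(Complex.I * ξ * x)) ∂(alf (m + 1) p γ β)) atTop
      (𝓝 (∑ x : CP p, cx (extA γ) (extA β) p x *
        Complex.exp (-(ξ * mx (extA γ) (extA β) p x) - (ξ : ℂ) ^ 2 / 2))) := by
  simp_rw [char_alf]
  exact tendsto_char (extA γ) (extA β) p ξ

end Vale.Agent.P367.Lim
end
end

section

section

namespace Vale.Agent.P367.Lim

open Finset ComplexConjugate MeasureTheory ProbabilityTheory Filter Topology ENNReal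
  Vale.Agent.P367.Gap

end Vale.Agent.P367.Lim
end
end

section

section

open MeasureTheory ProbabilityTheory Finset Matrix Filter Topology

namespace Vale.Agent.P367.Gap

variable {n : ℕ}

lemma two_card_pair_le (n : ℕ) : 2 * (Fintype.card (Pair n) : ℝ) ≤ n * n := by
  have h := sum_pair (n := n) (fun _ _ => (1 : ℝ))
  have h1 : (Fintype.card (Pair n) : ℝ) = ∑ a : Fin n, ∑ b : Fin n, if a < b then (1 : ℝ) else 0 := by
    rw [← h]; simp only [sum_const, card_univ, nsmul_eq_mul, mul_one]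
  have h2 : ∑ a : Fin n, ∑ b : Fin n, (if a < b then (1 : ℝ) else 0)
      = ∑ a : Fin n, ∑ b : Fin n, (if b < a then (1 : ℝ) else 0) := Finset.sum_comm
  have h3 : 2 * (Fintype.card (Pair n) : ℝ) = ∑ a : Fin n, ∑ b : Fin n,
      ((if a < b then (1 : ℝ) else 0) + (if b < a then (1 : ℝ) else 0)) := by
    rw [two_mul]
    nth_rewrite 2 [h1]
    rw [h2, h1, ← Finset.sum_add_distrib]
    apply Finset.sum_congr rfl
    intro a _
    rw [← Finset.sum_add_distrib]
  rw [h3]
  calc ∑ a : Fin n, ∑ b : Fin n, ((if a < b then (1 : ℝ) else 0) + (if b < a then (1 : ℝ) else 0))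
      ≤ ∑ _a : Fin n, ∑ _b : Fin n, (1 : ℝ) := by
        apply Finset.sum_le_sum; intro a _
        apply Finset.sum_le_sum; intro b _
        rcases lt_trichotomy a b with h | h | h
        · simp [h, h.not_gt]
        · simp only [h, lt_self_iff_false, ↓reduceIte, add_zero, zero_le_one]
        · simp [h, h.not_gt]
    _ = n * n := by simp only [sum_const, card_univ, Fintype.card_fin, nsmul_eq_mul, mul_one]

lemma integral_exp_energy2 (s : Conf n) :
    ∫ J : Pair n → ℝ, Real.exp (skEnergy (-J) s) ∂(gLaw (Pair n)) ≤ Real.exp (n / 4) := by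
  have h1 : ∀ J : Pair n → ℝ, skEnergy (-J) s = ∑ e, (-((Real.sqrt n)⁻¹ * chi s e)) * J e := by
    intro J
    unfold skEnergy chi
    rw [Finset.mul_sum]
    apply Finset.sum_congr rfl
    intro e _
    simp only [Pi.neg_apply]
    ring
  simp only [h1]
  rw [integral_exp_linear]
  apply Real.exp_le_exp.mpr
  have h2 : ∀ e : Pair n, (-((Real.sqrt n)⁻¹ * chi s e)) ^ 2 = (n : ℝ)⁻¹ := by
    intro e
    calc (-((Real.sqrt n)⁻¹ * chi s e)) ^ 2
        = ((Real.sqrt n)⁻¹ * (Real.sqrt n)⁻¹) * (chi s e * chi s e) := by ring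
      _ = _ := by rw [inv_sqrt_mul, chi_sq, mul_one]
  simp only [h2, Finset.sum_const, Finset.card_univ, nsmul_eq_mul]
  have h3 := two_card_pair_le n
  rcases Nat.eq_zero_or_pos n with hn | hn
  · subst hn; simp
  · have hn' : (0 : ℝ) < n := by exact_mod_cast hn
    have : (Fintype.card (Pair n) : ℝ) * (n : ℝ)⁻¹ ≤ n / 2 := by
      rw [← div_eq_mul_inv, div_le_iff₀ hn']
      linarith only [h3]
    linarith only [this]

lemma integral_sup_neg_le_one (n : ℕ) :
    ∫ J : Pair n → ℝ, (⨆ s : Conf n, skEnergy (-J) s) ∂(gLaw (Pair n)) ≤ n := by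
  set A : ℝ := 2 ^ n * Real.exp (n / 4) with hA
  have hA0 : 0 < A := by positivity
  have hpt : ∀ J : Pair n → ℝ, (⨆ s : Conf n, skEnergy (-J) s)
      ≤ Real.log A - 1 + A⁻¹ * ∑ s : Conf n, Real.exp (skEnergy (-J) s) := by
    intro J
    apply ciSup_le
    intro s
    have h1 := Real.add_one_le_exp (skEnergy (-J) s - Real.log A)
    rw [Real.exp_sub, Real.exp_log hA0] at h1
    have h2 : Real.exp (skEnergy (-J) s) ≤ ∑ s : Conf n, Real.exp (skEnergy (-J) s) :=
      Finset.single_le_sum (f := fun s : Conf n => Real.exp (skEnergy (-J) s))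
        (fun _ _ => (Real.exp_pos _).le) (mem_univ s)
    have h3 : Real.exp (skEnergy (-J) s) / A ≤ A⁻¹ * ∑ s : Conf n, Real.exp (skEnergy (-J) s) := by
      rw [div_eq_inv_mul]
      exact mul_le_mul_of_nonneg_left h2 (by positivity)
    linarith
  have hi1 : Integrable (fun J : Pair n → ℝ => ⨆ s : Conf n, skEnergy (-J) s)
      (gLaw (Pair n)) := by
    apply integrable_iSup (fun (s : Conf n) (J : Pair n → ℝ) => skEnergy (-J) s)
    · intro s; exact integrable_energy_neg s
    · intro s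
      have := continuous_skEnergy (n := n) s
      exact (this.comp continuous_neg).measurable
  have hi2 : Integrable (fun J : Pair n → ℝ => ∑ s : Conf n, Real.exp (skEnergy (-J) s))
      (gLaw (Pair n)) := integrable_finsetSum _ fun s _ => integrable_exp_energy s
  calc ∫ J : Pair n → ℝ, (⨆ s : Conf n, skEnergy (-J) s) ∂(gLaw (Pair n))
      ≤ ∫ J : Pair n → ℝ, (Real.log A - 1 + A⁻¹ * ∑ s : Conf n, Real.exp (skEnergy (-J) s))
          ∂(gLaw (Pair n)) := by
        apply integral_mono hi1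
        · exact (integrable_const _).add (hi2.const_mul _)
        · exact hpt
    _ = Real.log A - 1 + A⁻¹ * ∑ s : Conf n,
          ∫ J : Pair n → ℝ, Real.exp (skEnergy (-J) s) ∂(gLaw (Pair n)) := by
        rw [integral_add (integrable_const _) (hi2.const_mul _), integral_const_mul,
          integral_finsetSum _ fun s _ => integrable_exp_energy s]
        simp only [integral_const, probReal_univ, smul_eq_mul, one_mul]
    _ ≤ Real.log A - 1 + A⁻¹ * ∑ s : Conf n, Real.exp (n / 4) := by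
        have := Finset.sum_le_sum (s := (univ : Finset (Conf n)))
          fun s _ => integral_exp_energy2 s
        have := mul_le_mul_of_nonneg_left this (show 0 ≤ A⁻¹ by positivity)
        linarith only [this]
    _ = Real.log A := by
        rw [Finset.sum_const, Finset.card_univ, nsmul_eq_mul, Fintype.card_fun,
          Fintype.card_bool, Fintype.card_fin]
        push_cast
        rw [← hA, inv_mul_cancel₀ hA0.ne']
        ring
    _ ≤ n := by
        rw [hA, Real.log_mul (by positivity) (Real.exp_pos _).ne', Real.log_exp, Real.log_pow]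
        have := Real.log_two_lt_d9
        have hn0 : (0 : ℝ) ≤ n := Nat.cast_nonneg n
        nlinarith only [this]

lemma gLaw_neg (ι : Type*) [Fintype ι] (f : (ι → ℝ) → ℝ) :
    ∫ J, f (-J) ∂(gLaw ι) = ∫ J, f J ∂(gLaw ι) := by
  have hmap : (gLaw ι).map (fun J => -J) = gLaw ι := by
    have e : (fun J : ι → ℝ => -J) = fun J i => (fun x => -x) (J i) := by
      funext J i; rfl
    have hm : (gaussianReal 0 1).map (fun x => -x) = gaussianReal 0 1 := by
      rw [gaussianReal_map_neg]; simp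
    have : ∀ _ : ι, SigmaFinite ((gaussianReal 0 1).map (fun x => -x)) := by
      intro _; rw [hm]; infer_instance
    rw [e, Measure.pi_map_pi (μ := fun _ : ι => gaussianReal 0 1) (f := fun _ x => -x)
      (fun i => by fun_prop)]
    rw [hm]
  have hemb : MeasurableEmbedding (fun J : ι → ℝ => -J) :=
    (MeasurableEquiv.neg (ι → ℝ)).measurableEmbedding
  rw [← hemb.integral_map (μ := gLaw ι) f, hmap]

lemma integral_sup_le_one (n : ℕ) :
    ∫ J : Pair n → ℝ, (⨆ s : Conf n, skEnergy J s) ∂(gLaw (Pair n)) ≤ n := by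
  rw [← gLaw_neg (Pair n) (fun J => ⨆ s : Conf n, skEnergy J s)]
  exact integral_sup_neg_le_one n

/-- Pointwise bound of the total local field by the extreme energies. -/
lemma sum_abs_field_le (J : Pair n → ℝ) (s : Conf n) :
    ∑ i, |tt (uvec i) s J| ≤ 4 * (⨆ s : Conf n, skEnergy J s)
      + 2 * ⨆ s : Conf n, skEnergy (-J) s := by
  set K := ext J with hK
  set x : Fin n → ℝ := fun i => spin (s i) with hx
  set y : Fin n → ℝ := fun i => if 0 ≤ fld K x i then 1 else -1 with hy
  have h1 : ∑ i, |tt (uvec i) s J| = ∑ i, y i * fld K x i := by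
    apply Finset.sum_congr rfl
    intro i _
    rw [tt_eq]
    unfold afld
    rw [abs_mul, abs_spin, one_mul]
    simp only [hy]
    split_ifs with h
    · rw [abs_of_nonneg h, one_mul]
    · rw [abs_of_neg (not_le.mp h)]; ring
  have hadd := Hq_add K x y
  have hscale : Hq K (fun i => x i + y i) = 4 * Hq K (fun i => (x i + y i) / 2) := by
    rw [Hq_eq, Hq_eq]
    have : ∑ i, ∑ j, Ksym K i j * (x i + y i) * (x j + y j)
        = 4 * ∑ i, ∑ j, Ksym K i j * ((x i + y i) / 2) * ((x j + y j) / 2) := by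
      rw [mul_sum]
      refine sum_congr rfl fun i _ => ?_
      rw [mul_sum]
      refine sum_congr rfl fun j _ => ?_
      ring
    rw [this]; ring
  have hx1 : ∀ i, |x i| ≤ 1 := fun i => (abs_spin _).le
  have hy1 : ∀ i, |y i| ≤ 1 := by
    intro i
    simp only [hy]
    split_ifs <;> simp
  have hz1 : ∀ i, |(x i + y i) / 2| ≤ 1 := by
    intro i
    rw [abs_div, abs_two, div_le_one (by norm_num)]
    have := abs_add_le (x i) (y i)
    have := hx1 i
    have := hy1 i
    (clear hK hx h1 hadd hscale; linarith)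
  obtain ⟨τ, hτ⟩ := exists_vertex K _ hz1
  obtain ⟨τ1, hτ1⟩ := exists_vertex (fun e => - K e) x hx1
  obtain ⟨τ2, hτ2⟩ := exists_vertex (fun e => - K e) y hy1
  rw [Hq_neg] at hτ1 hτ2
  have b1 : Hq K (fun i => spin (τ i)) ≤ ⨆ s : Conf n, skEnergy J s := by
    have := le_ciSup (f := fun τ : Conf n => skEnergy J τ) (Set.finite_range _).bddAbove τ
    rwa [← skEq_ext] at this
  have b2 : ∀ τ : Conf n, Hq (fun e => - K e) (fun i => spin (τ i))
      ≤ ⨆ s : Conf n, skEnergy (-J) s := by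
    intro τ
    have := le_ciSup (f := fun τ : Conf n => skEnergy (-J) τ) (Set.finite_range _).bddAbove τ
    rw [← skEq_ext, ← ext_neg] at this
    exact this
  have b21 := b2 τ1
  have b22 := b2 τ2
  rw [h1]
  have h3 : ∑ i, y i * fld K x i = Hq K (fun i => x i + y i) - Hq K x - Hq K y := by
    rw [hadd]; ring
  rw [h3, hscale]
  linarith only [hτ, hτ1, hτ2, b1, b21, b22]

/-- Averaged first moment of the aligned fields. -/
theorem first_moment (p : ℕ) (γ β : Fin p → ℝ)
    (hmeas : ∀ s, Measurable fun J : Pair n → ℝ => qaoaState J p γ β s)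
    (hnorm : ∀ J : Pair n → ℝ, ∑ s, ‖qaoaState J p γ β s‖ ^ 2 = 1) :
    ∑ i : Fin n, ∫ J : Pair n → ℝ, ∑ s, ‖qaoaState J p γ β s‖ ^ 2 * |tt (uvec i) s J|
      ∂(gLaw (Pair n)) ≤ 6 * n := by
  have iT : ∀ (i : Fin n) (s : Conf n), Integrable
      (fun J : Pair n → ℝ => ‖qaoaState J p γ β s‖ ^ 2 * |tt (uvec i) s J|) (gLaw (Pair n)) := by
    intro i s
    have h1 : Integrable (fun J : Pair n → ℝ => tt (uvec i) s J) (gLaw (Pair n)) := by
      unfold tt
      apply integrable_finsetSum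
      intro e _
      apply Integrable.const_mul
      exact integrable_comp_eval (μ := fun _ : Pair n => gaussianReal 0 1) (i := e)
        (f := fun x => x) ((memLp_id_gaussianReal 1).integrable le_rfl)
    refine h1.abs.mono' ?_ (Filter.Eventually.of_forall fun J => ?_)
    · apply Measurable.aestronglyMeasurable
      have h3 := measurable_tt (S := Conf n) (uvec i) s
      exact ((hmeas s).norm.pow_const 2).mul h3.abs
    · rw [norm_mul, Real.norm_eq_abs, Real.norm_eq_abs, abs_abs, abs_of_nonneg (by positivity)]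
      calc ‖qaoaState J p γ β s‖ ^ 2 * |tt (uvec i) s J| ≤ 1 * |tt (uvec i) s J| :=
            mul_le_mul_of_nonneg_right (norm_sq_le_one (hnorm J) s) (abs_nonneg _)
        _ = _ := one_mul _
  rw [← integral_finsetSum _ fun i _ => integrable_finsetSum _ fun s _ => iT i s]
  have iS1 : Integrable (fun J : Pair n → ℝ => ⨆ s : Conf n, skEnergy J s) (gLaw (Pair n)) :=
    integrable_iSup (fun (s : Conf n) (J : Pair n → ℝ) => skEnergy J s)
      (fun s => integrable_energy s) (fun s => (continuous_skEnergy s).measurable)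
  have iS2 : Integrable (fun J : Pair n → ℝ => ⨆ s : Conf n, skEnergy (-J) s)
      (gLaw (Pair n)) :=
    integrable_iSup (fun (s : Conf n) (J : Pair n → ℝ) => skEnergy (-J) s)
      (fun s => integrable_energy_neg s)
      (fun s => ((continuous_skEnergy s).comp continuous_neg).measurable)
  calc ∫ J : Pair n → ℝ, ∑ i, ∑ s, ‖qaoaState J p γ β s‖ ^ 2 * |tt (uvec i) s J|
      ∂(gLaw (Pair n))
      ≤ ∫ J : Pair n → ℝ, (4 * (⨆ s : Conf n, skEnergy J s)
      + 2 * ⨆ s : Conf n, skEnergy (-J) s) ∂(gLaw (Pair n)) := by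
        apply integral_mono
        · exact integrable_finsetSum _ fun i _ => integrable_finsetSum _ fun s _ => iT i s
        · exact (iS1.const_mul _).add (iS2.const_mul _)
        · intro J
          show ∑ i, ∑ s, ‖qaoaState J p γ β s‖ ^ 2 * |tt (uvec i) s J| ≤ _
          rw [Finset.sum_comm]
          calc ∑ s, ∑ i, ‖qaoaState J p γ β s‖ ^ 2 * |tt (uvec i) s J|
              ≤ ∑ s, ‖qaoaState J p γ β s‖ ^ 2 * (4 * (⨆ s : Conf n, skEnergy J s)
                + 2 * ⨆ s : Conf n, skEnergy (-J) s) := by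
                apply Finset.sum_le_sum
                intro s _
                rw [← Finset.mul_sum]
                exact mul_le_mul_of_nonneg_left (sum_abs_field_le J s) (by positivity)
            _ = _ := by rw [← Finset.sum_mul, hnorm J, one_mul]
    _ = 4 * ∫ J : Pair n → ℝ, (⨆ s : Conf n, skEnergy J s) ∂(gLaw (Pair n))
        + 2 * ∫ J : Pair n → ℝ, (⨆ s : Conf n, skEnergy (-J) s) ∂(gLaw (Pair n)) := by
        rw [integral_add (iS1.const_mul _) (iS2.const_mul _), integral_const_mul,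
          integral_const_mul]
    _ ≤ 6 * n := by
        have h1 := integral_sup_le_one n
        have h2 := integral_sup_neg_le_one n
        linarith

/-- Measurability of the state. -/
lemma measurable_qaoaState (p : ℕ) (γ β : Fin p → ℝ) (s : Conf n) :
    Measurable fun J : Pair n → ℝ => qaoaState J p γ β s := by
  set γ' : ℕ → ℝ := fun k => if h : k < p then γ ⟨k, h⟩ else 0 with hγ'
  set β' : ℕ → ℝ := fun k => if h : k < p then β ⟨k, h⟩ else 0 with hβ'
  have hγe : ∀ k : Fin p, γ' k = γ k := by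
    intro k; simp [hγ', k.2]
  have hβe : ∀ k : Fin p, β' k = β k := by
    intro k; simp [hβ', k.2]
  have h1 := continuous_circ (fun k => matL (mixU n (β' k))) γ' (plusH n) p
  have h2 : Continuous fun J : Pair n → ℝ =>
      (circ (fun k => matL (mixU n (β' k))) γ' (cE J) (plusH n) p) s :=
    (PiLp.continuous_apply 2 _ s).comp h1
  have h3 : (fun J : Pair n → ℝ => qaoaState J p γ β s)
      = fun J => circ (fun k => matL (mixU n (β' k))) γ' (cE J) (plusH n) p s := by
    funext J
    rw [circ_eq_qaoa J p γ β γ' β' hγe hβe]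
  rw [h3]
  exact h2.measurable

/-- Normalisation of the state. -/
lemma norm_qaoaState (J : Pair n → ℝ) (p : ℕ) (γ β : Fin p → ℝ) :
    ∑ s, ‖qaoaState J p γ β s‖ ^ 2 = 1 := by
  set γ' : ℕ → ℝ := fun k => if h : k < p then γ ⟨k, h⟩ else 0 with hγ'
  set β' : ℕ → ℝ := fun k => if h : k < p then β ⟨k, h⟩ else 0 with hβ'
  have hγe : ∀ k : Fin p, γ' k = γ k := by
    intro k; simp [hγ', k.2]
  have hβe : ∀ k : Fin p, β' k = β k := by
    intro k; simp [hβ', k.2]
  have h0 := circ_eq_qaoa J p γ β γ' β' hγe hβe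
  have h1 := norm_circ_real (fun k => matL (mixU n (β' k)))
    (fun k v => norm_matL _ (mixU_unitary _) v) γ' J (plusH n) p
  rw [norm_plusH, h0, EuclideanSpace.norm_eq] at h1
  have h3 := congrArg (fun x : ℝ => x ^ 2) h1
  simp only at h3
  rw [Real.sq_sqrt (Finset.sum_nonneg fun s _ => by (clear * -; positivity))] at h3
  simpa only [one_pow] using h3

/-- **Gain from misalignment.** -/
theorem gain_of_misalign (hn0 : 0 < n) (p : ℕ) (γ β : Fin p → ℝ) (ε : ℝ) (hε0 : 0 ≤ ε)
    (hε1 : ε ≤ 1)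
    (hmis : (n : ℝ) * ε ≤ ∑ i : Fin n, ∫ J : Pair n → ℝ,
      ∑ s, ‖qaoaState J p γ β s‖ ^ 2 * max (-(tt (uvec i) s J)) 0 ∂(gLaw (Pair n))) :
    qaoaValue n p γ β ≤ groundValue n - ε ^ 2 / 4 := by
  have hnr : (0 : ℝ) < n := by exact_mod_cast hn0
  have hmeas := fun s => measurable_qaoaState (n := n) p γ β s
  have hnorm := fun J : Pair n → ℝ => norm_qaoaState J p γ β
  set ψ : (Pair n → ℝ) → Conf n → ℂ := fun J => qaoaState J p γ β with hψ
  set q : ℝ := ε / 4 with hq
  have hq0 : 0 ≤ q := by (clear * - hε0; positivity)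
  have hq1 : q ≤ 1 := by rw [hq]; linarith only [hε1]
  have hpt : ∀ J : Pair n → ℝ,
      qaoaMean J p γ β + 2 * q * ∑ i, ∑ s, ‖ψ J s‖ ^ 2 * max (-(tt (uvec i) s J)) 0
        ≤ (⨆ s : Conf n, skEnergy J s) + 4 * q ^ 2 * ⨆ s : Conf n, skEnergy (-J) s := by
    intro J
    rw [qaoaMean_eq]
    exact flip_avg J (fun s => ‖ψ J s‖ ^ 2) (fun s => by (clear * -; positivity)) (hnorm J) q hq0 hq1
  have iE : Integrable (fun J : Pair n → ℝ => qaoaMean J p γ β) (gLaw (Pair n)) := by
    have h1 : (fun J : Pair n → ℝ => qaoaMean J p γ β)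
        = fun J => ∑ s, ‖ψ J s‖ ^ 2 * skEnergy J s := by
      funext J; exact qaoaMean_eq J p γ β
    rw [h1]
    apply integrable_finsetSum
    intro s _
    refine (integrable_energy s).abs.mono' ?_ (Filter.Eventually.of_forall fun J => ?_)
    · apply Measurable.aestronglyMeasurable
      exact ((hmeas s).norm.pow_const 2).mul (continuous_skEnergy s).measurable
    · rw [norm_mul, Real.norm_eq_abs, Real.norm_eq_abs, abs_of_nonneg (by (clear * -; positivity))]
      calc ‖ψ J s‖ ^ 2 * |skEnergy J s| ≤ 1 * |skEnergy J s| :=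
            mul_le_mul_of_nonneg_right (norm_sq_le_one (hnorm J) s) (abs_nonneg _)
        _ = _ := one_mul _
  have iM : ∀ i : Fin n, Integrable
      (fun J : Pair n → ℝ => ∑ s, ‖ψ J s‖ ^ 2 * max (-(tt (uvec i) s J)) 0) (gLaw (Pair n)) :=
    fun i => integrable_finsetSum _ fun s _ => integrable_mis ψ (uvec i) hmeas hnorm s
  have iS1 : Integrable (fun J : Pair n → ℝ => ⨆ s : Conf n, skEnergy J s) (gLaw (Pair n)) :=
    integrable_iSup (fun (s : Conf n) (J : Pair n → ℝ) => skEnergy J s)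
      (fun s => integrable_energy s) (fun s => (continuous_skEnergy s).measurable)
  have iS2 : Integrable (fun J : Pair n → ℝ => ⨆ s : Conf n, skEnergy (-J) s)
      (gLaw (Pair n)) :=
    integrable_iSup (fun (s : Conf n) (J : Pair n → ℝ) => skEnergy (-J) s)
      (fun s => integrable_energy_neg s)
      (fun s => ((continuous_skEnergy s).comp continuous_neg).measurable)
  have hint : ∫ J, (qaoaMean J p γ β
        + 2 * q * ∑ i, ∑ s, ‖ψ J s‖ ^ 2 * max (-(tt (uvec i) s J)) 0) ∂(gLaw (Pair n))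
      ≤ ∫ J : Pair n → ℝ, ((⨆ s : Conf n, skEnergy J s)
        + 4 * q ^ 2 * ⨆ s : Conf n, skEnergy (-J) s) ∂(gLaw (Pair n)) := by
    apply integral_mono
    · exact iE.add ((integrable_finsetSum _ fun i _ => iM i).const_mul _)
    · exact iS1.add (iS2.const_mul _)
    · exact hpt
  rw [integral_add iE ((integrable_finsetSum _ fun i _ => iM i).const_mul _),
    integral_add iS1 (iS2.const_mul _), integral_const_mul, integral_const_mul,
    integral_finsetSum _ fun i _ => iM i] at hint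
  have hneg := integral_sup_neg_le_one n
  have hQ : (n : ℝ) * qaoaValue n p γ β = ∫ J, qaoaMean J p γ β ∂(gLaw (Pair n)) := by
    unfold qaoaValue couplingLaw
    rw [← mul_assoc, mul_inv_cancel₀ hnr.ne', one_mul]
  have hP : (n : ℝ) * groundValue n
      = ∫ J : Pair n → ℝ, (⨆ s : Conf n, skEnergy J s) ∂(gLaw (Pair n)) := by
    unfold groundValue couplingLaw
    rw [← mul_assoc, mul_inv_cancel₀ hnr.ne', one_mul]
  rw [← hQ, ← hP] at hint
  have h1 : 2 * q * ((n : ℝ) * ε) ≤ 2 * q * ∑ i : Fin n,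
      ∫ J : Pair n → ℝ, ∑ s, ‖ψ J s‖ ^ 2 * max (-(tt (uvec i) s J)) 0 ∂(gLaw (Pair n)) :=
    mul_le_mul_of_nonneg_left hmis (by (clear * - hε0; positivity))
  have h2 : 4 * q ^ 2 * ∫ J : Pair n → ℝ, (⨆ s : Conf n, skEnergy (-J) s) ∂(gLaw (Pair n))
      ≤ 4 * q ^ 2 * n := mul_le_mul_of_nonneg_left hneg (by (clear * -; positivity))
  have h3 : (n : ℝ) * qaoaValue n p γ β + (n : ℝ) * (ε ^ 2 / 4) ≤ (n : ℝ) * groundValue n := by
    have h4 : 2 * q * ((n : ℝ) * ε) - 4 * q ^ 2 * n = (n : ℝ) * (ε ^ 2 / 4) := by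
      rw [hq]; ring
    linarith only [hint, h1, h2, h4]
  have h5 : (n : ℝ) * (qaoaValue n p γ β + ε ^ 2 / 4) ≤ (n : ℝ) * groundValue n := by
    rw [mul_add]; exact h3
  have h6 := le_of_mul_le_mul_left h5 hnr
  linarith only [h6]

end Vale.Agent.P367.Gap
end
end

section

section

namespace Vale.Agent.P367.Lim

open Finset ComplexConjugate MeasureTheory ProbabilityTheory Filter Topology ENNReal
  Vale.Agent.P367.Gap

variable {n : ℕ}

lemma integrable_abs_tt (p : ℕ) (γ β : Fin p → ℝ) (i : Fin n) (s : Conf n) : Integrable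
    (fun J : Pair n → ℝ => ‖qaoaState J p γ β s‖ ^ 2 * |tt (uvec i) s J|) (couplingLaw n) := by
  have h1 : Integrable (fun J : Pair n → ℝ => tt (uvec i) s J) (couplingLaw n) := by
    unfold tt couplingLaw
    apply integrable_finsetSum
    intro e _
    apply Integrable.const_mul
    exact integrable_comp_eval (μ := fun _ : Pair n => gaussianReal 0 1) (i := e)
      (f := fun x => x) ((memLp_id_gaussianReal 1).integrable le_rfl)
  refine h1.abs.mono' ?_ (Filter.Eventually.of_forall fun J => ?_)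
  · apply Measurable.aestronglyMeasurable
    have h3 := measurable_tt (S := Conf n) (uvec i) s
    exact (((measurable_qaoaState p γ β s)).norm.pow_const 2).mul h3.abs
  · rw [norm_mul, Real.norm_eq_abs, Real.norm_eq_abs, abs_abs, abs_of_nonneg (by positivity)]
    calc ‖qaoaState J p γ β s‖ ^ 2 * |tt (uvec i) s J| ≤ 1 * |tt (uvec i) s J| :=
          mul_le_mul_of_nonneg_right (state_sq_le J p γ β s) (abs_nonneg _)
      _ = _ := one_mul _

/-- comparison of probabilities with integrals -/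
lemma integrable_ind (p : ℕ) (γ β : Fin p → ℝ) (i : Fin n) (s : Conf n) (S : Set ℝ)
    (hS : MeasurableSet S) : Integrable (fun J : Pair n → ℝ =>
      ‖qaoaState J p γ β s‖ ^ 2 * S.indicator (fun _ => (1 : ℝ)) (tt (uvec i) s J))
      (couplingLaw n) :=
  integrable_alf1_term p γ β i s (S.indicator (fun _ => (1 : ℝ)))
    (stronglyMeasurable_const.indicator hS) 1 (by
      intro x
      refine (norm_indicator_le_norm_self _ _).trans ?_
      simp)

/-- from misalignment probability to an energy gap -/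
theorem gap_of_alf (p : ℕ) (n : ℕ) (hn : 1 ≤ n) (γ β : Fin p → ℝ) (ε : ℝ) (hε : 0 ≤ ε)
    (h : ε ≤ (alf n p γ β).real {x | x < -1}) :
    qaoaValue n p γ β ≤ groundValue n - ε ^ 2 / 4 := by
  have hnr : (0 : ℝ) < n := by exact_mod_cast hn
  have hS : MeasurableSet {x : ℝ | x < -1} := measurableSet_lt measurable_id measurable_const
  have hprob := isProb_alf p γ β (n := n) hn
  have hε1 : ε ≤ 1 := h.trans measureReal_le_one
  refine gain_of_misalign (by omega) p γ β ε hε hε1 ?_
  rw [real_alf p γ β _ hS] at h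
  have h1 : ∀ i : Fin n, ∫ J, (∑ s, (‖qaoaState J p γ β s‖ ^ 2) *
        ({x : ℝ | x < -1}).indicator (fun _ => (1 : ℝ)) (tt (uvec i) s J)) ∂(couplingLaw n)
      ≤ ∫ J : Pair n → ℝ, ∑ s, ‖qaoaState J p γ β s‖ ^ 2 * max (-(tt (uvec i) s J)) 0
        ∂(gLaw (Pair n)) := by
    intro i
    refine integral_mono ?_ ?_ ?_
    · exact integrable_finsetSum _ fun s _ => integrable_ind p γ β i s _ hS
    · exact integrable_finsetSum _ fun s _ => integrable_mis (fun J => qaoaState J p γ β) (uvec i)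
        (fun s => measurable_qaoaState p γ β s) (fun J => norm_qaoaState J p γ β) s
    · intro J
      simp only
      refine sum_le_sum fun s _ => ?_
      refine mul_le_mul_of_nonneg_left ?_ (by positivity)
      by_cases h : tt (uvec i) s J < -1
      · rw [Set.indicator_of_mem (by exact h)]
        exact le_max_of_le_left (by linarith only [h])
      · rw [Set.indicator_of_notMem (by exact h)]
        exact le_max_right _ _
  have h2 := sum_le_sum fun (i : Fin n) (_ : i ∈ univ) => h1 i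
  refine le_trans ?_ h2
  have h3 := mul_le_mul_of_nonneg_left h hnr.le
  rwa [← mul_assoc, mul_inv_cancel₀ hnr.ne', one_mul] at h3

end Vale.Agent.P367.Lim
end
end

section

section

namespace Vale.Agent.P367.Lim

open Finset ComplexConjugate MeasureTheory ProbabilityTheory Filter Topology ENNReal
  Vale.Agent.P367.Gap

variable {n : ℕ}

lemma sum_inc_site (e : Pair n) : ∑ i : Fin n, inc i e = 2 := by
  have h : ∀ i : Fin n, inc i e = (if e.1.1 = i then (1 : ℝ) else 0)
      + (if e.1.2 = i then (1 : ℝ) else 0) := by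
    intro i
    unfold inc
    have hne : e.1.1 ≠ e.1.2 := ne_of_lt e.2
    by_cases h1 : e.1.1 = i
    · have h2 : e.1.2 ≠ i := fun h2 => hne (h1.trans h2.symm)
      simp [h1, h2]
    · by_cases h2 : e.1.2 = i
      · simp [h1, h2]
      · simp [h1, h2]
  simp_rw [h, sum_add_distrib]
  simp only [sum_ite_eq, mem_univ, ↓reduceIte]
  norm_num

lemma sum_tt (s : Conf n) (J : Pair n → ℝ) : ∑ i : Fin n, tt (uvec i) s J = 2 * skEnergy J s := by
  unfold tt uvec skEnergy
  rw [sum_comm]
  rw [mul_sum, mul_sum]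
  refine sum_congr rfl fun e _ => ?_
  have h : ∑ i : Fin n, (Real.sqrt n)⁻¹ * (inc i e * chi s e) * J e
      = (∑ i : Fin n, inc i e) * ((Real.sqrt n)⁻¹ * chi s e * J e) := by
    rw [sum_mul]
    refine sum_congr rfl fun i _ => ?_
    ring
  rw [h, sum_inc_site]
  unfold chi
  ring

lemma integrable_tt_w (p : ℕ) (γ β : Fin p → ℝ) (i : Fin n) (s : Conf n) : Integrable
    (fun J : Pair n → ℝ => ‖qaoaState J p γ β s‖ ^ 2 * tt (uvec i) s J) (couplingLaw n) := by
  refine (integrable_abs_tt p γ β i s).mono' ?_ (Filter.Eventually.of_forall fun J => ?_)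
  · apply Measurable.aestronglyMeasurable
    have h3 := measurable_tt (S := Conf n) (uvec i) s
    exact (((measurable_qaoaState p γ β s)).norm.pow_const 2).mul h3
  · rw [norm_mul, Real.norm_eq_abs, Real.norm_eq_abs, abs_of_nonneg (a := ‖_‖ ^ 2) (by positivity)]

/-- mean aligned field -/
noncomputable def amean (n p : ℕ) (γ β : Fin p → ℝ) : ℝ :=
  (n : ℝ)⁻¹ * ∑ i : Fin n, ∫ J : Pair n → ℝ, (∑ s, ‖qaoaState J p γ β s‖ ^ 2 * tt (uvec i) s J)
    ∂(couplingLaw n)

lemma qaoaValue_eq_amean (n p : ℕ) (γ β : Fin p → ℝ) :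
    qaoaValue n p γ β = 1 / 2 * amean n p γ β := by
  unfold qaoaValue amean
  rw [← integral_finsetSum _ fun i _ => integrable_finsetSum _ fun s _ => integrable_tt_w p γ β i s]
  rw [mul_left_comm]
  congr 1
  rw [← integral_const_mul]
  congr 1
  funext J
  rw [qaoaMean_eq, sum_comm, mul_sum]
  refine sum_congr rfl fun s _ => ?_
  rw [← mul_sum, sum_tt]
  ring

lemma sq_le_exp (x : ℝ) : x ^ 2 ≤ 2 * (Real.exp (-(1 * x)) + Real.exp (-(-1 * x))) := by
  rcases le_total 0 x with h | h
  · have h1 := Real.quadratic_le_exp_of_nonneg h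
    have h2 := Real.exp_pos (-(1 * x))
    have h3 : -(-1 * x) = x := by ring
    rw [h3]
    linarith
  · have h1 := Real.quadratic_le_exp_of_nonneg (x := -x) (by linarith)
    have h2 := Real.exp_pos (-(-1 * x))
    have h3 : -(1 * x) = -x := by ring
    rw [h3]
    linarith

/-- shifted amplitudes -/
lemma shift_bound (p : ℕ) (γ β : Fin p → ℝ) (i : Fin n) (J : Pair n → ℝ) (r : ℝ) :
    ∑ s, ‖qaoaState (J - r • uvec i s) p γ β s‖ ^ 2 ≤ Real.exp ((∑ k, |γ k|) * |r|) ^ 2 := by
  set γ' := extA γ with hγ'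
  set β' := extA β with hβ'
  set D : ℕ → Hil n →ₗ[ℂ] Hil n := fun k => matL (mixU n (β' k)) with hD
  have hDn : ∀ k v, ‖D k v‖ = ‖v‖ := fun k v => norm_matL _ (mixU_unitary _) v
  have hsumγ : ∑ l ∈ range p, |γ' l| = ∑ k, |γ k| := by
    rw [← Fin.sum_univ_eq_sum_range (fun l => |γ' l|) p]
    refine sum_congr rfl fun k _ => ?_
    rw [hγ', extA_apply]
  have hψc : ∀ (J : Pair n → ℝ) s, qaoaState J p γ β s = circ D γ' (cE J) (plusH n) p s :=
    fun J s => state_circ J p γ β s
  have hG : ∀ s, Fsh D γ' (skEnergy J) i (plusH n) p (r : ℂ) s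
      = qaoaState (J - r • uvec i s) p γ β s := by
    intro s
    rw [hψc]
    have h1 : (fun z => ((skEnergy J z : ℝ) : ℂ) - (r : ℂ) * ((Rov i s z : ℝ) : ℂ))
        = cE (J - r • uvec i s) := by
      funext z
      unfold cE
      rw [skEnergy_shift]
      push_cast
      ring
    show circ D γ' (fun z => ((skEnergy J z : ℝ) : ℂ) - (r : ℂ) * ((Rov i s z : ℝ) : ℂ))
      (plusH n) p s = _
    rw [h1]
  have h1 := norm_Fsh_le D (fun k v => (hDn k v).le) γ' (skEnergy J) i (plusH n) p (r : ℂ)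
  rw [norm_plusH, mul_one, EuclideanSpace.norm_eq, hsumγ, Complex.norm_real, Real.norm_eq_abs] at h1
  have h2 := pow_le_pow_left₀ (Real.sqrt_nonneg _) h1 2
  rw [Real.sq_sqrt (Finset.sum_nonneg fun s _ => by (clear * -; positivity))] at h2
  simpa only [hG] using h2

/-- uniform second moment at fixed angles -/
lemma second_moment (hn0 : 0 < n) (p : ℕ) (γ β : Fin p → ℝ) (i : Fin n) :
    ∫ J : Pair n → ℝ, (∑ s, ‖qaoaState J p γ β s‖ ^ 2 *
      (2 * (Real.exp (-(1 * tt (uvec i) s J)) + Real.exp (-(-1 * tt (uvec i) s J)))))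
      ∂(couplingLaw n) ≤ 4 * Real.exp (1 / 2 + 2 * ∑ k, |γ k|) := by
  have hκ1 : 1 - (n : ℝ)⁻¹ ≤ 1 := by
    have : 0 ≤ (n : ℝ)⁻¹ := by positivity
    linarith only [this]
  have hE : ∀ r : ℝ, Emom (fun J : Pair n → ℝ => qaoaState J p γ β) (uvec i) r
      ≤ Real.exp (r ^ 2 / 2 + 2 * (∑ k, |γ k|) * |r|) := fun r =>
    Emom_le hκ1 (fun s => uvec_sq hn0 i s) (fun s => measurable_qaoaState p γ β s)
      (fun J => norm_qaoaState J p γ β) (fun J r => shift_bound p γ β i J r) r
  have iw : ∀ (r : ℝ) (s : Conf n), Integrable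
      (fun J : Pair n → ℝ => ‖qaoaState J p γ β s‖ ^ 2 * Real.exp (-(r * tt (uvec i) s J)))
      (couplingLaw n) := fun r s =>
    integrable_weight (fun J => qaoaState J p γ β) (uvec i) (fun s => measurable_qaoaState p γ β s)
      (fun J => norm_qaoaState J p γ β) r s
  have e1 : ∫ J : Pair n → ℝ, (∑ s, ‖qaoaState J p γ β s‖ ^ 2 *
      (2 * (Real.exp (-(1 * tt (uvec i) s J)) + Real.exp (-(-1 * tt (uvec i) s J)))))
      ∂(couplingLaw n)
      = 2 * (Emom (fun J : Pair n → ℝ => qaoaState J p γ β) (uvec i) 1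
        + Emom (fun J : Pair n → ℝ => qaoaState J p γ β) (uvec i) (-1)) := by
    have hEm : ∀ r : ℝ, Emom (fun J : Pair n → ℝ => qaoaState J p γ β) (uvec i) r
        = ∫ J : Pair n → ℝ, (∑ s, ‖qaoaState J p γ β s‖ ^ 2 * Real.exp (-(r * tt (uvec i) s J)))
          ∂(couplingLaw n) := fun r => rfl
    rw [hEm, hEm, ← integral_add (integrable_finsetSum _ fun s _ => iw 1 s)
      (integrable_finsetSum _ fun s _ => iw (-1) s), ← integral_const_mul]
    refine integral_congr_ae (Eventually.of_forall fun J => ?_)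
    simp only
    rw [← sum_add_distrib, mul_sum]
    refine sum_congr rfl fun s _ => ?_
    ring
  rw [e1]
  have h1 := hE 1
  have h2 := hE (-1)
  rw [abs_one, mul_one] at h1
  rw [abs_neg, abs_one, mul_one] at h2
  have h3 : (1 : ℝ) ^ 2 / 2 = 1 / 2 := by norm_num
  have h4 : (-1 : ℝ) ^ 2 / 2 = 1 / 2 := by norm_num
  rw [h3] at h1
  rw [h4] at h2
  linarith only [h1, h2]

lemma exp_second_order (θ : ℝ) :
    ‖Complex.exp (-(Complex.I * (θ : ℂ))) - 1 + Complex.I * θ‖ ≤ 3 * θ ^ 2 := by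
  have hn : ‖-(Complex.I * (θ : ℂ))‖ = |θ| := by
    rw [norm_neg, norm_mul, Complex.norm_I, one_mul, Complex.norm_real, Real.norm_eq_abs]
  rcases le_total |θ| 1 with h | h
  · have h1 := Complex.norm_exp_sub_one_sub_id_le (x := -(Complex.I * (θ : ℂ))) (by rw [hn]; exact h)
    rw [hn, sq_abs] at h1
    rw [sub_neg_eq_add] at h1
    have : 0 ≤ θ ^ 2 := sq_nonneg θ
    linarith
  · have h1 : ‖Complex.exp (-(Complex.I * (θ : ℂ))) - 1 + Complex.I * θ‖ ≤ 1 + 1 + |θ| := by
      refine (norm_add_le _ _).trans ?_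
      have h2 : ‖Complex.exp (-(Complex.I * (θ : ℂ))) - 1‖ ≤ 1 + 1 := by
        refine (norm_sub_le _ _).trans ?_
        rw [norm_exp_neg_I, norm_one]
      have h3 : ‖Complex.I * (θ : ℂ)‖ = |θ| := by
        rw [norm_mul, Complex.norm_I, one_mul, Complex.norm_real, Real.norm_eq_abs]
      rw [h3]
      linarith
    have h2 : θ ^ 2 = |θ| * |θ| := by rw [← sq_abs, sq]
    rw [h2]
    nlinarith only [h, h1]

/-- the mean is determined by the characteristic function, uniformly in `n` -/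
lemma char_mean (hn0 : 0 < n) (p : ℕ) (γ β : Fin p → ℝ) (ξ : ℝ) :
    ‖(∫ x, Complex.exp (-(Complex.I * ξ * x)) ∂(alf n p γ β)) - 1
      + Complex.I * ξ * (amean n p γ β : ℂ)‖
      ≤ 12 * Real.exp (1 / 2 + 2 * ∑ k, |γ k|) * ξ ^ 2 := by
  have hnr : (0 : ℝ) < n := by exact_mod_cast hn0
  have hcont : Continuous fun x : ℝ => Complex.exp (-(Complex.I * ξ * x)) := by fun_prop
  have hb : ∀ x : ℝ, ‖Complex.exp (-(Complex.I * ξ * x))‖ ≤ 1 := by
    intro x
    have : -(Complex.I * (ξ : ℂ) * (x : ℂ)) = -(Complex.I * ((ξ * x : ℝ) : ℂ)) := by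
      push_cast; ring
    rw [this, norm_exp_neg_I]
  have h := integral_alf (n := n) p γ β (fun x : ℝ => Complex.exp (-(Complex.I * ξ * x)))
    hcont.stronglyMeasurable 1 hb
  rw [h]
  have i1 : ∀ (i : Fin n) (s : Conf n), Integrable (fun J : Pair n → ℝ =>
      (‖qaoaState J p γ β s‖ ^ 2) • Complex.exp (-(Complex.I * ξ * ((tt (uvec i) s J : ℝ) : ℂ))))
      (couplingLaw n) := fun i s =>
    integrable_alf1_term p γ β i s (fun x : ℝ => Complex.exp (-(Complex.I * ξ * x)))
      hcont.stronglyMeasurable 1 hb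
  have i2 : ∀ (i : Fin n) (s : Conf n), Integrable (fun J : Pair n → ℝ =>
      ((‖qaoaState J p γ β s‖ ^ 2 * tt (uvec i) s J : ℝ) : ℂ)) (couplingLaw n) := fun i s =>
    (integrable_tt_w p γ β i s).ofReal
  have key : ∀ i : Fin n, ‖(∫ J, (∑ s, (‖qaoaState J p γ β s‖ ^ 2) •
      Complex.exp (-(Complex.I * ξ * ((tt (uvec i) s J : ℝ) : ℂ)))) ∂(couplingLaw n)) - 1
      + Complex.I * ξ * ((∫ J : Pair n → ℝ, (∑ s, ‖qaoaState J p γ β s‖ ^ 2 * tt (uvec i) s J)
        ∂(couplingLaw n) : ℝ) : ℂ)‖ ≤ 12 * Real.exp (1 / 2 + 2 * ∑ k, |γ k|) * ξ ^ 2 := by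
    intro i
    have e1 : (∫ J, (∑ s, (‖qaoaState J p γ β s‖ ^ 2) •
        Complex.exp (-(Complex.I * ξ * ((tt (uvec i) s J : ℝ) : ℂ)))) ∂(couplingLaw n)) - 1
        + Complex.I * ξ * ((∫ J : Pair n → ℝ, (∑ s, ‖qaoaState J p γ β s‖ ^ 2 * tt (uvec i) s J)
        ∂(couplingLaw n) : ℝ) : ℂ)
        = ∫ J, (∑ s, (‖qaoaState J p γ β s‖ ^ 2 : ℝ) •
          (Complex.exp (-(Complex.I * ((ξ * tt (uvec i) s J : ℝ) : ℂ))) - 1
            + Complex.I * ((ξ * tt (uvec i) s J : ℝ) : ℂ))) ∂(couplingLaw n) := by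
      rw [← integral_complex_ofReal]
      have e2 : (1 : ℂ) = ∫ _ : Pair n → ℝ, (1 : ℂ) ∂(couplingLaw n) := by simp only [integral_const, probReal_univ, one_smul]
      conv_lhs => rw [e2]
      rw [← integral_sub (integrable_finsetSum _ fun s _ => i1 i s) (integrable_const _),
        ← integral_const_mul, ← integral_add]
      · refine integral_congr_ae (Eventually.of_forall fun J => ?_)
        simp only
        have e3 : (1 : ℂ) = ∑ s, ((‖qaoaState J p γ β s‖ ^ 2 : ℝ) : ℂ) := by
          rw [← Complex.ofReal_sum, sum_state_sq, Complex.ofReal_one]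
        conv_lhs => rw [e3]
        push_cast
        rw [← sum_sub_distrib, mul_sum, ← sum_add_distrib]
        refine sum_congr rfl fun s _ => ?_
        rw [Complex.real_smul, Complex.real_smul]
        push_cast
        have e4 : -(Complex.I * (ξ : ℂ) * ((tt (uvec i) s J : ℝ) : ℂ))
            = -(Complex.I * ((ξ : ℂ) * ((tt (uvec i) s J : ℝ) : ℂ))) := by ring
        rw [e4]
        ring
      · exact (integrable_finsetSum _ fun s _ => i1 i s).sub (integrable_const _)
      · refine Integrable.const_mul ?_ _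
        have := integrable_finsetSum (univ : Finset (Conf n)) fun s _ => i2 i s
        refine this.congr (Eventually.of_forall fun J => ?_)
        simp only
        push_cast
        rfl
    rw [e1]
    refine (norm_integral_le_integral_norm _).trans ?_
    have h2 := second_moment hn0 p γ β i
    have iw : ∀ (r : ℝ) (s : Conf n), Integrable
        (fun J : Pair n → ℝ => ‖qaoaState J p γ β s‖ ^ 2 * Real.exp (-(r * tt (uvec i) s J)))
        (couplingLaw n) := fun r s =>
      integrable_weight (fun J => qaoaState J p γ β) (uvec i)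
        (fun s => measurable_qaoaState p γ β s) (fun J => norm_qaoaState J p γ β) r s
    have iq : Integrable (fun J : Pair n → ℝ => 3 * ξ ^ 2 * (∑ s, ‖qaoaState J p γ β s‖ ^ 2 *
      (2 * (Real.exp (-(1 * tt (uvec i) s J)) + Real.exp (-(-1 * tt (uvec i) s J))))))
      (couplingLaw n) := by
      refine Integrable.const_mul (integrable_finsetSum _ fun s _ => ?_) _
      have := ((iw 1 s).add (iw (-1) s)).const_mul 2
      refine this.congr (Eventually.of_forall fun J => ?_)
      simp only [Pi.add_apply]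
      ring
    calc ∫ J, ‖∑ s, (‖qaoaState J p γ β s‖ ^ 2 : ℝ) •
          (Complex.exp (-(Complex.I * ((ξ * tt (uvec i) s J : ℝ) : ℂ))) - 1
            + Complex.I * ((ξ * tt (uvec i) s J : ℝ) : ℂ))‖ ∂(couplingLaw n)
        ≤ ∫ J, 3 * ξ ^ 2 * (∑ s, ‖qaoaState J p γ β s‖ ^ 2 *
          (2 * (Real.exp (-(1 * tt (uvec i) s J)) + Real.exp (-(-1 * tt (uvec i) s J)))))
          ∂(couplingLaw n) := by
          refine integral_mono_of_nonneg (Eventually.of_forall fun J => norm_nonneg _) iq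
            (Eventually.of_forall fun J => ?_)
          simp only
          refine (norm_sum_le _ _).trans ?_
          rw [mul_sum]
          refine sum_le_sum fun s _ => ?_
          rw [norm_smul, Real.norm_eq_abs, abs_of_nonneg (by (clear * -; positivity))]
          have h3 := exp_second_order (ξ * tt (uvec i) s J)
          have h4 := sq_le_exp (tt (uvec i) s J)
          calc ‖qaoaState J p γ β s‖ ^ 2 *
                ‖Complex.exp (-(Complex.I * ((ξ * tt (uvec i) s J : ℝ) : ℂ))) - 1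
                  + Complex.I * ((ξ * tt (uvec i) s J : ℝ) : ℂ)‖
              ≤ ‖qaoaState J p γ β s‖ ^ 2 * (3 * (ξ * tt (uvec i) s J) ^ 2) :=
                mul_le_mul_of_nonneg_left h3 (by (clear * -; positivity))
            _ = 3 * ξ ^ 2 * (‖qaoaState J p γ β s‖ ^ 2 * (tt (uvec i) s J) ^ 2) := by ring
            _ ≤ _ := by
                refine mul_le_mul_of_nonneg_left ?_ (by (clear * -; positivity))
                exact mul_le_mul_of_nonneg_left h4 (by (clear * -; positivity))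
      _ = 3 * ξ ^ 2 * ∫ J, (∑ s, ‖qaoaState J p γ β s‖ ^ 2 *
          (2 * (Real.exp (-(1 * tt (uvec i) s J)) + Real.exp (-(-1 * tt (uvec i) s J)))))
          ∂(couplingLaw n) := integral_const_mul _ _
      _ ≤ 3 * ξ ^ 2 * (4 * Real.exp (1 / 2 + 2 * ∑ k, |γ k|)) :=
          mul_le_mul_of_nonneg_left h2 (by (clear * -; positivity))
      _ = _ := by ring
  have e5 : ((n : ℝ)⁻¹ • ∑ i : Fin n, ∫ J, (∑ s, (‖qaoaState J p γ β s‖ ^ 2) •
      Complex.exp (-(Complex.I * ξ * ((tt (uvec i) s J : ℝ) : ℂ)))) ∂(couplingLaw n)) - 1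
      + Complex.I * ξ * (amean n p γ β : ℂ)
      = (n : ℝ)⁻¹ • ∑ i : Fin n, ((∫ J, (∑ s, (‖qaoaState J p γ β s‖ ^ 2) •
      Complex.exp (-(Complex.I * ξ * ((tt (uvec i) s J : ℝ) : ℂ)))) ∂(couplingLaw n)) - 1
      + Complex.I * ξ * ((∫ J : Pair n → ℝ, (∑ s, ‖qaoaState J p γ β s‖ ^ 2 * tt (uvec i) s J)
        ∂(couplingLaw n) : ℝ) : ℂ)) := by
    rw [sum_add_distrib, sum_sub_distrib, ← mul_sum]
    unfold amean
    simp only [Complex.real_smul, sum_const, card_univ, Fintype.card_fin, nsmul_eq_mul, mul_one]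
    push_cast
    have : (n : ℂ) ≠ 0 := by exact_mod_cast hn0.ne'
    field_simp
  rw [e5, norm_smul, norm_inv, Real.norm_natCast]
  calc (n : ℝ)⁻¹ * ‖∑ i : Fin n, ((∫ J, (∑ s, (‖qaoaState J p γ β s‖ ^ 2) •
      Complex.exp (-(Complex.I * ξ * ((tt (uvec i) s J : ℝ) : ℂ)))) ∂(couplingLaw n)) - 1
      + Complex.I * ξ * ((∫ J : Pair n → ℝ, (∑ s, ‖qaoaState J p γ β s‖ ^ 2 * tt (uvec i) s J)
        ∂(couplingLaw n) : ℝ) : ℂ))‖
      ≤ (n : ℝ)⁻¹ * ∑ _i : Fin n, 12 * Real.exp (1 / 2 + 2 * ∑ k, |γ k|) * ξ ^ 2 := by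
        refine mul_le_mul_of_nonneg_left ?_ (by positivity)
        exact (norm_sum_le _ _).trans (sum_le_sum fun i _ => key i)
    _ = _ := by
        rw [sum_const, card_univ, Fintype.card_fin, nsmul_eq_mul, ← mul_assoc,
          inv_mul_cancel₀ hnr.ne', one_mul]

end Vale.Agent.P367.Lim
end
end

section

section

namespace Vale.Agent.P367.Lim

open Finset ComplexConjugate MeasureTheory ProbabilityTheory Filter Topology ENNReal
  Vale.Agent.P367.Gap

/-- The infinite-size value exists. -/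
theorem qaoaValue_tendsto (p : ℕ) (γ β : Fin p → ℝ) :
    ∃ v : ℝ, Tendsto (fun n : ℕ => qaoaValue n p γ β) atTop (𝓝 v) := by
  set K : ℝ := 12 * Real.exp (1 / 2 + 2 * ∑ k, |γ k|) with hK
  have hK0 : 0 < K := by positivity
  have hch : ∀ (m : ℕ) (ξ : ℝ), ‖(∫ x, Complex.exp (-(Complex.I * ξ * x)) ∂(alf (m + 1) p γ β)) - 1
      + Complex.I * ξ * (amean (m + 1) p γ β : ℂ)‖ ≤ K * ξ ^ 2 := fun m ξ =>
    char_mean (Nat.succ_pos m) p γ β ξ
  have hC : CauchySeq (fun m : ℕ => amean (m + 1) p γ β) := by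
    rw [Metric.cauchySeq_iff]
    intro ε hε
    set ξ : ℝ := ε / (8 * K) with hξ
    have hξ0 : 0 < ξ := by positivity
    have hcs := (tendsto_char_alf p γ β ξ).cauchySeq
    rw [Metric.cauchySeq_iff] at hcs
    obtain ⟨N, hN⟩ := hcs (ξ * ε / 2) (by positivity)
    refine ⟨N, fun m hm m' hm' => ?_⟩
    have h1 := hN m hm m' hm'
    rw [dist_eq_norm] at h1
    have h2 := hch m ξ
    have h3 := hch m' ξ
    set A := ∫ x, Complex.exp (-(Complex.I * ξ * x)) ∂(alf (m + 1) p γ β) with hA
    set A' := ∫ x, Complex.exp (-(Complex.I * ξ * x)) ∂(alf (m' + 1) p γ β) with hA'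
    have h4 : Complex.I * ξ * ((amean (m + 1) p γ β - amean (m' + 1) p γ β : ℝ) : ℂ)
        = (A - 1 + Complex.I * ξ * (amean (m + 1) p γ β : ℂ))
          - (A' - 1 + Complex.I * ξ * (amean (m' + 1) p γ β : ℂ)) - (A - A') := by
      push_cast
      ring
    have h5 : ‖Complex.I * ξ * ((amean (m + 1) p γ β - amean (m' + 1) p γ β : ℝ) : ℂ)‖
        = ξ * |amean (m + 1) p γ β - amean (m' + 1) p γ β| := by
      rw [norm_mul, norm_mul, Complex.norm_I, one_mul, Complex.norm_real, Complex.norm_real,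
        Real.norm_eq_abs, Real.norm_eq_abs, abs_of_pos hξ0]
    have h6 : ξ * |amean (m + 1) p γ β - amean (m' + 1) p γ β| < ξ * ε := by
      rw [← h5, h4]
      calc ‖(A - 1 + Complex.I * ξ * (amean (m + 1) p γ β : ℂ))
          - (A' - 1 + Complex.I * ξ * (amean (m' + 1) p γ β : ℂ)) - (A - A')‖
          ≤ K * ξ ^ 2 + K * ξ ^ 2 + ‖A - A'‖ := by
            refine (norm_sub_le _ _).trans ?_
            gcongr
            exact (norm_sub_le _ _).trans (add_le_add h2 h3)
        _ < K * ξ ^ 2 + K * ξ ^ 2 + ξ * ε / 2 := by linarith only [h1]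
        _ ≤ ξ * ε := by
            have h7 : K * ξ = ε / 8 := by
              rw [hξ]; field_simp
            have h8 : K * ξ ^ 2 = ξ * ε / 8 := by
              calc K * ξ ^ 2 = (K * ξ) * ξ := by ring
                _ = ξ * ε / 8 := by rw [h7]; ring
            rw [h8]
            have : 0 < ξ * ε := by positivity
            linarith only [this]
    rw [Real.dist_eq]
    exact lt_of_mul_lt_mul_left h6 hξ0.le
  obtain ⟨a, ha⟩ := cauchySeq_tendsto_of_complete hC
  refine ⟨1 / 2 * a, ?_⟩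
  rw [← tendsto_add_atTop_iff_nat 1]
  have h := ha.const_mul (1 / 2)
  refine h.congr fun m => ?_
  exact (qaoaValue_eq_amean (m + 1) p γ β).symm

end Vale.Agent.P367.Lim
end
end

section

section

open MeasureTheory Filter Topology Finset Complex

namespace Vale.Agent.P367.Fin

/-- One term of the profile. -/
noncomputable def tm (r : ℝ) (c μ : ℂ) (x : ℝ) : ℂ :=
  c * cexp ((I * x - μ) ^ 2 / (2 * (1 + (r : ℂ))))

lemma prof_eq {N : ℕ} (m : ℝ) (c μ : Fin N → ℂ) (x : ℝ) :
    prof m c μ x = ∑ k, tm ((m ^ 2)⁻¹) (c k) (μ k) x := rfl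

lemma tm_shift (r : ℝ) (hr : 0 ≤ r) (c μ : ℂ) (x0 : ℝ) (v : ℕ) :
    tm r c μ x0 * (cexp (20 * I * μ / (1 + (r : ℂ)))) ^ v
      = ((Real.exp (((x0 - 20 * v) ^ 2 - x0 ^ 2) / (2 * (1 + r))) : ℝ) : ℂ)
        * tm r c μ (x0 - 20 * v) := by
  unfold tm
  rw [← Complex.exp_nat_mul, Complex.ofReal_exp, mul_assoc, mul_left_comm (cexp _),
    ← Complex.exp_add, ← Complex.exp_add]
  congr 2
  have h1 : (1 + (r : ℂ)) ≠ 0 := by
    have : (1 + r : ℝ) ≠ 0 := by positivity
    exact_mod_cast this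
  push_cast
  field_simp
  ring_nf
  simp only [Complex.I_sq]
  ring

lemma bump_far (m x0 x : ℝ) (h : 7 ≤ |x - x0|) : bump m x0 x ≤ Real.exp (-(24 * m ^ 2)) := by
  unfold bump
  apply Real.exp_le_exp.mpr
  have h1 : (7 : ℝ) ^ 2 ≤ (x - x0) ^ 2 := by
    rw [← sq_abs (x - x0)]
    exact pow_le_pow_left₀ (by norm_num) h 2
  have h2 : 0 ≤ m ^ 2 := sq_nonneg m
  nlinarith

lemma bump_integrable (ρ : Measure ℝ) [IsProbabilityMeasure ρ] (m x0 : ℝ) :
    Integrable (bump m x0) ρ := by
  refine (integrable_const (1 : ℝ)).mono' (continuous_bump m x0).aestronglyMeasurable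
    (Filter.Eventually.of_forall fun x => ?_)
  rw [Real.norm_eq_abs, abs_of_nonneg (bump_nonneg _ _ _)]
  exact bump_le_one _ _ _

/-- The grid. -/
noncomputable def gr (m : ℕ) (j : ℕ) : ℝ := -12 + (j : ℝ) / m

lemma gr_mem (m : ℕ) (hm : 0 < m) (j : ℕ) (hj : j ∈ Finset.range (24 * m + 1)) :
    -12 ≤ gr m j ∧ gr m j ≤ 12 := by
  have hm0 : (0 : ℝ) < m := by exact_mod_cast hm
  have hj1 : (j : ℝ) ≤ 24 * m := by
    exact_mod_cast Nat.lt_succ_iff.mp (Finset.mem_range.mp hj)
  have h1 : 0 ≤ (j : ℝ) / m := by (clear * - hm; positivity)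
  have h2 : (j : ℝ) / m ≤ 24 := (div_le_iff₀ hm0).mpr hj1
  unfold gr
  constructor <;> linarith only [h1, h2]

lemma exp_half_lower : (0.6 : ℝ) ≤ Real.exp (-(1 / 2)) := by
  have h5 : (Real.exp (-(1 / 2))) ^ 2 = (Real.exp 1)⁻¹ := by
    rw [← Real.exp_nat_mul, ← Real.exp_neg]
    norm_num
  have h6 := Real.exp_one_lt_d9
  have h7 : (0.36 : ℝ) ≤ (Real.exp 1)⁻¹ := by
    rw [le_inv_comm₀ (by norm_num) (Real.exp_pos 1)]
    norm_num
    linarith
  have h8 : (0.6 : ℝ) ^ 2 ≤ (Real.exp (-(1 / 2))) ^ 2 := by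
    rw [h5]; norm_num; linarith only [h7]
  exact le_of_sq_le_sq h8 (Real.exp_pos _).le

lemma grid_lower (m : ℕ) (hm : 0 < m) (ρ : Measure ℝ) [IsProbabilityMeasure ρ]
    (h : 1 / 2 ≤ ρ.real (Set.Icc (-12) 12)) :
    0.3 ≤ ∑ j ∈ Finset.range (24 * m + 1), ∫ x, bump m (gr m j) x ∂ρ := by
  have hm0 : (0 : ℝ) < m := by exact_mod_cast hm
  rw [← integral_finsetSum _ (fun j _ => bump_integrable ρ m (gr m j))]
  have h1 : ∀ x, (Set.Icc (-12 : ℝ) 12).indicator (fun _ => Real.exp (-(1 / 2))) x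
      ≤ ∑ j ∈ Finset.range (24 * m + 1), bump m (gr m j) x := by
    intro x
    by_cases hx : x ∈ Set.Icc (-12 : ℝ) 12
    · rw [Set.indicator_of_mem hx]
      obtain ⟨hx1, hx2⟩ := hx
      obtain ⟨j, hj⟩ : ∃ j : ℕ, j = ⌊(x + 12) * m⌋₊ := ⟨_, rfl⟩
      have hj0 : 0 ≤ (x + 12) * m := mul_nonneg (by linarith only [hx1]) hm0.le
      have hj1 : (j : ℝ) ≤ (x + 12) * m := by rw [hj]; exact Nat.floor_le hj0
      have hj2 : (x + 12) * m < j + 1 := by rw [hj]; exact Nat.lt_floor_add_one _
      have hjr : j ∈ Finset.range (24 * m + 1) := by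
        rw [Finset.mem_range, Nat.lt_succ_iff]
        have h2 : (j : ℝ) ≤ 24 * m := by
          calc (j : ℝ) ≤ (x + 12) * m := hj1
            _ ≤ 24 * m := mul_le_mul_of_nonneg_right (by linarith only [hx2]) hm0.le
        exact_mod_cast h2
      have hb : Real.exp (-(1 / 2)) ≤ bump m (gr m j) x := by
        unfold bump
        apply Real.exp_le_exp.mpr
        have e1 : m * (x - gr m j) = (x + 12) * m - j := by
          unfold gr
          field_simp
          ring
        have e2 : (m : ℝ) ^ 2 * (x - gr m j) ^ 2 = ((x + 12) * m - j) ^ 2 := by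
          rw [← mul_pow, e1]
        rw [e2]
        have e3 : ((x + 12) * m - j) ^ 2 ≤ 1 := by
          have a1 : 0 ≤ (x + 12) * m - j := by linarith only [hj1]
          have a2 : (x + 12) * m - j ≤ 1 := by linarith only [hj2]
          nlinarith only [hj2, hj1]
        linarith only [e3]
      refine le_trans hb ?_
      exact Finset.single_le_sum (f := fun j => bump m (gr m j) x)
        (fun i _ => bump_nonneg _ _ _) hjr
    · rw [Set.indicator_of_notMem hx]
      exact Finset.sum_nonneg fun j _ => bump_nonneg _ _ _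
  have h3 : ∫ x, (Set.Icc (-12 : ℝ) 12).indicator (fun _ => Real.exp (-(1 / 2))) x ∂ρ
      ≤ ∫ x, ∑ j ∈ Finset.range (24 * m + 1), bump m (gr m j) x ∂ρ := by
    apply integral_mono
    · exact (integrable_const _).indicator measurableSet_Icc
    · exact integrable_finsetSum _ fun j _ => bump_integrable ρ m (gr m j)
    · exact h1
  rw [integral_indicator measurableSet_Icc, setIntegral_const, smul_eq_mul] at h3
  have h9 : (0.3 : ℝ) ≤ ρ.real (Set.Icc (-12) 12) * Real.exp (-(1 / 2)) := by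
    calc (0.3 : ℝ) = 1 / 2 * 0.6 := by norm_num
      _ ≤ _ := mul_le_mul h exp_half_lower (by norm_num) measureReal_nonneg
  linarith only [h3, h9]

lemma bump_left (m x0 : ℝ) (hx0 : x0 ≤ -8) (ρ : Measure ℝ) [IsProbabilityMeasure ρ] :
    ∫ x, bump m x0 x ∂ρ ≤ ρ.real (Set.Iio (-1)) + Real.exp (-(24 * m ^ 2)) := by
  have h2 : ∀ x, bump m x0 x ≤ (Set.Iio (-1 : ℝ)).indicator (fun _ => (1 : ℝ)) x
      + Real.exp (-(24 * m ^ 2)) := by
    intro x
    by_cases hx : x < -1
    · rw [Set.indicator_of_mem (Set.mem_Iio.mpr hx)]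
      have := bump_le_one m x0 x
      have := Real.exp_pos (-(24 * m ^ 2))
      linarith
    · rw [Set.indicator_of_notMem (by simpa only [Set.mem_Iio, not_lt] using hx), zero_add]
      apply bump_far
      rw [not_lt] at hx
      rw [abs_of_nonneg (by linarith only [hx0, hx])]
      linarith
  calc ∫ x, bump m x0 x ∂ρ
      ≤ ∫ x, ((Set.Iio (-1 : ℝ)).indicator (fun _ => (1 : ℝ)) x
        + Real.exp (-(24 * m ^ 2))) ∂ρ := by
        apply integral_mono (bump_integrable ρ m x0)
        · exact ((integrable_const (1 : ℝ)).indicator measurableSet_Iio).add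
            (integrable_const _)
        · exact h2
    _ = _ := by
        rw [integral_add ((integrable_const (1 : ℝ)).indicator measurableSet_Iio)
          (integrable_const _), integral_indicator measurableSet_Iio]
        simp

/-- Deterministic part: extrapolation of the profile from far left. -/
lemma prof_extrap (N : ℕ) (c μ : Fin N → ℂ) (hc : ∀ k, ‖c k‖ * Real.exp ((μ k).re ^ 2 / 2) ≤ 1)
    (m M : ℝ) (hM : M = (N : ℝ) + 1) (hm1 : 1 ≤ m) (hs : ℝ) (hs0 : 0 ≤ hs)
    (hup : ∀ x0 : ℝ, x0 ≤ -8 → ‖prof m c μ x0‖ ≤ hs) (x0 : ℝ) (h1x : -12 ≤ x0) (h2x : x0 ≤ 12) :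
    ‖prof m c μ x0‖ ≤ Real.exp (8401 * M ^ 2) * (Real.exp ((20 * M) ^ 2 / 2)
      * (hs + N * Real.exp (-(40000 * M ^ 2)))) + N * Real.exp (-(40000 * M ^ 2)) := by
  have hN0 : (0 : ℝ) ≤ N := Nat.cast_nonneg N
  have hM1 : 1 ≤ M := by rw [hM]; linarith
  have hNM : (N : ℝ) ≤ M := by rw [hM]; linarith only []
  obtain ⟨r, hr⟩ : ∃ r : ℝ, r = (m ^ 2)⁻¹ := ⟨_, rfl⟩
  have hr0 : 0 ≤ r := by rw [hr]; positivity
  have hr1 : r ≤ 1 := by
    rw [hr]
    apply inv_le_one_of_one_le₀
    nlinarith only [hm1]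
  obtain ⟨L, hL⟩ : ∃ L : ℝ, L = 20 * M := ⟨_, rfl⟩
  obtain ⟨K, hK⟩ : ∃ K : ℝ, K = 420 * M := ⟨_, rfl⟩
  obtain ⟨η, hη⟩ : ∃ η : ℝ, η = N * Real.exp (-(40000 * M ^ 2)) := ⟨_, rfl⟩
  rw [← hL, ← hη]
  have hη0 : 0 ≤ η := by rw [hη]; (clear * -; positivity)
  set S : Finset (Fin N) := univ.filter fun k => |(μ k).im| ≤ K with hS
  have hdrop : ∀ x : ℝ, |x| ≤ L → ‖∑ k ∈ Sᶜ, tm r (c k) (μ k) x‖ ≤ η := by
    intro x hx
    calc ‖∑ k ∈ Sᶜ, tm r (c k) (μ k) x‖ ≤ ∑ k ∈ Sᶜ, ‖tm r (c k) (μ k) x‖ := norm_sum_le _ _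
      _ ≤ ∑ _k ∈ Sᶜ, Real.exp (-(40000 * M ^ 2)) := by
          apply Finset.sum_le_sum
          intro k hk
          have hk' : K < |(μ k).im| := by
            rw [Finset.mem_compl, hS, Finset.mem_filter] at hk
            simpa only [mem_univ, true_and, not_le] using hk
          refine le_trans (term_bound (c k) (μ k) (hc k) r x hr0) ?_
          apply Real.exp_le_exp.mpr
          have h1 : 400 * M ≤ |x - (μ k).im| := by
            have := abs_sub_abs_le_abs_sub (μ k).im x
            rw [abs_sub_comm] at this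
            have h2 : K - L = 400 * M := by rw [hK, hL]; ring
            linarith only [hL, hK, hx, hk', this]
          have h2 : (400 * M) ^ 2 ≤ (x - (μ k).im) ^ 2 := by
            rw [← sq_abs (x - (μ k).im)]
            exact pow_le_pow_left₀ (by positivity) h1 2
          have h3 : 40000 * M ^ 2 ≤ (x - (μ k).im) ^ 2 / (2 * (1 + r)) := by
            rw [le_div_iff₀ (by positivity)]
            have : 40000 * M ^ 2 * (2 * (1 + r)) ≤ 40000 * M ^ 2 * (2 * (1 + 1)) := by
              apply mul_le_mul_of_nonneg_left _ (by positivity)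
              linarith only [hr1]
            linarith
          linarith only [h3]
      _ ≤ η := by
          rw [Finset.sum_const, nsmul_eq_mul, hη]
          apply mul_le_mul_of_nonneg_right _ (Real.exp_pos _).le
          have : (Sᶜ).card ≤ N := by
            simpa only [Fintype.card_fin] using Finset.card_le_univ (Sᶜ)
          exact_mod_cast this
  have hsplit : ∀ x : ℝ, prof m c μ x
      = ∑ k ∈ S, tm r (c k) (μ k) x + ∑ k ∈ Sᶜ, tm r (c k) (μ k) x := by
    intro x
    rw [prof_eq, Finset.sum_add_sum_compl, hr]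
  have hkeep : ∀ x : ℝ, |x| ≤ L → ‖∑ k ∈ S, tm r (c k) (μ k) x‖ ≤ ‖prof m c μ x‖ + η := by
    intro x hx
    have h1 : ∑ k ∈ S, tm r (c k) (μ k) x = prof m c μ x - ∑ k ∈ Sᶜ, tm r (c k) (μ k) x := by
      rw [hsplit]; ring
    rw [h1]
    exact (norm_sub_le _ _).trans (by have := hdrop x hx; linarith only [this])
  have hx0L : |x0| ≤ L := by
    rw [abs_le, hL]
    constructor <;> linarith only [hM, h1x, h2x]
  have hA0 : 0 ≤ Real.exp (L ^ 2 / 2) * (hs + η) := by (clear * - hs0 hη0; positivity)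
  have hrec := recur (Real.exp (20 * K)) (Real.exp_pos _).le S (fun k => tm r (c k) (μ k) x0)
    (fun k => cexp (20 * I * μ k / (1 + (r : ℂ)))) (Real.exp (L ^ 2 / 2) * (hs + η)) hA0
    (fun k _ => Complex.exp_ne_zero _)
    (by
      intro k hk
      rw [← Complex.exp_neg, Complex.norm_exp]
      apply Real.exp_le_exp.mpr
      have e1 : (-(20 * I * μ k / (1 + (r : ℂ)))).re = 20 * (μ k).im / (1 + r) := by
        have e2 : (1 + (r : ℂ)) = ((1 + r : ℝ) : ℂ) := by push_cast; ring
        rw [e2, Complex.neg_re, Complex.div_ofReal_re]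
        have e3 : (20 * I * μ k).re = -(20 * (μ k).im) := by
          simp [Complex.mul_re]
        rw [e3]
        ring
      rw [e1]
      have hk' : |(μ k).im| ≤ K := by
        rw [hS, Finset.mem_filter] at hk
        exact hk.2
      have h1 : (μ k).im ≤ K := le_trans (le_abs_self _) hk'
      rw [div_le_iff₀ (by (clear * - hr0; positivity))]
      have hK0 : 0 ≤ K := by rw [hK]; positivity
      nlinarith only [hr0, h1, hM, hK])
    (by
      intro v hv
      rw [Finset.mem_Icc] at hv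
      have hvN : v ≤ N := hv.2.trans (by simpa only [Fintype.card_fin] using Finset.card_le_univ S)
      have hvr : (v : ℝ) ≤ N := by exact_mod_cast hvN
      have hv1 : (1 : ℝ) ≤ v := by exact_mod_cast hv.1
      have hxv : |x0 - 20 * v| ≤ L := by
        rw [abs_le, hL, hM]
        constructor <;> linarith only [h1x, hvr, h2x]
      have hxv8 : x0 - 20 * v ≤ -8 := by linarith only [h2x, hv1]
      have e1 : ∑ k ∈ S, tm r (c k) (μ k) x0 * cexp (20 * I * μ k / (1 + (r : ℂ))) ^ v
          = ((Real.exp (((x0 - 20 * v) ^ 2 - x0 ^ 2) / (2 * (1 + r))) : ℝ) : ℂ)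
            * ∑ k ∈ S, tm r (c k) (μ k) (x0 - 20 * v) := by
        rw [Finset.mul_sum]
        apply Finset.sum_congr rfl
        intro k _
        exact tm_shift r hr0 (c k) (μ k) x0 v
      rw [e1, norm_mul, Complex.norm_real, Real.norm_eq_abs, abs_of_pos (Real.exp_pos _)]
      apply mul_le_mul
      · apply Real.exp_le_exp.mpr
        have h1 : (x0 - 20 * v) ^ 2 ≤ L ^ 2 := by
          rw [← sq_abs (x0 - 20 * v)]
          exact pow_le_pow_left₀ (abs_nonneg _) hxv 2
        calc ((x0 - 20 * v) ^ 2 - x0 ^ 2) / (2 * (1 + r)) ≤ L ^ 2 / (2 * (1 + r)) := by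
              apply div_le_div_of_nonneg_right _ (by (clear * - hr0; positivity))
              have := sq_nonneg x0
              linarith only [h1, this]
          _ ≤ L ^ 2 / 2 := by
              apply div_le_div_of_nonneg_left (by (clear * -; positivity)) (by norm_num)
              linarith only [hr0]
      · refine le_trans (hkeep _ hxv) ?_
        have := hup _ hxv8
        linarith only [this]
      · exact norm_nonneg _
      · positivity)
  have hRN : (1 + Real.exp (20 * K)) ^ S.card - 1 ≤ Real.exp (8401 * M ^ 2) := by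
    have hR0 : 0 < Real.exp (20 * K) := Real.exp_pos _
    have h1 : 1 + Real.exp (20 * K) ≤ Real.exp (20 * K + 1) := by
      rw [Real.exp_add]
      have h2 : (2 : ℝ) ≤ Real.exp 1 := by
        have := Real.exp_one_gt_d9
        linarith only [this]
      have h3 : (1 : ℝ) ≤ Real.exp (20 * K) := Real.one_le_exp (by rw [hK]; positivity)
      nlinarith only [h3, h2]
    have h2 : (1 + Real.exp (20 * K)) ^ S.card ≤ (1 + Real.exp (20 * K)) ^ N := by
      apply pow_le_pow_right₀
      · linarith only [hR0]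
      · simpa only [Fintype.card_fin] using Finset.card_le_univ S
    have h3 : (1 + Real.exp (20 * K)) ^ N ≤ Real.exp (20 * K + 1) ^ N := by
      apply pow_le_pow_left₀ _ h1
      linarith only [hR0]
    have h4 : Real.exp (20 * K + 1) ^ N ≤ Real.exp (8401 * M ^ 2) := by
      rw [← Real.exp_nat_mul]
      apply Real.exp_le_exp.mpr
      rw [hK]
      nlinarith only [hM]
    linarith only [h2, h3, h4]
  have hfin : ‖∑ k ∈ S, tm r (c k) (μ k) x0‖
      ≤ Real.exp (8401 * M ^ 2) * (Real.exp (L ^ 2 / 2) * (hs + η)) := by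
    refine le_trans hrec ?_
    exact mul_le_mul_of_nonneg_right hRN hA0
  rw [hsplit]
  refine (norm_add_le _ _).trans ?_
  have := hdrop x0 hx0L
  linarith only [hfin, this]

end Vale.Agent.P367.Fin
end
end

section

section

open MeasureTheory Filter Topology Finset Complex

namespace Vale.Agent.P367.Fin

lemma exp_small (a : ℝ) (ha : 10 ≤ a) (q : ℝ) (hq : 1 ≤ q) : Real.exp (-(a * q)) ≤ 0.001 := by
  have h1 : Real.exp (-(a * q)) ≤ Real.exp (-10) := by
    apply Real.exp_le_exp.mpr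
    nlinarith
  have h2 : Real.exp (-10) = (Real.exp 1)⁻¹ ^ 10 := by
    rw [← Real.exp_neg, ← Real.exp_nat_mul]
    norm_num
  have h3 : (Real.exp 1)⁻¹ ≤ 0.5 := by
    rw [inv_le_comm₀ (Real.exp_pos 1) (by norm_num)]
    have := Real.exp_one_gt_d9
    norm_num
    linarith only [this]
  have h4 : (Real.exp 1)⁻¹ ^ 10 ≤ (0.5 : ℝ) ^ 10 :=
    pow_le_pow_left₀ (by positivity) h3 10
  rw [h2] at h1
  have h5 : ((0.5 : ℝ) ^ 10) ≤ 0.001 := by norm_num
  linarith only [h1, h4]

lemma numeric (N : ℕ) (M : ℝ) (hM : M = (N : ℝ) + 1) :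
    Real.exp (8401 * M ^ 2) * (Real.exp ((20 * M) ^ 2 / 2)
      * (2 * (40 * M) * (Real.exp (-(9000 * M ^ 2)) + Real.exp (-(24 * (40 * M) ^ 2)))
        + N * Real.exp (-(40000 * M ^ 2)))) + N * Real.exp (-(40000 * M ^ 2)) < 0.012 := by
  have hN0 : (0 : ℝ) ≤ N := Nat.cast_nonneg N
  have hM1 : 1 ≤ M := by rw [hM]; linarith
  have hNM : (N : ℝ) ≤ M := by rw [hM]; linarith
  obtain ⟨q, hq⟩ : ∃ q : ℝ, q = M ^ 2 := ⟨_, rfl⟩
  have hMq : M ≤ q := by rw [hq]; nlinarith only [hM]
  have hq1 : 1 ≤ q := by linarith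
  have e1 : (20 * M) ^ 2 / 2 = 200 * q := by rw [hq]; ring
  have e2 : 24 * (40 * M) ^ 2 = 38400 * q := by rw [hq]; ring
  rw [e1, e2, ← hq]
  have hηs : N * Real.exp (-(40000 * q)) ≤ Real.exp (-(39999 * q)) := by
    have h1 : (N : ℝ) ≤ Real.exp q := by
      have := Real.add_one_le_exp q
      linarith only [hM, hMq, this]
    calc (N : ℝ) * Real.exp (-(40000 * q)) ≤ Real.exp q * Real.exp (-(40000 * q)) :=
          mul_le_mul_of_nonneg_right h1 (Real.exp_pos _).le
      _ = Real.exp (-(39999 * q)) := by rw [← Real.exp_add]; ring_nf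
  have h2m : 2 * (40 * M) ≤ Real.exp (80 * q) := by
    have := Real.add_one_le_exp (80 * q)
    linarith only [hMq, this]
  have hhs : 2 * (40 * M) * (Real.exp (-(9000 * q)) + Real.exp (-(38400 * q)))
      ≤ Real.exp (-(8920 * q)) + Real.exp (-(38320 * q)) := by
    calc 2 * (40 * M) * (Real.exp (-(9000 * q)) + Real.exp (-(38400 * q)))
        ≤ Real.exp (80 * q) * (Real.exp (-(9000 * q)) + Real.exp (-(38400 * q))) :=
          mul_le_mul_of_nonneg_right h2m (by positivity)
      _ = _ := by rw [mul_add, ← Real.exp_add, ← Real.exp_add]; ring_nf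
  have hA : Real.exp (8401 * q) * (Real.exp (200 * q)
      * (2 * (40 * M) * (Real.exp (-(9000 * q)) + Real.exp (-(38400 * q)))
        + N * Real.exp (-(40000 * q)))) ≤ 0.003 := by
    calc Real.exp (8401 * q) * (Real.exp (200 * q)
      * (2 * (40 * M) * (Real.exp (-(9000 * q)) + Real.exp (-(38400 * q)))
        + N * Real.exp (-(40000 * q))))
        ≤ Real.exp (8401 * q) * (Real.exp (200 * q)
          * (Real.exp (-(8920 * q)) + Real.exp (-(38320 * q)) + Real.exp (-(39999 * q)))) := by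
          apply mul_le_mul_of_nonneg_left _ (Real.exp_pos _).le
          apply mul_le_mul_of_nonneg_left _ (Real.exp_pos _).le
          linarith only [hηs, hhs]
      _ = Real.exp (-(319 * q)) + Real.exp (-(29719 * q)) + Real.exp (-(31398 * q)) := by
          rw [mul_add, mul_add, mul_add, mul_add, ← Real.exp_add, ← Real.exp_add,
            ← Real.exp_add, ← Real.exp_add, ← Real.exp_add, ← Real.exp_add]
          ring_nf
      _ ≤ 0.003 := by
          have a1 := exp_small 319 (by norm_num) q hq1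
          have a2 := exp_small 29719 (by norm_num) q hq1
          have a3 := exp_small 31398 (by norm_num) q hq1
          linarith only [a1, a2, a3]
  have a4 := exp_small 39999 (by norm_num) q hq1
  linarith only [hηs, hA, a4]

/-- **Tail lemma.** If the characteristic functions converge to a Gaussian times a sum of `N`
exponentials with the indicated normalisation, and half of the mass stays in `[-12, 12]`, then a
definite mass stays in `(-∞, -1)`. -/
theorem tail_lower (N : ℕ) (ρ : ℕ → Measure ℝ) [∀ n, IsProbabilityMeasure (ρ n)]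
    (h12 : ∀ᶠ n in atTop, 1 / 2 ≤ (ρ n).real (Set.Icc (-12) 12))
    (c μ : Fin N → ℂ) (hc : ∀ k, ‖c k‖ * Real.exp ((μ k).re ^ 2 / 2) ≤ 1)
    (hφ : ∀ ξ : ℝ, Tendsto (fun n => ∫ x : ℝ, cexp (-(I * ξ * x)) ∂(ρ n)) atTop
      (𝓝 (cexp (-(ξ : ℂ) ^ 2 / 2) * ∑ k, c k * cexp (-(ξ * μ k))))) :
    ∀ᶠ n in atTop, Real.exp (-(9000 * ((N : ℝ) + 1) ^ 2)) ≤ (ρ n).real (Set.Iio (-1)) := by
  by_contra hcon
  rw [Filter.not_eventually] at hcon
  obtain ⟨M, hM⟩ : ∃ M : ℝ, M = (N : ℝ) + 1 := ⟨_, rfl⟩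
  rw [← hM] at hcon
  have hN0 : (0 : ℝ) ≤ N := Nat.cast_nonneg N
  have hM1 : 1 ≤ M := by rw [hM]; linarith
  obtain ⟨mN, hmN⟩ : ∃ mN : ℕ, mN = 40 * (N + 1) := ⟨_, rfl⟩
  have hmN0 : 0 < mN := by rw [hmN]; omega
  obtain ⟨m, hm⟩ : ∃ m : ℝ, m = 40 * M := ⟨_, rfl⟩
  have hmm : (mN : ℝ) = m := by rw [hmN, hm, hM]; push_cast; ring
  have hm1 : 1 ≤ m := by rw [hm]; linarith only [hM]
  have hm0 : 0 < m := by linarith only [hM, hm]
  have hlim : ∀ x0, Tendsto (fun n => Real.sqrt (1 + m ^ 2) * ∫ x, bump m x0 x ∂(ρ n)) atTop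
      (𝓝 ‖prof m c μ x0‖) := by
    intro x0
    have h := (bump_tendsto ρ c μ hφ m hm0 x0).norm
    refine h.congr fun n => ?_
    rw [Complex.norm_real, Real.norm_eq_abs, abs_of_nonneg]
    exact mul_nonneg (Real.sqrt_nonneg _) (integral_nonneg fun x => bump_nonneg _ _ _)
  have hsq1 : Real.sqrt (1 + m ^ 2) ≤ 2 * m := by
    rw [Real.sqrt_le_left (by positivity)]
    nlinarith only [hM, hm]
  have hsq2 : m ≤ Real.sqrt (1 + m ^ 2) := by
    apply Real.le_sqrt_of_sq_le
    linarith only []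
  obtain ⟨hs, hhs⟩ : ∃ hs : ℝ, hs = 2 * m * (Real.exp (-(9000 * M ^ 2))
    + Real.exp (-(24 * m ^ 2))) := ⟨_, rfl⟩
  have hs0 : 0 ≤ hs := by rw [hhs]; positivity
  have hup : ∀ x0 : ℝ, x0 ≤ -8 → ‖prof m c μ x0‖ ≤ hs := by
    intro x0 hx0
    have hfreq : ∃ᶠ n in atTop, Real.sqrt (1 + m ^ 2) * ∫ x, bump m x0 x ∂(ρ n) ≤ hs := by
      refine hcon.mono fun n hn => ?_
      rw [not_le] at hn
      have h1 := bump_left m x0 hx0 (ρ n)
      rw [hhs]
      apply mul_le_mul hsq1 _ (integral_nonneg fun x => bump_nonneg _ _ _) (by positivity)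
      linarith only [hn, h1]
    by_contra hc'
    rw [not_le] at hc'
    have hev := (hlim x0).eventually (lt_mem_nhds hc')
    obtain ⟨n, hn1, hn2⟩ := (hfreq.and_eventually hev).exists
    linarith only [hn1, hn2]
  obtain ⟨x0, hx0a, hx0b, hx0c⟩ : ∃ x0 : ℝ, -12 ≤ x0 ∧ x0 ≤ 12 ∧ 0.012 ≤ ‖prof m c μ x0‖ := by
    by_contra hne
    have hne' : ∀ x0 : ℝ, -12 ≤ x0 → x0 ≤ 12 → ‖prof m c μ x0‖ ≤ 0.012 := by
      intro x0 h1 h2
      by_contra h3
      exact hne ⟨x0, h1, h2, (not_le.mp h3).le⟩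
    have hsum : Tendsto (fun n => ∑ j ∈ Finset.range (24 * mN + 1),
        Real.sqrt (1 + m ^ 2) * ∫ x, bump m (gr mN j) x ∂(ρ n)) atTop
        (𝓝 (∑ j ∈ Finset.range (24 * mN + 1), ‖prof m c μ (gr mN j)‖)) :=
      tendsto_finsetSum _ fun j _ => hlim (gr mN j)
    have hlow : ∀ᶠ n in atTop, m * 0.3 ≤ ∑ j ∈ Finset.range (24 * mN + 1),
        Real.sqrt (1 + m ^ 2) * ∫ x, bump m (gr mN j) x ∂(ρ n) := by
      filter_upwards [h12] with n hn
      rw [← Finset.mul_sum]
      have h2 := grid_lower mN hmN0 (ρ n) hn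
      rw [hmm] at h2
      exact mul_le_mul hsq2 h2 (by norm_num) (Real.sqrt_nonneg _)
    have hlow2 : m * 0.3 ≤ ∑ j ∈ Finset.range (24 * mN + 1), ‖prof m c μ (gr mN j)‖ :=
      ge_of_tendsto hsum hlow
    have hup2 : ∑ j ∈ Finset.range (24 * mN + 1), ‖prof m c μ (gr mN j)‖
        ≤ ∑ j ∈ Finset.range (24 * mN + 1), (0.012 : ℝ) := by
      apply Finset.sum_le_sum
      intro j hj
      have := gr_mem mN hmN0 j hj
      exact hne' _ this.1 this.2
    rw [Finset.sum_const, card_range, nsmul_eq_mul] at hup2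
    push_cast at hup2
    rw [hmm] at hup2
    have : 40 ≤ m := by rw [hm]; linarith only [hM]
    linarith
  have hfinal := prof_extrap N c μ hc m M hM hm1 hs hs0 hup x0 hx0a hx0b
  have hnum := numeric N M hM
  rw [hhs, hm] at hfinal
  rw [hm] at hx0c
  linarith

end Vale.Agent.P367.Fin
end
end

section

section

open MeasureTheory ProbabilityTheory

namespace Vale.Agent.P367.GT

/-- One-dimensional Gaussian integration by parts. -/
lemma stein_one (g g' : ℝ → ℝ) (C : ℝ) (hd : ∀ x, HasDerivAt g (g' x) x)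
    (hg : ∀ x, |g x| ≤ C) (hg' : ∀ x, |g' x| ≤ C) :
    ∫ x, x * g x ∂(gaussianReal 0 1) = ∫ x, g' x ∂(gaussianReal 0 1) := by
  have hgm : Measurable g := (continuous_iff_continuousAt.mpr fun x => (hd x).continuousAt).measurable
  have hg'e : g' = deriv g := by funext x; exact (hd x).deriv.symm
  have hg'm : Measurable g' := by rw [hg'e]; exact measurable_deriv g
  have hC : 0 ≤ C := (abs_nonneg _).trans (hg 0)
  set φ : ℝ → ℝ := gaussianPDFReal 0 1 with hφ
  have hφd : ∀ x, HasDerivAt φ (-(x * φ x)) x := by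
    intro x
    have h1 : HasDerivAt (fun y : ℝ => -(y - 0) ^ 2 / (2 * ((1 : NNReal) : ℝ))) (-x) x := by
      have h2 : HasDerivAt (fun y : ℝ => -(y ^ 2) / 2) (-(2 * x) / 2) x := by
        have h0 := ((hasDerivAt_pow 2 x).neg).div_const (2 : ℝ)
        simpa only [Pi.neg_apply, Nat.cast_ofNat, Nat.add_one_sub_one, pow_one] using h0
      have h2' : (fun y : ℝ => -(y - 0) ^ 2 / (2 * ((1 : NNReal) : ℝ))) = fun y => -(y ^ 2) / 2 := by
        funext y
        simp
      rw [h2']
      have h2'' : -x = -(2 * x) / 2 := by ring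
      rw [h2'']
      exact h2
    have h3 := (h1.exp).const_mul ((Real.sqrt (2 * Real.pi * ((1 : NNReal) : ℝ)))⁻¹)
    have h4 : φ = fun y => (Real.sqrt (2 * Real.pi * ((1 : NNReal) : ℝ)))⁻¹
        * Real.exp (-(y - 0) ^ 2 / (2 * ((1 : NNReal) : ℝ))) := by
      funext y
      rw [hφ, gaussianPDFReal_def]
    have h5 : -(x * φ x) = (Real.sqrt (2 * Real.pi * ((1 : NNReal) : ℝ)))⁻¹
        * (Real.exp (-(x - 0) ^ 2 / (2 * ((1 : NNReal) : ℝ))) * -x) := by
      rw [h4]
      ring
    rw [h5, h4]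
    exact h3
  have hφi : Integrable φ := integrable_gaussianPDFReal 0 1
  have hxφ : Integrable (fun x => x * φ x) := by
    have h1 : Integrable (fun x : ℝ => x) (gaussianReal 0 1) :=
      (memLp_id_gaussianReal 1).integrable le_rfl
    rw [gaussianReal_of_var_ne_zero _ one_ne_zero] at h1
    have h2 := (integrable_withDensity_iff_integrable_smul'
      (measurable_gaussianPDF 0 1) (by
        refine Filter.Eventually.of_forall fun x => ?_
        exact gaussianPDF_lt_top)).mp h1
    refine h2.congr (Filter.Eventually.of_forall fun x => ?_)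
    simp only [smul_eq_mul, gaussianPDF, ENNReal.toReal_ofReal (gaussianPDFReal_nonneg 0 1 x)]
    ring
  have e1 : ∫ x, x * g x ∂(gaussianReal 0 1) = ∫ x, φ x * (x * g x) := by
    rw [integral_gaussianReal_eq_integral_smul one_ne_zero]
    rfl
  have e2 : ∫ x, g' x ∂(gaussianReal 0 1) = ∫ x, φ x * g' x := by
    rw [integral_gaussianReal_eq_integral_smul one_ne_zero]
    rfl
  have hmul : ∀ (u v : ℝ → ℝ), Integrable v → Measurable u → (∀ x, |u x| ≤ C) →
      Integrable (fun x => u x * v x) := by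
    intro u v hv hu hb
    refine hv.bdd_mul (c := C) hu.aestronglyMeasurable ?_
    exact Filter.Eventually.of_forall fun x => by
      rw [Real.norm_eq_abs]; exact hb x
  have key := integral_mul_deriv_eq_deriv_mul_of_integrable (u := g) (v := φ) (u' := g')
    (v' := fun x => -(x * φ x)) (fun x _ => hd x) (fun x _ => hφd x)
    (hmul g _ hxφ.neg hgm hg) (hmul g' _ hφi hg'm hg') (hmul g _ hφi hgm hg)
  rw [e1, e2]
  have h5 : ∫ x, φ x * (x * g x) = - ∫ x, g x * -(x * φ x) := by
    rw [← integral_neg]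
    congr 1
    funext x
    ring
  rw [h5, key, neg_neg]
  congr 1
  funext x
  ring

/-- The standard Gaussian measure. -/
noncomputable abbrev gM (ι : Type*) [Fintype ι] : Measure (ι → ℝ) :=
  Measure.pi fun _ : ι => gaussianReal 0 1

variable {ι : Type*} [DecidableEq ι]

lemma measurable_upd (e : ι) :
    Measurable (fun q : (ι → ℝ) × ℝ => Function.update q.1 e q.2) := by
  rw [measurable_pi_iff]
  intro i
  by_cases h : i = e
  · subst h
    simp only [Function.update_self]
    exact measurable_snd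
  · simp only [Function.update_of_ne h]
    exact (measurable_pi_apply i).comp measurable_fst

variable [Fintype ι]

/-- Resampling one coordinate. -/
lemma map_update (e : ι) :
    ((gM ι).prod (gaussianReal 0 1)).map (fun q : (ι → ℝ) × ℝ => Function.update q.1 e q.2)
      = gM ι := by
  symm
  apply Measure.pi_eq
  intro s hs
  rw [Measure.map_apply (measurable_upd e) (MeasurableSet.univ_pi hs)]
  have h1 : (fun q : (ι → ℝ) × ℝ => Function.update q.1 e q.2) ⁻¹' (Set.univ.pi s)
      = (Set.univ.pi (Function.update s e Set.univ)) ×ˢ (s e) := by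
    ext ⟨J, x⟩
    simp only [Set.mem_preimage, Set.mem_pi, Set.mem_univ, forall_true_left, Set.mem_prod]
    constructor
    · intro h
      refine ⟨fun i => ?_, ?_⟩
      · by_cases hi : i = e
        · subst hi; simp
        · have := h i
          simpa [Function.update_of_ne hi] using this
      · simpa using h e
    · rintro ⟨h, h'⟩ i
      by_cases hi : i = e
      · subst hi; simpa using h'
      · have := h i
        simpa [Function.update_of_ne hi] using this
  rw [h1, Measure.prod_prod, Measure.pi_pi]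
  rw [← Finset.prod_erase_mul _ _ (Finset.mem_univ e),
    ← Finset.prod_erase_mul (s := Finset.univ) (a := e) _ (Finset.mem_univ e)]
  simp only [Function.update_self, measure_univ, mul_one]
  congr 1
  apply Finset.prod_congr rfl
  intro i hi
  rw [Function.update_of_ne (Finset.ne_of_mem_erase hi)]

/-- Gaussian integration by parts in the coordinate `e`. -/
lemma stein_pi (e : ι) (G G' : (ι → ℝ) → ℝ) (C : ℝ) (hGm : Measurable G) (hG'm : Measurable G')
    (hd : ∀ J x, HasDerivAt (fun y => G (Function.update J e y)) (G' (Function.update J e x)) x)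
    (hG : ∀ J, |G J| ≤ C) (hG' : ∀ J, |G' J| ≤ C) :
    ∫ J, J e * G J ∂(gM ι) = ∫ J, G' J ∂(gM ι) := by
  have hJi : Integrable (fun J : ι → ℝ => J e) (gM ι) :=
    integrable_comp_eval (μ := fun _ : ι => gaussianReal 0 1) (i := e) (f := fun x => x)
      ((memLp_id_gaussianReal 1).integrable le_rfl)
  have hi1 : Integrable (fun J : ι → ℝ => J e * G J) (gM ι) := by
    have := hJi.bdd_mul (c := C) (f := G) hGm.aestronglyMeasurable
      (Filter.Eventually.of_forall fun J => by rw [Real.norm_eq_abs]; exact hG J)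
    refine this.congr (Filter.Eventually.of_forall fun J => ?_)
    simp only [mul_comm]
  have hi2 : Integrable G' (gM ι) := by
    refine Integrable.mono' (integrable_const C) hG'm.aestronglyMeasurable
      (Filter.Eventually.of_forall fun J => by rw [Real.norm_eq_abs]; exact hG' J)
  have hres : ∀ F : (ι → ℝ) → ℝ, Integrable F (gM ι) →
      ∫ J, F J ∂(gM ι) = ∫ J, ∫ x, F (Function.update J e x) ∂(gaussianReal 0 1) ∂(gM ι) := by
    intro F hF
    have hF' : Integrable F (((gM ι).prod (gaussianReal 0 1)).map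
        (fun q : (ι → ℝ) × ℝ => Function.update q.1 e q.2)) := by
      rw [map_update]; exact hF
    conv_lhs => rw [← map_update (ι := ι) e]
    rw [integral_map (measurable_upd e).aemeasurable hF'.aestronglyMeasurable]
    rw [integral_prod]
    exact (integrable_map_measure hF'.aestronglyMeasurable
      (measurable_upd e).aemeasurable).mp hF'
  rw [hres _ hi1, hres _ hi2]
  congr 1
  funext J
  have := stein_one (fun x => G (Function.update J e x)) (fun x => G' (Function.update J e x)) C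
    (hd J) (fun x => hG _) (fun x => hG' _)
  simpa only [Function.update_self] using this

end Vale.Agent.P367.GT
end
end

section

section

open MeasureTheory ProbabilityTheory

namespace Vale.Agent.P367.GT

variable {S ι : Type*} [Fintype S] [Nonempty S] [Fintype ι]

/-- linear form -/
noncomputable def zf (v : S → ι → ℝ) (J : ι → ℝ) (s : S) : ℝ := ∑ e, v s e * J e

/-- partition function -/
noncomputable def part (v : S → ι → ℝ) (J : ι → ℝ) : ℝ := ∑ s, Real.exp (zf v J s)

/-- Gibbs weights -/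
noncomputable def pp (v : S → ι → ℝ) (J : ι → ℝ) (s : S) : ℝ := Real.exp (zf v J s) / part v J

omit [Fintype S] [Nonempty S] in
lemma continuous_zf (v : S → ι → ℝ) (s : S) : Continuous fun J => zf v J s := by
  unfold zf; fun_prop

lemma part_pos (v : S → ι → ℝ) (J : ι → ℝ) : 0 < part v J :=
  Finset.sum_pos (fun _ _ => Real.exp_pos _) Finset.univ_nonempty

omit [Nonempty S] in
lemma continuous_part (v : S → ι → ℝ) : Continuous fun J => part v J := by
  unfold part
  exact continuous_finsetSum _ fun s _ => Real.continuous_exp.comp (continuous_zf v s)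

lemma continuous_pp (v : S → ι → ℝ) (s : S) : Continuous fun J => pp v J s := by
  unfold pp
  exact (Real.continuous_exp.comp (continuous_zf v s)).div (continuous_part v)
    fun J => (part_pos v J).ne'

lemma pp_nonneg (v : S → ι → ℝ) (J : ι → ℝ) (s : S) : 0 ≤ pp v J s :=
  div_nonneg (Real.exp_pos _).le (part_pos v J).le

lemma sum_pp (v : S → ι → ℝ) (J : ι → ℝ) : ∑ s, pp v J s = 1 := by
  unfold pp
  rw [← Finset.sum_div]
  exact div_self (part_pos v J).ne'

lemma pp_le_one (v : S → ι → ℝ) (J : ι → ℝ) (s : S) : pp v J s ≤ 1 := by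
  rw [← sum_pp v J]
  exact Finset.single_le_sum (fun t _ => pp_nonneg v J t) (Finset.mem_univ s)

lemma softmax_deriv (z : S → ℝ → ℝ) (z' : S → ℝ) (x : ℝ) (hz : ∀ s, HasDerivAt (z s) (z' s) x)
    (s : S) :
    HasDerivAt (fun y => Real.exp (z s y) / ∑ t, Real.exp (z t y))
      ((Real.exp (z s x) / ∑ t, Real.exp (z t x)) *
        (z' s - ∑ t, (Real.exp (z t x) / ∑ r, Real.exp (z r x)) * z' t)) x := by
  have h1 : HasDerivAt (fun y => Real.exp (z s y)) (Real.exp (z s x) * z' s) x := (hz s).exp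
  have h2 : HasDerivAt (fun y => ∑ t, Real.exp (z t y)) (∑ t, Real.exp (z t x) * z' t) x :=
    HasDerivAt.fun_sum fun t _ => (hz t).exp
  have hpos : 0 < ∑ t, Real.exp (z t x) :=
    Finset.sum_pos (fun _ _ => Real.exp_pos _) Finset.univ_nonempty
  have h3 := h1.div h2 hpos.ne'
  have h4 : (Real.exp (z s x) * z' s * (∑ t, Real.exp (z t x))
      - Real.exp (z s x) * (∑ t, Real.exp (z t x) * z' t)) / (∑ t, Real.exp (z t x)) ^ 2
      = (Real.exp (z s x) / ∑ t, Real.exp (z t x)) *
        (z' s - ∑ t, (Real.exp (z t x) / ∑ r, Real.exp (z r x)) * z' t) := by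
    have h5 : ∑ t, (Real.exp (z t x) / ∑ r, Real.exp (z r x)) * z' t
        = (∑ t, Real.exp (z t x) * z' t) / ∑ r, Real.exp (z r x) := by
      rw [Finset.sum_div]
      apply Finset.sum_congr rfl
      intro t _
      ring
    rw [h5]
    (clear hz h1 h2 hpos h3 h5; field_simp)
  rw [← h4]
  exact h3

lemma log_deriv (z : S → ℝ → ℝ) (z' : S → ℝ) (x : ℝ) (hz : ∀ s, HasDerivAt (z s) (z' s) x) :
    HasDerivAt (fun y => Real.log (∑ t, Real.exp (z t y)))
      (∑ t, (Real.exp (z t x) / ∑ r, Real.exp (z r x)) * z' t) x := by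
  have h2 : HasDerivAt (fun y => ∑ t, Real.exp (z t y)) (∑ t, Real.exp (z t x) * z' t) x :=
    HasDerivAt.fun_sum fun t _ => (hz t).exp
  have hpos : 0 < ∑ t, Real.exp (z t x) :=
    Finset.sum_pos (fun _ _ => Real.exp_pos _) Finset.univ_nonempty
  have h3 := h2.log hpos.ne'
  rw [Finset.sum_div] at h3
  refine h3.congr_deriv ?_
  apply Finset.sum_congr rfl
  intro t _
  ring

lemma integrable_coord (e : ι) : Integrable (fun J : ι → ℝ => J e) (gM ι) :=
  integrable_comp_eval (μ := fun _ : ι => gaussianReal 0 1) (i := e) (f := fun x => x)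
    ((memLp_id_gaussianReal 1).integrable le_rfl)

omit [Fintype S] [Nonempty S] in
lemma integrable_zf (v : S → ι → ℝ) (s : S) : Integrable (fun J => zf v J s) (gM ι) := by
  unfold zf
  exact integrable_finsetSum _ fun e _ => (integrable_coord e).const_mul _

/-- Integration by parts for Gibbs weights. -/
lemma ibp (v : S → ι → ℝ) (c : ι → ℝ) (s : S) :
    ∫ J, (∑ e, c e * J e) * pp v J s ∂(gM ι)
      = ∫ J, pp v J s * ((∑ e, c e * v s e) - ∑ t, pp v J t * ∑ e, c e * v t e) ∂(gM ι) := by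
  classical
  have hone : ∀ e, ∫ J, J e * pp v J s ∂(gM ι)
      = ∫ J, pp v J s * (v s e - ∑ t, pp v J t * v t e) ∂(gM ι) := by
    intro e
    have hcont : Continuous fun J => pp v J s * (v s e - ∑ t, pp v J t * v t e) := by
      refine (continuous_pp v s).mul (continuous_const.sub ?_)
      exact continuous_finsetSum _ fun t _ => (continuous_pp v t).mul continuous_const
    apply stein_pi e (fun J => pp v J s)
      (fun J => pp v J s * (v s e - ∑ t, pp v J t * v t e))
      (1 + |v s e| + ∑ t, |v t e|) (continuous_pp v s).measurable hcont.measurable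
    · intro J x
      have hz : ∀ t, HasDerivAt (fun y => zf v (Function.update J e y) t) (v t e) x := by
        intro t
        unfold zf
        have h1 : HasDerivAt (fun y => ∑ e', v t e' * Function.update J e y e')
            (∑ e', v t e' * (Pi.single e (1 : ℝ) : ι → ℝ) e') x := by
          apply HasDerivAt.fun_sum
          intro e' _
          exact ((hasDerivAt_pi.mp (hasDerivAt_update J e x)) e').const_mul _
        have h2 : ∑ e', v t e' * (Pi.single e (1 : ℝ) : ι → ℝ) e' = v t e := by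
          simp only [Pi.single_apply, mul_ite, mul_one, mul_zero, Finset.sum_ite_eq', Finset.mem_univ, ↓reduceIte]
        rw [h2] at h1
        exact h1
      exact softmax_deriv (fun t y => zf v (Function.update J e y) t) (fun t => v t e) x hz s
    · intro J
      rw [abs_of_nonneg (pp_nonneg v J s)]
      have := pp_le_one v J s
      have h2 := abs_nonneg (v s e)
      have h3 : 0 ≤ ∑ t, |v t e| := Finset.sum_nonneg fun t _ => abs_nonneg _
      linarith
    · intro J
      rw [abs_mul, abs_of_nonneg (pp_nonneg v J s)]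
      have h1 : |v s e - ∑ t, pp v J t * v t e| ≤ |v s e| + ∑ t, |v t e| := by
        refine (abs_sub _ _).trans ?_
        have h2 : |∑ t, pp v J t * v t e| ≤ ∑ t, |v t e| := by
          refine (Finset.abs_sum_le_sum_abs _ _).trans (Finset.sum_le_sum fun t _ => ?_)
          rw [abs_mul, abs_of_nonneg (pp_nonneg v J t)]
          exact mul_le_of_le_one_left (abs_nonneg _) (pp_le_one v J t)
        linarith
      have h3 := pp_le_one v J s
      have h4 := pp_nonneg v J s
      have h5 := abs_nonneg (v s e - ∑ t, pp v J t * v t e)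
      nlinarith only [h1, h3, h5]
  have hint1 : ∀ e, Integrable (fun J : ι → ℝ => J e * pp v J s) (gM ι) := by
    intro e
    have := (integrable_coord e).bdd_mul (c := 1) (f := fun J => pp v J s)
      (continuous_pp v s).measurable.aestronglyMeasurable
      (Filter.Eventually.of_forall fun J => by
        rw [Real.norm_eq_abs, abs_of_nonneg (pp_nonneg v J s)]; exact pp_le_one v J s)
    refine this.congr (Filter.Eventually.of_forall fun J => ?_)
    simp only [mul_comm]
  have hint2 : ∀ e, Integrable (fun J : ι → ℝ => pp v J s * (v s e - ∑ t, pp v J t * v t e))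
      (gM ι) := by
    intro e
    have hcont : Continuous fun J => pp v J s * (v s e - ∑ t, pp v J t * v t e) := by
      refine (continuous_pp v s).mul (continuous_const.sub ?_)
      exact continuous_finsetSum _ fun t _ => (continuous_pp v t).mul continuous_const
    refine Integrable.mono' (integrable_const (|v s e| + ∑ t, |v t e|))
      hcont.measurable.aestronglyMeasurable (Filter.Eventually.of_forall fun J => ?_)
    rw [Real.norm_eq_abs, abs_mul, abs_of_nonneg (pp_nonneg v J s)]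
    have h1 : |v s e - ∑ t, pp v J t * v t e| ≤ |v s e| + ∑ t, |v t e| := by
      refine (abs_sub _ _).trans ?_
      have h2 : |∑ t, pp v J t * v t e| ≤ ∑ t, |v t e| := by
        refine (Finset.abs_sum_le_sum_abs _ _).trans (Finset.sum_le_sum fun t _ => ?_)
        rw [abs_mul, abs_of_nonneg (pp_nonneg v J t)]
        exact mul_le_of_le_one_left (abs_nonneg _) (pp_le_one v J t)
      linarith
    have h3 := pp_le_one v J s
    have h4 := pp_nonneg v J s
    have h5 := abs_nonneg (v s e - ∑ t, pp v J t * v t e)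
    nlinarith
  calc ∫ J, (∑ e, c e * J e) * pp v J s ∂(gM ι)
      = ∫ J, ∑ e, c e * (J e * pp v J s) ∂(gM ι) := by
        congr 1; funext J
        rw [Finset.sum_mul]
        apply Finset.sum_congr rfl
        intro e _; ring
    _ = ∑ e, c e * ∫ J, J e * pp v J s ∂(gM ι) := by
        rw [integral_finsetSum _ fun e _ => (hint1 e).const_mul _]
        simp only [integral_const_mul]
    _ = ∑ e, c e * ∫ J, pp v J s * (v s e - ∑ t, pp v J t * v t e) ∂(gM ι) := by
        simp only [hone]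
    _ = ∫ J, ∑ e, c e * (pp v J s * (v s e - ∑ t, pp v J t * v t e)) ∂(gM ι) := by
        rw [integral_finsetSum _ fun e _ => (hint2 e).const_mul _]
        simp only [integral_const_mul]
    _ = _ := by
        congr 1; funext J
        have h1 : ∑ t, pp v J t * ∑ e, c e * v t e = ∑ e, c e * ∑ t, pp v J t * v t e := by
          simp only [Finset.mul_sum]
          rw [Finset.sum_comm]
          apply Finset.sum_congr rfl
          intro e _
          apply Finset.sum_congr rfl
          intro t _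
          ring
        rw [h1, ← Finset.sum_sub_distrib, Finset.mul_sum]
        apply Finset.sum_congr rfl
        intro e _
        ring

end Vale.Agent.P367.GT
end
end

section

section

open MeasureTheory ProbabilityTheory

namespace Vale.Agent.P367.GT

variable {S ι : Type*} [Fintype S] [Nonempty S] [Fintype ι]

/-- interpolating vectors -/
noncomputable def ww (a b : S → ι → ℝ) (θ : ℝ) (s : S) (e : ι) : ℝ :=
  Real.cos θ * a s e + Real.sin θ * b s e

/-- derivative of the interpolating vectors -/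
noncomputable def wd (a b : S → ι → ℝ) (θ : ℝ) (s : S) (e : ι) : ℝ :=
  -Real.sin θ * a s e + Real.cos θ * b s e

omit [Fintype S] [Nonempty S] in
lemma hasDerivAt_zf (a b : S → ι → ℝ) (J : ι → ℝ) (s : S) (θ : ℝ) :
    HasDerivAt (fun θ => zf (ww a b θ) J s) (zf (wd a b θ) J s) θ := by
  unfold zf
  apply HasDerivAt.fun_sum
  intro e _
  apply HasDerivAt.mul_const
  unfold ww wd
  exact ((Real.hasDerivAt_cos θ).mul_const _).add ((Real.hasDerivAt_sin θ).mul_const _)

/-- interpolating free energy -/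
noncomputable def phi (a b : S → ι → ℝ) (θ : ℝ) : ℝ :=
  ∫ J, Real.log (part (ww a b θ) J) ∂(gM ι)

omit [Fintype S] [Nonempty S] [Fintype ι] in
lemma abs_wd_le (a b : S → ι → ℝ) (θ : ℝ) (s : S) (e : ι) :
    |wd a b θ s e| ≤ |a s e| + |b s e| := by
  unfold wd
  refine (abs_add_le _ _).trans ?_
  rw [abs_mul, abs_mul, abs_neg]
  have h1 := Real.abs_cos_le_one θ
  have h2 := Real.abs_sin_le_one θ
  have h3 := abs_nonneg (a s e)
  have h4 := abs_nonneg (b s e)
  nlinarith only [h1, h4, h2, h3]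

/-- dominating function -/
noncomputable def bnd (a b : S → ι → ℝ) (J : ι → ℝ) : ℝ :=
  ∑ s, ∑ e, (|a s e| + |b s e|) * |J e|

omit [Nonempty S] in
lemma integrable_bnd (a b : S → ι → ℝ) : Integrable (bnd a b) (gM ι) := by
  unfold bnd
  exact integrable_finsetSum _ fun s _ => integrable_finsetSum _ fun e _ =>
    ((integrable_coord e).abs).const_mul _

omit [Nonempty S] in
lemma abs_zf_le (a b v : S → ι → ℝ) (hv : ∀ s e, |v s e| ≤ |a s e| + |b s e|) (J : ι → ℝ)
    (s : S) : |zf v J s| ≤ bnd a b J := by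
  unfold zf bnd
  have h1 : |∑ e, v s e * J e| ≤ ∑ e, (|a s e| + |b s e|) * |J e| := by
    refine (Finset.abs_sum_le_sum_abs _ _).trans (Finset.sum_le_sum fun e _ => ?_)
    rw [abs_mul]
    exact mul_le_mul_of_nonneg_right (hv s e) (abs_nonneg _)
  refine h1.trans ?_
  exact Finset.single_le_sum (f := fun s => ∑ e, (|a s e| + |b s e|) * |J e|)
    (fun s _ => Finset.sum_nonneg fun e _ => by (clear * -; positivity)) (Finset.mem_univ s)

lemma log_part_bounds (v : S → ι → ℝ) (J : ι → ℝ) (M : ℝ) (h : ∀ s, |zf v J s| ≤ M) :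
    |Real.log (part v J)| ≤ M + Real.log (Fintype.card S) := by
  obtain ⟨s0⟩ := (inferInstance : Nonempty S)
  have hc : (1 : ℝ) ≤ Fintype.card S := by
    exact_mod_cast Fintype.card_pos
  have hlc : 0 ≤ Real.log (Fintype.card S) := Real.log_nonneg hc
  have h1 : Real.exp (-M) ≤ part v J := by
    have h2 : Real.exp (zf v J s0) ≤ part v J :=
      Finset.single_le_sum (f := fun s => Real.exp (zf v J s)) (fun _ _ => (Real.exp_pos _).le)
        (Finset.mem_univ s0)
    refine (Real.exp_le_exp.mpr ?_).trans h2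
    exact (abs_le.mp (h s0)).1
  have h2 : part v J ≤ Fintype.card S * Real.exp M := by
    unfold part
    refine (Finset.sum_le_sum fun s _ => Real.exp_le_exp.mpr (abs_le.mp (h s)).2).trans ?_
    simp
  rw [abs_le]
  constructor
  · have h3 := Real.log_le_log (Real.exp_pos _) h1
    rw [Real.log_exp] at h3
    linarith
  · have h3 := Real.log_le_log (part_pos v J) h2
    rw [Real.log_mul (by positivity) (Real.exp_pos _).ne', Real.log_exp] at h3
    linarith

lemma continuous_log_part (v : S → ι → ℝ) : Continuous fun J => Real.log (part v J) :=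
  (continuous_part v).log fun J => (part_pos v J).ne'

lemma integrable_log_part (v : S → ι → ℝ) :
    Integrable (fun J => Real.log (part v J)) (gM ι) := by
  refine Integrable.mono' ((integrable_bnd v v).add (integrable_const
    (Real.log (Fintype.card S)))) (continuous_log_part v).measurable.aestronglyMeasurable
    (Filter.Eventually.of_forall fun J => ?_)
  rw [Real.norm_eq_abs]
  exact log_part_bounds v J _ fun s => abs_zf_le v v v (fun s e => by
    have := abs_nonneg (v s e); linarith) J s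

lemma phi_deriv (a b : S → ι → ℝ) (θ : ℝ) :
    HasDerivAt (phi a b) (∫ J, ∑ s, pp (ww a b θ) J s * zf (wd a b θ) J s ∂(gM ι)) θ := by
  have key := hasDerivAt_integral_of_dominated_loc_of_deriv_le (μ := gM ι) (s := Set.univ)
    (F := fun θ J => Real.log (part (ww a b θ) J)) (x₀ := θ)
    (F' := fun θ J => ∑ s, pp (ww a b θ) J s * zf (wd a b θ) J s)
    (bound := bnd a b) Filter.univ_mem
    (Filter.Eventually.of_forall fun x =>
      (continuous_log_part (ww a b x)).measurable.aestronglyMeasurable)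
    (integrable_log_part _)
    (by
      apply Continuous.aestronglyMeasurable
      exact continuous_finsetSum _ fun s _ => (continuous_pp _ s).mul (continuous_zf _ s))
    (Filter.Eventually.of_forall fun J x _ => by
      rw [Real.norm_eq_abs]
      refine (Finset.abs_sum_le_sum_abs _ _).trans ?_
      calc ∑ s, |pp (ww a b x) J s * zf (wd a b x) J s|
          ≤ ∑ s, pp (ww a b x) J s * bnd a b J := by
            apply Finset.sum_le_sum
            intro s _
            rw [abs_mul, abs_of_nonneg (pp_nonneg _ J s)]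
            exact mul_le_mul_of_nonneg_left
              (abs_zf_le a b _ (fun s e => abs_wd_le a b x s e) J s) (pp_nonneg _ J s)
        _ = bnd a b J := by rw [← Finset.sum_mul, sum_pp, one_mul])
    (integrable_bnd a b)
    (Filter.Eventually.of_forall fun J x _ => by
      have := log_deriv (fun s θ => zf (ww a b θ) J s) (fun s => zf (wd a b x) J s) x
        (fun s => hasDerivAt_zf a b J s x)
      exact this)
  exact key.2

lemma integrable_pp_zf (v u : S → ι → ℝ) (s : S) :
    Integrable (fun J => pp v J s * zf u J s) (gM ι) := by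
  refine (integrable_zf u s).bdd_mul (c := 1) (continuous_pp v s).measurable.aestronglyMeasurable
    (Filter.Eventually.of_forall fun J => ?_)
  rw [Real.norm_eq_abs, abs_of_nonneg (pp_nonneg v J s)]
  exact pp_le_one v J s

/-- The derivative of the interpolation is nonnegative. -/
lemma phi_deriv_nonneg (a b : S → ι → ℝ) (horth : ∀ s t, ∑ e, a s e * b t e = 0)
    (hinc : ∀ s t, ∑ e, (a s e - a t e) ^ 2 ≤ ∑ e, (b s e - b t e) ^ 2)
    (θ : ℝ) (hθ : 0 ≤ Real.sin θ * Real.cos θ) :
    0 ≤ ∫ J, ∑ s, pp (ww a b θ) J s * zf (wd a b θ) J s ∂(gM ι) := by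
  set v := ww a b θ with hv
  set c := wd a b θ with hc
  set K : S → S → ℝ := fun s t => ∑ e, c s e * v t e with hK
  have hKe : ∀ s t, K s t = Real.sin θ * Real.cos θ *
      ((∑ e, b s e * b t e) - ∑ e, a s e * a t e) := by
    intro s t
    have h1 := horth s t
    have h2 := horth t s
    have h3 : K s t = Real.sin θ * Real.cos θ * ((∑ e, b s e * b t e) - ∑ e, a s e * a t e)
        - Real.sin θ ^ 2 * (∑ e, a s e * b t e) + Real.cos θ ^ 2 * (∑ e, a t e * b s e) := by
      rw [hK, ← Finset.sum_sub_distrib, Finset.mul_sum, Finset.mul_sum, Finset.mul_sum,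
        ← Finset.sum_sub_distrib, ← Finset.sum_add_distrib]
      apply Finset.sum_congr rfl
      intro e _
      simp only [hv, hc, ww, wd]
      ring
    rw [h3, h1, h2]
    ring
  have h1 : ∫ J, ∑ s, pp v J s * zf c J s ∂(gM ι)
      = ∑ s, ∫ J, pp v J s * (K s s - ∑ t, pp v J t * K s t) ∂(gM ι) := by
    rw [integral_finsetSum _ fun s _ => integrable_pp_zf v c s]
    apply Finset.sum_congr rfl
    intro s _
    have := ibp v (c s) s
    rw [← this]
    congr 1
    funext J
    unfold zf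
    ring
  have hint : ∀ s, Integrable (fun J => pp v J s * (K s s - ∑ t, pp v J t * K s t)) (gM ι) := by
    intro s
    have hcont : Continuous fun J => pp v J s * (K s s - ∑ t, pp v J t * K s t) := by
      refine (continuous_pp v s).mul (continuous_const.sub ?_)
      exact continuous_finsetSum _ fun t _ => (continuous_pp v t).mul continuous_const
    refine Integrable.mono' (integrable_const (|K s s| + ∑ t, |K s t|))
      hcont.measurable.aestronglyMeasurable (Filter.Eventually.of_forall fun J => ?_)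
    rw [Real.norm_eq_abs, abs_mul, abs_of_nonneg (pp_nonneg v J s)]
    have h1 : |K s s - ∑ t, pp v J t * K s t| ≤ |K s s| + ∑ t, |K s t| := by
      refine (abs_sub _ _).trans ?_
      have h2 : |∑ t, pp v J t * K s t| ≤ ∑ t, |K s t| := by
        refine (Finset.abs_sum_le_sum_abs _ _).trans (Finset.sum_le_sum fun t _ => ?_)
        rw [abs_mul, abs_of_nonneg (pp_nonneg v J t)]
        exact mul_le_of_le_one_left (abs_nonneg _) (pp_le_one v J t)
      linarith only [h2]
    have h3 := pp_le_one v J s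
    have h4 := pp_nonneg v J s
    have h5 := abs_nonneg (K s s - ∑ t, pp v J t * K s t)
    nlinarith only [h1, h3, h5]
  rw [h1, ← integral_finsetSum _ fun s _ => hint s]
  apply integral_nonneg
  intro J
  simp only [Pi.zero_apply]
  have h2 : ∑ s, pp v J s * (K s s - ∑ t, pp v J t * K s t)
      = (∑ s, ∑ t, pp v J s * pp v J t * (K s s + K t t - K s t - K t s)) / 2 := by
    have e1 : ∑ s, ∑ t, pp v J s * pp v J t * K s s = ∑ s, pp v J s * K s s := by
      apply Finset.sum_congr rfl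
      intro s _
      calc ∑ t, pp v J s * pp v J t * K s s = (pp v J s * K s s) * ∑ t, pp v J t := by
            rw [Finset.mul_sum]
            apply Finset.sum_congr rfl
            intro t _; ring
        _ = _ := by rw [sum_pp, mul_one]
    have e2 : ∑ s, ∑ t, pp v J s * pp v J t * K t t = ∑ s, pp v J s * K s s := by
      rw [Finset.sum_comm, ← e1]
      apply Finset.sum_congr rfl
      intro s _
      apply Finset.sum_congr rfl
      intro t _; ring
    have e3 : ∑ s, ∑ t, pp v J s * pp v J t * K t s = ∑ s, ∑ t, pp v J s * pp v J t * K s t := by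
      rw [Finset.sum_comm]
      apply Finset.sum_congr rfl
      intro s _
      apply Finset.sum_congr rfl
      intro t _; ring
    have e4 : ∑ s, pp v J s * (K s s - ∑ t, pp v J t * K s t)
        = ∑ s, pp v J s * K s s - ∑ s, ∑ t, pp v J s * pp v J t * K s t := by
      rw [← Finset.sum_sub_distrib]
      apply Finset.sum_congr rfl
      intro s _
      have h6 : pp v J s * (∑ t, pp v J t * K s t) = ∑ t, pp v J s * pp v J t * K s t := by
        rw [Finset.mul_sum]
        apply Finset.sum_congr rfl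
        intro t _; ring
      rw [mul_sub, h6]
    have e5 : ∑ s, ∑ t, pp v J s * pp v J t * (K s s + K t t - K s t - K t s)
        = ∑ s, ∑ t, pp v J s * pp v J t * K s s + ∑ s, ∑ t, pp v J s * pp v J t * K t t
          - ∑ s, ∑ t, pp v J s * pp v J t * K s t - ∑ s, ∑ t, pp v J s * pp v J t * K t s := by
      simp only [← Finset.sum_add_distrib, ← Finset.sum_sub_distrib]
      apply Finset.sum_congr rfl
      intro s _
      apply Finset.sum_congr rfl
      intro t _; ring
    rw [e4, e5, e1, e2, e3]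
    ring
  rw [h2]
  apply div_nonneg _ (by norm_num)
  apply Finset.sum_nonneg
  intro s _
  apply Finset.sum_nonneg
  intro t _
  apply mul_nonneg (mul_nonneg (pp_nonneg v J s) (pp_nonneg v J t))
  rw [hKe, hKe, hKe, hKe]
  have h3 : Real.sin θ * Real.cos θ * ((∑ e, b s e * b s e) - ∑ e, a s e * a s e)
      + Real.sin θ * Real.cos θ * ((∑ e, b t e * b t e) - ∑ e, a t e * a t e)
      - Real.sin θ * Real.cos θ * ((∑ e, b s e * b t e) - ∑ e, a s e * a t e)
      - Real.sin θ * Real.cos θ * ((∑ e, b t e * b s e) - ∑ e, a t e * a s e)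
      = Real.sin θ * Real.cos θ * ((∑ e, (b s e - b t e) ^ 2) - ∑ e, (a s e - a t e) ^ 2) := by
    have e1 : ∀ x : S → ι → ℝ, ∑ e, (x s e - x t e) ^ 2 = ∑ e, x s e * x s e
        + ∑ e, x t e * x t e - ∑ e, x s e * x t e - ∑ e, x t e * x s e := by
      intro x
      rw [← Finset.sum_add_distrib, ← Finset.sum_sub_distrib, ← Finset.sum_sub_distrib]
      apply Finset.sum_congr rfl
      intro e _; ring
    rw [e1 b, e1 a]
    ring
  rw [h3]
  exact mul_nonneg hθ (sub_nonneg.mpr (hinc s t))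

/-- Comparison of free energies. -/
lemma free_le (a b : S → ι → ℝ) (horth : ∀ s t, ∑ e, a s e * b t e = 0)
    (hinc : ∀ s t, ∑ e, (a s e - a t e) ^ 2 ≤ ∑ e, (b s e - b t e) ^ 2) :
    ∫ J, Real.log (part a J) ∂(gM ι) ≤ ∫ J, Real.log (part b J) ∂(gM ι) := by
  have hpi := Real.pi_pos
  have hmono : MonotoneOn (phi a b) (Set.Icc 0 (Real.pi / 2)) := by
    apply monotoneOn_of_deriv_nonneg (convex_Icc _ _)
    · exact fun θ _ => (phi_deriv a b θ).continuousAt.continuousWithinAt
    · exact fun θ _ => (phi_deriv a b θ).differentiableAt.differentiableWithinAt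
    · intro θ hθ
      rw [interior_Icc] at hθ
      rw [(phi_deriv a b θ).deriv]
      apply phi_deriv_nonneg a b horth hinc
      apply mul_nonneg
      · exact Real.sin_nonneg_of_nonneg_of_le_pi hθ.1.le (by linarith only [hpi, hθ.2])
      · exact Real.cos_nonneg_of_neg_pi_div_two_le_of_le (by linarith only [hpi, hθ.1]) hθ.2.le
  have h := hmono (Set.left_mem_Icc.mpr (by positivity)) (Set.right_mem_Icc.mpr (by positivity))
    (by positivity)
  have h0 : phi a b 0 = ∫ J, Real.log (part a J) ∂(gM ι) := by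
    unfold phi
    have : ww a b 0 = a := by
      funext s e; simp [ww]
    rw [this]
  have h1 : phi a b (Real.pi / 2) = ∫ J, Real.log (part b J) ∂(gM ι) := by
    unfold phi
    have : ww a b (Real.pi / 2) = b := by
      funext s e; simp [ww]
    rw [this]
  rw [h0, h1] at h
  exact h

omit [Fintype S] [Nonempty S] in
lemma zf_smul (r : ℝ) (a : S → ι → ℝ) (J : ι → ℝ) (s : S) :
    zf (fun s e => r * a s e) J s = r * zf a J s := by
  unfold zf
  rw [Finset.mul_sum]
  apply Finset.sum_congr rfl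
  intro e _; ring

lemma integrable_sup_zf (a : S → ι → ℝ) : Integrable (fun J => ⨆ s, zf a J s) (gM ι) := by
  have h1 : Integrable (bnd a a) (gM ι) := integrable_bnd a a
  refine h1.mono' ?_ (Filter.Eventually.of_forall fun J => ?_)
  · apply Measurable.aestronglyMeasurable
    exact Measurable.iSup fun s => (continuous_zf a s).measurable
  · obtain ⟨s0⟩ := (inferInstance : Nonempty S)
    have hb : BddAbove (Set.range fun s => zf a J s) := (Set.finite_range _).bddAbove
    have h2 : ∀ s, |zf a J s| ≤ bnd a a J := fun s => abs_zf_le a a a (fun s e => by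
      have := abs_nonneg (a s e); linarith) J s
    rw [Real.norm_eq_abs, abs_le]
    constructor
    · have h3 : zf a J s0 ≤ ⨆ s, zf a J s := le_ciSup hb s0
      have h4 := (abs_le.mp (h2 s0)).1
      linarith
    · exact ciSup_le fun s => (le_abs_self _).trans (h2 s)

lemma sup_le_log (r : ℝ) (hr : 0 < r) (a : S → ι → ℝ) (J : ι → ℝ) :
    r * (⨆ s, zf a J s) ≤ Real.log (part (fun s e => r * a s e) J) := by
  rw [← le_div_iff₀' hr]
  apply ciSup_le
  intro s
  rw [le_div_iff₀' hr, ← zf_smul, Real.le_log_iff_exp_le (part_pos _ _)]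
  exact Finset.single_le_sum (f := fun s => Real.exp (zf (fun s e => r * a s e) J s))
    (fun _ _ => (Real.exp_pos _).le) (Finset.mem_univ s)

lemma log_le_sup (r : ℝ) (hr : 0 < r) (a : S → ι → ℝ) (J : ι → ℝ) :
    Real.log (part (fun s e => r * a s e) J)
      ≤ r * (⨆ s, zf a J s) + Real.log (Fintype.card S) := by
  have hc : (0 : ℝ) < Fintype.card S := by exact_mod_cast Fintype.card_pos
  have hb : BddAbove (Set.range fun s => zf a J s) := (Set.finite_range _).bddAbove
  have h1 : part (fun s e => r * a s e) J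
      ≤ Fintype.card S * Real.exp (r * (⨆ s, zf a J s)) := by
    unfold part
    have h2 : ∀ s, Real.exp (zf (fun s e => r * a s e) J s)
        ≤ Real.exp (r * (⨆ s, zf a J s)) := by
      intro s
      rw [zf_smul]
      exact Real.exp_le_exp.mpr (mul_le_mul_of_nonneg_left (le_ciSup hb s) hr.le)
    refine (Finset.sum_le_sum fun s _ => h2 s).trans ?_
    simp only [Finset.sum_const, Finset.card_univ, nsmul_eq_mul, Std.le_refl]
  have h2 := Real.log_le_log (part_pos _ _) h1
  rw [Real.log_mul hc.ne' (Real.exp_pos _).ne', Real.log_exp] at h2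
  linarith

/-- Comparison of expected maxima, on one Gaussian space. -/
theorem sup_le_same (a b : S → ι → ℝ) (horth : ∀ s t, ∑ e, a s e * b t e = 0)
    (hinc : ∀ s t, ∑ e, (a s e - a t e) ^ 2 ≤ ∑ e, (b s e - b t e) ^ 2) :
    ∫ J, ⨆ s, zf a J s ∂(gM ι) ≤ ∫ J, ⨆ s, zf b J s ∂(gM ι) := by
  set A := ∫ J, ⨆ s, zf a J s ∂(gM ι) with hA
  set B := ∫ J, ⨆ s, zf b J s ∂(gM ι) with hB
  have hc : (1 : ℝ) ≤ Fintype.card S := by exact_mod_cast Fintype.card_pos
  have hlc : 0 ≤ Real.log (Fintype.card S) := Real.log_nonneg hc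
  have key : ∀ r : ℝ, 0 < r → r * A ≤ r * B + Real.log (Fintype.card S) := by
    intro r hr
    have h1 : r * A ≤ ∫ J, Real.log (part (fun s e => r * a s e) J) ∂(gM ι) := by
      rw [hA, ← integral_const_mul]
      exact integral_mono ((integrable_sup_zf a).const_mul r) (integrable_log_part _)
        fun J => sup_le_log r hr a J
    have h2 : ∫ J, Real.log (part (fun s e => r * b s e) J) ∂(gM ι)
        ≤ r * B + Real.log (Fintype.card S) := by
      have h3 : ∫ J, (r * (⨆ s, zf b J s) + Real.log (Fintype.card S)) ∂(gM ι)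
          = r * B + Real.log (Fintype.card S) := by
        rw [integral_add ((integrable_sup_zf b).const_mul r) (integrable_const _),
          integral_const_mul, ← hB]
        simp
      rw [← h3]
      exact integral_mono (integrable_log_part _)
        (((integrable_sup_zf b).const_mul r).add (integrable_const _))
        fun J => log_le_sup r hr b J
    have h4 := free_le (fun s e => r * a s e) (fun s e => r * b s e)
      (fun s t => by
        have : ∑ e, r * a s e * (r * b t e) = r ^ 2 * ∑ e, a s e * b t e := by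
          rw [Finset.mul_sum]
          apply Finset.sum_congr rfl
          intro e _; ring
        rw [this, horth, mul_zero])
      (fun s t => by
        have h5 : ∀ x : S → ι → ℝ, ∑ e, (r * x s e - r * x t e) ^ 2
            = r ^ 2 * ∑ e, (x s e - x t e) ^ 2 := by
          intro x
          rw [Finset.mul_sum]
          apply Finset.sum_congr rfl
          intro e _; ring
        rw [h5 a, h5 b]
        exact mul_le_mul_of_nonneg_left (hinc s t) (sq_nonneg r))
    linarith only [h1, h2, h4]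
  by_contra hlt
  push Not at hlt
  have hd : 0 < A - B := sub_pos.mpr hlt
  have := key ((Real.log (Fintype.card S) + 1) / (A - B)) (by positivity)
  have h2 : (Real.log (Fintype.card S) + 1) / (A - B) * A
      - (Real.log (Fintype.card S) + 1) / (A - B) * B = Real.log (Fintype.card S) + 1 := by
    rw [← mul_sub, div_mul_cancel₀ _ hd.ne']
  linarith only [this, h2]

end Vale.Agent.P367.GT
end
end

section

section

namespace Vale.Agent.P367.Lim

open Finset MeasureTheory ProbabilityTheory Filter Topology Vale.Agent.P367.Gap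

/-- tightness of the aligned field law, at radius 12 -/
theorem tight_alf12 (p n : ℕ) (hn : 1 ≤ n) (γ β : Fin p → ℝ) :
    1 / 2 ≤ (alf n p γ β).real (Set.Icc (-12) 12) := by
  have hnr : (0 : ℝ) < n := by exact_mod_cast hn
  have hset : (Set.Icc (-12) 12 : Set ℝ) = {x | |x| ≤ 12} := by
    ext x; simp only [Set.mem_Icc, abs_le, Set.mem_ofPred_eq]
  rw [hset]
  have hmS : MeasurableSet {x : ℝ | |x| ≤ 12} := measurableSet_le measurable_norm measurable_const
  have hw : ∀ s, Continuous fun J : Pair n → ℝ => ‖qaoaState J p γ β s‖ ^ 2 :=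
    fun s => (continuous_state p γ β s).norm.pow 2
  have hmt : ∀ (i : Fin n) (s : Conf n), Measurable (tt (uvec i) s) := fun i s => measurable_tt _ _
  have iT : ∀ (i : Fin n) (s : Conf n), Integrable (fun J : Pair n → ℝ => tt (uvec i) s J)
      (gLaw (Pair n)) := by
    intro i s
    have h2 : (fun J : Pair n → ℝ => tt (uvec i) s J) = fun J => ∑ e, uvec i s e * J e := by
      funext J; rfl
    rw [h2]
    apply integrable_finsetSum
    intro e _
    apply Integrable.const_mul
    exact integrable_comp_eval (μ := fun _ : Pair n => gaussianReal 0 1) (i := e) (f := fun x => x)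
      ((memLp_id_gaussianReal 1).integrable le_rfl)
  have iA : ∀ (i : Fin n) (s : Conf n), Integrable
      (fun J : Pair n → ℝ => ‖qaoaState J p γ β s‖ ^ 2 * |tt (uvec i) s J|) (gLaw (Pair n)) := by
    intro i s
    refine (iT i s).abs.bdd_mul (c := 1) (hw s).aestronglyMeasurable
      (Eventually.of_forall fun J => ?_)
    rw [Real.norm_eq_abs, abs_of_nonneg (by positivity)]
    exact state_sq_le J p γ β s
  have iI : ∀ (i : Fin n) (s : Conf n), Integrable
      (fun J : Pair n → ℝ => ‖qaoaState J p γ β s‖ ^ 2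
        * {x : ℝ | |x| ≤ 12}.indicator (fun _ => (1 : ℝ)) (tt (uvec i) s J)) (gLaw (Pair n)) := by
    intro i s
    refine (integrable_const (1 : ℝ)).mono' ?_ (Eventually.of_forall fun J => ?_)
    · exact ((hw s).measurable.mul ((measurable_const.indicator hmS).comp
        (hmt i s))).aestronglyMeasurable
    · rw [norm_mul, Real.norm_eq_abs, abs_of_nonneg (by positivity)]
      have h1 := state_sq_le J p γ β s
      have h2 : ‖{x : ℝ | |x| ≤ 12}.indicator (fun _ => (1 : ℝ)) (tt (uvec i) s J)‖ ≤ 1 := by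
        refine (norm_indicator_le_norm_self _ _).trans ?_
        simp
      calc _ ≤ 1 * 1 := mul_le_mul h1 h2 (norm_nonneg _) (by norm_num)
        _ = 1 := one_mul 1
  rw [real_alf p γ β _ hmS]
  have hfm := first_moment p γ β (fun s => measurable_qaoaState p γ β s)
    (fun J : Pair n → ℝ => norm_qaoaState J p γ β)
  have hi : ∀ i : Fin n, 1 - (1 / 12) * ∫ J : Pair n → ℝ,
      ∑ s, ‖qaoaState J p γ β s‖ ^ 2 * |tt (uvec i) s J| ∂(gLaw (Pair n))
      ≤ ∫ J : Pair n → ℝ, (∑ s, (‖qaoaState J p γ β s‖ ^ 2)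
        * {x : ℝ | |x| ≤ 12}.indicator (fun _ => (1 : ℝ)) (tt (uvec i) s J)) ∂(couplingLaw n) := by
    intro i
    have e1 : 1 - (1 / 12) * ∫ J : Pair n → ℝ,
        ∑ s, ‖qaoaState J p γ β s‖ ^ 2 * |tt (uvec i) s J| ∂(gLaw (Pair n))
        = ∫ J : Pair n → ℝ, (1 - (1 / 12) * ∑ s, ‖qaoaState J p γ β s‖ ^ 2 * |tt (uvec i) s J|)
          ∂(gLaw (Pair n)) := by
      rw [integral_sub (integrable_const _)
        ((integrable_finsetSum _ fun s _ => iA i s).const_mul _), integral_const_mul]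
      simp only [one_div, integral_const, probReal_univ, smul_eq_mul, mul_one]
    rw [e1]
    apply integral_mono ((integrable_const _).sub
      ((integrable_finsetSum _ fun s _ => iA i s).const_mul _))
      (integrable_finsetSum _ fun s _ => iI i s)
    intro J
    simp only [Pi.sub_apply]
    have h1 : (1 : ℝ) - (1 / 12) * ∑ s, ‖qaoaState J p γ β s‖ ^ 2 * |tt (uvec i) s J|
        = ∑ s, ‖qaoaState J p γ β s‖ ^ 2 * (1 - (1 / 12) * |tt (uvec i) s J|) := by
      rw [← norm_qaoaState J p γ β, Finset.mul_sum, ← Finset.sum_sub_distrib]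
      apply Finset.sum_congr rfl
      intro s _
      rw [norm_qaoaState]
      ring
    rw [h1]
    apply Finset.sum_le_sum
    intro s _
    apply mul_le_mul_of_nonneg_left _ (by (clear * -; positivity))
    by_cases h : |tt (uvec i) s J| ≤ 12
    · rw [Set.indicator_of_mem (by exact h)]
      have := abs_nonneg (tt (uvec i) s J)
      linarith only [this]
    · rw [Set.indicator_of_notMem (by exact h)]
      push Not at h
      linarith only [h]
  have hs := Finset.sum_le_sum (s := (univ : Finset (Fin n))) fun i _ => hi i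
  have h1 : ∑ i : Fin n, (1 - (1 / 12) * ∫ J : Pair n → ℝ,
      ∑ s, ‖qaoaState J p γ β s‖ ^ 2 * |tt (uvec i) s J| ∂(gLaw (Pair n)))
      = n - (1 / 12) * ∑ i : Fin n, ∫ J : Pair n → ℝ,
      ∑ s, ‖qaoaState J p γ β s‖ ^ 2 * |tt (uvec i) s J| ∂(gLaw (Pair n)) := by
    rw [Finset.sum_sub_distrib, ← Finset.mul_sum]
    simp only [sum_const, card_univ, Fintype.card_fin, nsmul_eq_mul, mul_one, one_div]
  rw [h1] at hs
  rw [inv_mul_eq_div, le_div_iff₀ hnr]
  linarith only [hfm, hs]

/-- explicit misalignment bound at fixed depth -/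
theorem misalign_explicit (p : ℕ) (γ β : Fin p → ℝ) :
    ∀ᶠ n : ℕ in atTop, Real.exp (-(9000 * ((4 : ℝ) ^ (p + 1) + 1) ^ 2))
      ≤ (alf n p γ β).real (Set.Iio (-1)) := by
  have hcard : Fintype.card (CP p) = 4 ^ (p + 1) := by
    rw [Fintype.card_prod, Fintype.card_fun, Fintype.card_bool, Fintype.card_fin, ← mul_pow]
    norm_num
  set e : Fin (4 ^ (p + 1)) ≃ CP p := (Fintype.equivFinOfCardEq hcard).symm with he
  have hpr : ∀ m : ℕ, IsProbabilityMeasure (alf (m + 1) p γ β) :=
    fun m => isProb_alf p γ β (Nat.succ_pos m)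
  have h := Vale.Agent.P367.Fin.tail_lower (4 ^ (p + 1)) (fun m => alf (m + 1) p γ β)
    (Eventually.of_forall fun m => tight_alf12 p (m + 1) (by omega) γ β)
    (fun k => cx (extA γ) (extA β) p (e k)) (fun k => mx (extA γ) (extA β) p (e k))
    (by
      intro k
      have h1 := norm_cx_le (extA γ) (extA β) p (e k) (-(mx (extA γ) (extA β) p (e k)).re)
      refine le_trans (le_of_eq ?_) h1
      congr 2
      ring)
    (by
      intro ξ
      have h1 := tendsto_char_alf p γ β ξ
      have h2 : (∑ x : CP p, cx (extA γ) (extA β) p x *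
          Complex.exp (-(ξ * mx (extA γ) (extA β) p x) - (ξ : ℂ) ^ 2 / 2))
          = Complex.exp (-(ξ : ℂ) ^ 2 / 2) * ∑ k, cx (extA γ) (extA β) p (e k)
            * Complex.exp (-(ξ * mx (extA γ) (extA β) p (e k))) := by
        rw [← e.sum_comp, Finset.mul_sum]
        apply Finset.sum_congr rfl
        intro k _
        rw [mul_left_comm, ← Complex.exp_add]
        congr 2
        ring
      rw [h2] at h1
      exact h1)
  push_cast at h
  rw [eventually_atTop] at h ⊢
  obtain ⟨M, hM⟩ := h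
  refine ⟨M + 1, fun n hn => ?_⟩
  obtain ⟨m, rfl⟩ : ∃ m, n = m + 1 := ⟨n - 1, by omega⟩
  exact hM m (by omega)

/-- **Explicit uniform gap at fixed depth**, all angles. -/
theorem gap_explicit (p : ℕ) (γ β : Fin p → ℝ) : ∀ᶠ n : ℕ in atTop,
    qaoaValue n p γ β ≤ groundValue n - Real.exp (-(10 ^ 6 * 16 ^ p)) := by
  filter_upwards [misalign_explicit p γ β, eventually_gt_atTop 0] with n hn hn0
  have h := gap_of_alf p n hn0 γ β _ (Real.exp_pos _).le hn
  refine h.trans ?_
  have h1 : Real.exp (-(10 ^ 6 * 16 ^ p))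
      ≤ Real.exp (-(9000 * ((4 : ℝ) ^ (p + 1) + 1) ^ 2)) ^ 2 / 4 := by
    rw [le_div_iff₀ (by norm_num), ← Real.exp_nat_mul]
    have h4 : (4 : ℝ) ≤ Real.exp 2 := by
      have := Real.exp_one_gt_d9
      have h5 : Real.exp 2 = Real.exp 1 * Real.exp 1 := by rw [← Real.exp_add]; norm_num
      rw [h5]
      nlinarith only [this]
    have h16 : (16 : ℝ) ^ p = (4 ^ p) ^ 2 := by
      rw [← pow_mul, mul_comm, pow_mul]; norm_num
    have hq : (1 : ℝ) ≤ 4 ^ p := one_le_pow₀ (by norm_num)
    calc Real.exp (-(10 ^ 6 * 16 ^ p)) * 4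
        ≤ Real.exp (-(10 ^ 6 * 16 ^ p)) * Real.exp 2 :=
          mul_le_mul_of_nonneg_left h4 (Real.exp_pos _).le
      _ = Real.exp (-(10 ^ 6 * 16 ^ p) + 2) := by rw [Real.exp_add]
      _ ≤ _ := by
          apply Real.exp_le_exp.mpr
          obtain ⟨q, hqd⟩ : ∃ q : ℝ, q = 4 ^ p := ⟨_, rfl⟩
          rw [h16, pow_succ (4 : ℝ) p, ← hqd]
          rw [← hqd] at hq
          push_cast
          have h9 : (q * 4 + 1) ^ 2 ≤ 25 * q ^ 2 := by nlinarith only [hq]
          have h10 : 1 ≤ q ^ 2 := by nlinarith only [hq]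
          linarith
  linarith only [h1]

end Vale.Agent.P367.Lim
end
end

section

section

open MeasureTheory ProbabilityTheory Vale.Agent.P367.Gap

namespace Vale.Agent.P367.GT

lemma two_sum_pair {n : ℕ} (g : Fin n → Fin n → ℝ) (hg : ∀ a b, g a b = g b a) :
    2 * ∑ e : Pair n, g e.1.1 e.1.2 = (∑ a, ∑ b, g a b) - ∑ a, g a a := by
  have h2 : ∑ a : Fin n, ∑ b : Fin n, (if a < b then g a b else 0)
      = ∑ a : Fin n, ∑ b : Fin n, (if b < a then g a b else 0) := by
    rw [Finset.sum_comm]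
    apply Finset.sum_congr rfl
    intro a _
    apply Finset.sum_congr rfl
    intro b _
    rw [hg]
  have h3 : 2 * ∑ e : Pair n, g e.1.1 e.1.2 = ∑ a : Fin n, ∑ b : Fin n,
      ((if a < b then g a b else 0) + (if b < a then g a b else 0)) := by
    rw [two_mul, sum_pair]
    conv_lhs => rw [h2]
    simp only [Finset.sum_add_distrib]
    rw [← h2]
  have h4 : ∑ a : Fin n, g a a = ∑ a : Fin n, ∑ b : Fin n, (if a = b then g a b else 0) := by
    apply Finset.sum_congr rfl
    intro a _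
    simp only [Finset.sum_ite_eq, Finset.mem_univ, ↓reduceIte]
  rw [h3, h4, ← Finset.sum_sub_distrib]
  apply Finset.sum_congr rfl
  intro a _
  rw [← Finset.sum_sub_distrib]
  apply Finset.sum_congr rfl
  intro b _
  rcases lt_trichotomy a b with h | h | h
  · simp [h, h.ne, h.not_gt]
  · subst h; simp
  · simp [h, h.ne', h.not_gt]

lemma inc_eq {n : ℕ} (hn : 0 < n) (s t : Conf n) :
    ∑ e : Pair n, ((Real.sqrt n)⁻¹ * chi s e - (Real.sqrt n)⁻¹ * chi t e) ^ 2
      = n - (∑ i, spin (s i) * spin (t i)) ^ 2 / n := by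
  have hnr : (0 : ℝ) < n := by exact_mod_cast hn
  set x : Fin n → ℝ := fun i => spin (s i) * spin (t i) with hx
  have hx2 : ∀ i, x i * x i = 1 := by
    intro i
    simp only [hx]
    calc spin (s i) * spin (t i) * (spin (s i) * spin (t i))
        = (spin (s i) * spin (s i)) * (spin (t i) * spin (t i)) := by ring
      _ = 1 := by rw [spin_sq, spin_sq, one_mul]
  have h1 : ∀ e : Pair n, ((Real.sqrt n)⁻¹ * chi s e - (Real.sqrt n)⁻¹ * chi t e) ^ 2
      = (n : ℝ)⁻¹ * (2 * (1 - x e.1.1 * x e.1.2)) := by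
    intro e
    have e1 := chi_sq s e
    have e2 := chi_sq t e
    have e3 : x e.1.1 * x e.1.2 = chi s e * chi t e := by
      simp only [hx, chi]; ring
    calc ((Real.sqrt n)⁻¹ * chi s e - (Real.sqrt n)⁻¹ * chi t e) ^ 2
        = ((Real.sqrt n)⁻¹ * (Real.sqrt n)⁻¹) *
          (chi s e * chi s e + chi t e * chi t e - 2 * (chi s e * chi t e)) := by ring
      _ = _ := by rw [inv_sqrt_mul, e1, e2, e3]; ring
  simp only [h1]
  rw [← Finset.mul_sum, ← Finset.mul_sum]
  rw [two_sum_pair (fun a b => 1 - x a * x b) (fun a b => by ring)]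
  have h2 : ∑ a : Fin n, (1 - x a * x a) = 0 := by
    apply Finset.sum_eq_zero
    intro a _
    rw [hx2]; ring
  have h3 : ∑ a : Fin n, ∑ b : Fin n, (1 - x a * x b) = (n : ℝ) * n - (∑ i, x i) ^ 2 := by
    simp only [Finset.sum_sub_distrib]
    congr 1
    · simp only [Finset.sum_const, Finset.card_univ, Fintype.card_fin, nsmul_eq_mul, mul_one]
    · rw [sq, Finset.sum_mul_sum]
  rw [h2, h3]
  field_simp
  ring

lemma map_comp_inj {κ ι : Type*} [Fintype κ] [Fintype ι] (f : κ → ι)
    (hf : Function.Injective f) :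
    (gM ι).map (fun J => J ∘ f) = gM κ := by
  classical
  have hm : Measurable (fun J : ι → ℝ => J ∘ f) :=
    measurable_pi_iff.mpr fun k => measurable_pi_apply (f k)
  symm
  apply Measure.pi_eq
  intro s hs
  rw [Measure.map_apply hm (MeasurableSet.univ_pi hs)]
  set t : ι → Set ℝ := fun i => if h : ∃ k, f k = i then s h.choose else Set.univ with ht
  have htf : ∀ k, t (f k) = s k := by
    intro k
    have h : ∃ k', f k' = f k := ⟨k, rfl⟩
    simp only [ht, dif_pos h]
    rw [hf h.choose_spec]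
  have h1 : (fun J : ι → ℝ => J ∘ f) ⁻¹' (Set.univ.pi s) = Set.univ.pi t := by
    ext J
    simp only [Set.mem_preimage, Set.mem_pi, Set.mem_univ, forall_true_left, Function.comp]
    constructor
    · intro h i
      by_cases hi : ∃ k, f k = i
      · obtain ⟨k, rfl⟩ := hi
        rw [htf]; exact h k
      · simp only [ht, dif_neg hi, Set.mem_univ]
    · intro h k
      have := h (f k)
      rwa [htf] at this
  rw [h1, Measure.pi_pi]
  have h2 : ∏ i, (gaussianReal 0 1) (t i) = ∏ i ∈ Finset.univ.image f, (gaussianReal 0 1) (t i) := by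
    symm
    apply Finset.prod_subset (Finset.subset_univ _)
    intro i _ hi
    have h3 : ¬ ∃ k, f k = i := by
      rintro ⟨k, rfl⟩
      exact hi (Finset.mem_image_of_mem f (Finset.mem_univ k))
    simp only [ht, dif_neg h3, measure_univ]
  rw [h2, Finset.prod_image (fun a _ b _ h => hf h)]
  simp only [htf]

lemma integral_comp_inj {κ ι : Type*} [Fintype κ] [Fintype ι] (f : κ → ι)
    (hf : Function.Injective f) (F : (κ → ℝ) → ℝ) (hF : Measurable F) :
    ∫ J : ι → ℝ, F (J ∘ f) ∂(gM ι) = ∫ J, F J ∂(gM κ) := by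
  have hm : Measurable (fun J : ι → ℝ => J ∘ f) :=
    measurable_pi_iff.mpr fun k => measurable_pi_apply (f k)
  rw [← map_comp_inj f hf, integral_map hm.aemeasurable hF.aestronglyMeasurable]

/-- `E max_σ h(σ)`. -/
noncomputable def Msup (n : ℕ) : ℝ := ∫ J, (⨆ s : Conf n, skEnergy J s) ∂(couplingLaw n)

lemma skEnergy_eq {n : ℕ} (J : Pair n → ℝ) (s : Conf n) :
    skEnergy J s = ∑ e, ((Real.sqrt n)⁻¹ * chi s e) * J e := by
  unfold skEnergy chi
  rw [Finset.mul_sum]
  apply Finset.sum_congr rfl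
  intro e _
  ring

lemma sq_div_add_le (x y n m : ℝ) (hn : 0 < n) (hm : 0 < m) :
    (x + y) ^ 2 / (n + m) ≤ x ^ 2 / n + y ^ 2 / m := by
  rw [div_add_div _ _ hn.ne' hm.ne', div_le_div_iff₀ (by positivity) (by positivity)]
  nlinarith only [sq_nonneg (m * x - n * y)]

lemma continuous_sup {n : ℕ} : Measurable fun J : Pair n → ℝ => ⨆ s : Conf n, skEnergy J s :=
  Measurable.iSup fun s => (continuous_skEnergy s).measurable

/-- **Superadditivity** (Guerra-Toninelli). -/
theorem Msup_superadd (n m : ℕ) (hn : 0 < n) (hm : 0 < m) :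
    Msup n + Msup m ≤ Msup (n + m) := by
  set a : Conf (n + m) → (Pair n ⊕ Pair m) ⊕ Pair (n + m) → ℝ := fun s =>
    Sum.elim (Sum.elim (fun e => (Real.sqrt n)⁻¹ * chi (fun i => s (Fin.castAdd m i)) e)
      (fun e => (Real.sqrt m)⁻¹ * chi (fun i => s (Fin.natAdd n i)) e)) (fun _ => 0) with ha
  set b : Conf (n + m) → (Pair n ⊕ Pair m) ⊕ Pair (n + m) → ℝ := fun s =>
    Sum.elim (fun _ => 0) (fun e => (Real.sqrt ((n + m : ℕ) : ℝ))⁻¹ * chi s e) with hb
  have hnr : (0 : ℝ) < n := by exact_mod_cast hn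
  have hmr : (0 : ℝ) < m := by exact_mod_cast hm
  have key := sup_le_same a b
    (by
      intro s t
      rw [Fintype.sum_sum_type]
      simp only [ha, Sum.elim_inl, hb, Nat.cast_add, mul_zero, Finset.sum_const_zero, Sum.elim_inr, zero_mul, add_zero])
    (by
      intro s t
      rw [Fintype.sum_sum_type, Fintype.sum_sum_type, Fintype.sum_sum_type]
      simp only [ha, hb, Sum.elim_inl, Sum.elim_inr, sub_self, ne_eq, OfNat.ofNat_ne_zero,
        not_false_eq_true, zero_pow, Finset.sum_const_zero, add_zero, zero_add]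
      rw [inc_eq hn, inc_eq hm, inc_eq (by omega : 0 < n + m), Fin.sum_univ_add]
      have := sq_div_add_le (∑ i, spin (s (Fin.castAdd m i)) * spin (t (Fin.castAdd m i)))
        (∑ i, spin (s (Fin.natAdd n i)) * spin (t (Fin.natAdd n i))) n m hnr hmr
      push_cast
      linarith only [this])
  have hza : ∀ (J : (Pair n ⊕ Pair m) ⊕ Pair (n + m) → ℝ) (s : Conf (n + m)), zf a J s
      = skEnergy (J ∘ (fun e => Sum.inl (Sum.inl e))) (fun i => s (Fin.castAdd m i))
        + skEnergy (J ∘ (fun e => Sum.inl (Sum.inr e))) (fun i => s (Fin.natAdd n i)) := by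
    intro J s
    unfold zf
    rw [Fintype.sum_sum_type, Fintype.sum_sum_type, skEnergy_eq, skEnergy_eq]
    simp only [ha, Sum.elim_inl, Sum.elim_inr, zero_mul, Finset.sum_const_zero, add_zero, Function.comp_apply]
  have hzb : ∀ (J : (Pair n ⊕ Pair m) ⊕ Pair (n + m) → ℝ) (s : Conf (n + m)), zf b J s
      = skEnergy (J ∘ Sum.inr) s := by
    intro J s
    unfold zf
    rw [Fintype.sum_sum_type, skEnergy_eq]
    simp only [hb, Nat.cast_add, Sum.elim_inl, zero_mul, Finset.sum_const_zero, Sum.elim_inr, zero_add, Function.comp_apply]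
  have hR : ∫ J, ⨆ s, zf b J s ∂(gM _) = Msup (n + m) := by
    simp only [hzb]
    exact integral_comp_inj (Sum.inr : Pair (n + m) → (Pair n ⊕ Pair m) ⊕ Pair (n + m))
      Sum.inr_injective (fun J => ⨆ s : Conf (n + m), skEnergy J s) continuous_sup
  have hi1 : Function.Injective (fun e : Pair n =>
      (Sum.inl (Sum.inl e) : (Pair n ⊕ Pair m) ⊕ Pair (n + m))) :=
    Sum.inl_injective.comp Sum.inl_injective
  have hi2 : Function.Injective (fun e : Pair m =>
      (Sum.inl (Sum.inr e) : (Pair n ⊕ Pair m) ⊕ Pair (n + m))) :=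
    Sum.inl_injective.comp Sum.inr_injective
  have hL : Msup n + Msup m ≤ ∫ J, ⨆ s, zf a J s ∂(gM _) := by
    have e1 : Msup n = ∫ J : (Pair n ⊕ Pair m) ⊕ Pair (n + m) → ℝ,
        (⨆ s : Conf n, skEnergy (J ∘ (fun e => Sum.inl (Sum.inl e))) s) ∂(gM _) :=
      (integral_comp_inj _ hi1 (fun J => ⨆ s : Conf n, skEnergy J s) continuous_sup).symm
    have e2 : Msup m = ∫ J : (Pair n ⊕ Pair m) ⊕ Pair (n + m) → ℝ,
        (⨆ s : Conf m, skEnergy (J ∘ (fun e => Sum.inl (Sum.inr e))) s) ∂(gM _) :=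
      (integral_comp_inj _ hi2 (fun J => ⨆ s : Conf m, skEnergy J s) continuous_sup).symm
    have hint : ∀ {k : ℕ}, Integrable (fun J : Pair k → ℝ => ⨆ s : Conf k, skEnergy J s)
        (gM (Pair k)) := by
      intro k
      exact integrable_iSup (fun (s : Conf k) (J : Pair k → ℝ) => skEnergy J s)
        (fun s => integrable_energy s) (fun s => (continuous_skEnergy s).measurable)
    have hint' : ∀ {k : ℕ} (f : Pair k → (Pair n ⊕ Pair m) ⊕ Pair (n + m)),
        Function.Injective f → Integrable (fun J : (Pair n ⊕ Pair m) ⊕ Pair (n + m) → ℝ =>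
          ⨆ s : Conf k, skEnergy (J ∘ f) s) (gM _) := by
      intro k f hf
      have hm' : Measurable (fun J : (Pair n ⊕ Pair m) ⊕ Pair (n + m) → ℝ => J ∘ f) :=
        measurable_pi_iff.mpr fun k => measurable_pi_apply (f k)
      have h1 : Integrable (fun J : Pair k → ℝ => ⨆ s : Conf k, skEnergy J s)
          ((gM _).map (fun J : (Pair n ⊕ Pair m) ⊕ Pair (n + m) → ℝ => J ∘ f)) := by
        rw [map_comp_inj f hf]; exact hint
      exact (integrable_map_measure h1.aestronglyMeasurable hm'.aemeasurable).mp h1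
    rw [e1, e2, ← integral_add (hint' _ hi1) (hint' _ hi2)]
    apply integral_mono ((hint' _ hi1).add (hint' _ hi2)) (integrable_sup_zf a)
    intro J
    simp only [Pi.add_apply]
    obtain ⟨s1, hs1⟩ := exists_eq_ciSup_of_finite
      (f := fun s : Conf n => skEnergy (J ∘ (fun e => Sum.inl (Sum.inl e))) s)
    obtain ⟨s2, hs2⟩ := exists_eq_ciSup_of_finite
      (f := fun s : Conf m => skEnergy (J ∘ (fun e => Sum.inl (Sum.inr e))) s)
    rw [← hs1, ← hs2]
    have h1 : skEnergy (J ∘ (fun e => Sum.inl (Sum.inl e))) s1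
        + skEnergy (J ∘ (fun e => Sum.inl (Sum.inr e))) s2 = zf a J (Fin.append s1 s2) := by
      rw [hza]
      simp
    rw [h1]
    exact le_ciSup (f := fun s => zf a J s) (Set.finite_range _).bddAbove _
  rw [hR] at key
  exact hL.trans key

theorem groundValue_tendsto : ∃ P : ℝ, Filter.Tendsto groundValue Filter.atTop (nhds P) := by
  have hsub : Subadditive fun n => -Msup n := by
    intro n m
    have h0 : Msup 0 = 0 := by
      unfold Msup
      have h1 : ∀ (J : Pair 0 → ℝ) (s : Conf 0), skEnergy J s = 0 := by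
        intro J s
        unfold skEnergy
        simp only [CharP.cast_eq_zero, Real.sqrt_zero, inv_zero, Finset.univ_eq_empty, Finset.sum_empty, mul_zero]
      simp only [h1, ciSup_unique, integral_zero]
    rcases Nat.eq_zero_or_pos n with hn | hn
    · subst hn
      simp [h0]
    rcases Nat.eq_zero_or_pos m with hm | hm
    · subst hm
      simp [h0]
    have := Msup_superadd n m hn hm
    simp only
    linarith only [this]
  have hbdd : BddBelow (Set.range fun n : ℕ => (fun n => -Msup n) n / (n : ℝ)) := by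
    refine ⟨-1, ?_⟩
    rintro _ ⟨n, rfl⟩
    simp only
    rcases Nat.eq_zero_or_pos n with hn | hn
    · subst hn; simp only [CharP.cast_eq_zero, div_zero, Left.neg_nonpos_iff, zero_le_one]
    · have hnr : (0 : ℝ) < n := by exact_mod_cast hn
      rw [le_div_iff₀ hnr]
      have h1 : Msup n ≤ n := integral_sup_le_one n
      linarith only [h1]
  have h := hsub.tendsto_lim hbdd
  refine ⟨-hsub.lim, ?_⟩
  refine (h.neg).congr fun n => ?_
  show -(-Msup n / (n : ℝ)) = groundValue n
  unfold groundValue Msup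
  rw [neg_div, neg_neg, div_eq_inv_mul]

end Vale.Agent.P367.GT
end
end

section

section

namespace Vale.Agent.P367.Lim

open Filter Topology Vale.Agent.P367.Gap

theorem tendsto_Pstar : Tendsto groundValue atTop (𝓝 Pstar) :=
  tendsto_nhds_limUnder Vale.Agent.P367.GT.groundValue_tendsto

theorem tendsto_vLim (p : ℕ) (γ β : Fin p → ℝ) :
    Tendsto (fun n : ℕ => qaoaValue n p γ β) atTop (𝓝 (vLim p γ β)) :=
  tendsto_nhds_limUnder (qaoaValue_tendsto p γ β)

theorem vLim_le (p : ℕ) (γ β : Fin p → ℝ) :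
    vLim p γ β ≤ Pstar - Real.exp (-(10 ^ 6 * 16 ^ p)) := by
  apply le_of_tendsto_of_tendsto (tendsto_vLim p γ β) (tendsto_Pstar.sub_const _)
  exact gap_explicit p γ β

theorem vLim_le_phase (T : ℝ) (p : ℕ) (γ β : Fin p → ℝ) (hγ : ∑ k, |γ k| ≤ T) :
    vLim p γ β ≤ Pstar - Real.exp (-(10 ^ 8 * (1 + T) ^ 2)) :=
  gap_limit T p γ β hγ _ _ (tendsto_vLim p γ β) tendsto_Pstar

theorem bdd_vLim (p : ℕ) :
    BddAbove (Set.range fun a : (Fin p → ℝ) × (Fin p → ℝ) => vLim p a.1 a.2) := by
  refine ⟨Pstar - Real.exp (-(10 ^ 6 * 16 ^ p)), ?_⟩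
  rintro _ ⟨a, rfl⟩
  exact vLim_le p a.1 a.2

theorem Qsup_le (p : ℕ) : Qsup p ≤ Pstar - Real.exp (-(10 ^ 6 * 16 ^ p)) := by
  unfold Qsup
  exact ciSup_le fun a => vLim_le p a.1 a.2

end Vale.Agent.P367.Lim
end
end
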